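import Vale.Agent.P366N.Dif
import Vale.Agent.P366M.Inv1
import Mathlib.Geometry.Manifold.PartitionOfUnity

/-!
# P366N: the structure `Mf0` of an atlas; gluing of local sections
-/

open Filter Topology Set Metric Function
open scoped ContDiff Manifold
open Vale.Agent.P366.Stmt (E)
open Vale.Agent.P366M

noncomputable section

namespace Vale.Agent.P366N

variable {n : ℕ} {M : Type}

/-- the structure `Mf0` of an atlas with the preferred charts `c` -/
@[reducible] def Atl.mf0 [m : MetricSpace M] [SecondCountableTopology M] [Nonempty M]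
    (A : Atl M (E n)) (c : M → Ch n M)
    (hc : ∀ x, A.Mx (c x) ∧ (c x).target = univ ∧ x ∈ (c x).source) : Mf0 n M where
  toMetricSpace := m
  toMeasurableSpace := borel M
  atlas := {e | A.Mx e ∧ e.target = univ}
  chartAt := c
  mem_chart_source x := (hc x).2.2
  chart_mem_atlas x := ⟨(hc x).1, (hc x).2.1⟩
  bor := @BorelSpace.mk M _ (borel M) rfl
  sc := inferInstance
  ne := inferInstance
  tgt _ he := he.2
  trans _ he _ he' y h := he.1.cp he'.1 y (he.2 ▸ mem_univ y) h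

theorem Atl.pref [TopologicalSpace M] (A : Atl M (E n)) (x : M) :
    ∃ e : Ch n M, A.Mx e ∧ e.target = univ ∧ x ∈ e.source := by
  obtain ⟨c, hc, hx⟩ := A.cov x
  obtain ⟨e, h1, h2, h3, -⟩ := (A.mx hc).germ hx univ_mem
  exact ⟨e, h1, h2, h3⟩

variable [Mf0 n M]

theorem isManifold : IsManifold 𝓘(ℝ, E n) ∞ M :=
  isManifold_of_contDiffOn 𝓘(ℝ, E n) ∞ M fun e e' he he' y hy => by
    have h : y ∈ (e.symm ≫ₕ e').source := by simpa using hy.1
    exact (Mf0.trans e he e' he' y h.2).contDiffWithinAt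

theorem cd_of_contMDiff {V : Type} [NormedAddCommGroup V] [NormedSpace ℝ V] {f : M → V}
    (hf : ContMDiff 𝓘(ℝ, E n) 𝓘(ℝ, V) ∞ f) : CD ∞ f := cd_of_cAt le_rfl fun x => by
  have := isManifold (n := n) (M := M)
  have he := chart_mem_atlas (E n) x
  have h := contMDiffOn_symm_of_mem_maximalAtlas (I := 𝓘(ℝ, E n)) (n := ∞)
    (IsManifold.subset_maximalAtlas he)
  rw [Mf0.tgt _ he, contMDiffOn_univ] at h
  exact (hf.comp h).contDiff.contDiffAt

/-- **gluing**: `R e y` expresses a value at the point `e.symm y` in the chart `e` -/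
theorem glue {V W : Type} [NormedAddCommGroup V] [NormedSpace ℝ V] [NormedAddCommGroup W]
    [NormedSpace ℝ W]
    (R : Ch n M → E n → V →ₗ[ℝ] W) {t : M → Set V} (ht : ∀ x, Convex ℝ (t x))
    (H : ∀ x : M, ∃ U ∈ 𝓝 x, ∃ T : M → V, (∀ e ∈ At M, ∀ y, e.symm y ∈ U →
      ContDiffAt ℝ ∞ (fun z => R e z (T (e.symm z))) y) ∧ ∀ z ∈ U, T z ∈ t z) :
    ∃ T : M → V, (∀ e ∈ At M, ContDiff ℝ ∞ fun z => R e z (T (e.symm z))) ∧ ∀ z, T z ∈ t z := by
  have := isManifold (n := n) (M := M)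
  choose U hU T h1 h2 using H
  obtain ⟨ρ, hρ⟩ := SmoothPartitionOfUnity.exists_isSubordinate 𝓘(ℝ, E n) isClosed_univ
    (fun x => interior (U x)) (fun _ => isOpen_interior)
    fun x _ => mem_iUnion.2 ⟨x, mem_interior_iff_mem_nhds.2 (hU x)⟩
  refine ⟨fun z => ∑ᶠ x, ρ x z • T x z, fun e he => contDiff_iff_contDiffAt.2 fun y => ?_,
    fun z => ρ.finsum_smul_mem_convex (mem_univ z) (fun x hx => h2 x z
      (interior_subset (hρ x (subset_tsupport _ hx)))) (ht z)⟩
  have h3 : ContDiffAt ℝ ∞ (fun z => ∑ x ∈ ρ.fintsupport (e.symm y),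
      ρ x (e.symm z) • R e z (T x (e.symm z))) y := ContDiffAt.sum fun x hx =>
    (cd_of_contMDiff (ρ x).contMDiff e he).contDiffAt.smul
      (h1 x e he y (interior_subset (hρ x ((ρ.mem_fintsupport_iff _ _).1 hx))))
  refine h3.congr_of_eventuallyEq ?_
  filter_upwards [(tendsto_symm he y).eventually (ρ.eventually_finsupport_subset (e.symm y))]
    with z hz
  rw [finsum_eq_sum_of_support_subset (s := ρ.fintsupport (e.symm y)), map_sum]
  · simp only [map_smul]
  · intro x hx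
    refine hz ((ρ.mem_finsupport _).2 fun k => hx ?_)
    simp only [k, zero_smul]

/-- gluing of functions -/
theorem glue_fun {V : Type} [NormedAddCommGroup V] [NormedSpace ℝ V] {t : M → Set V}
    (ht : ∀ x, Convex ℝ (t x)) (H : ∀ x : M, ∃ U ∈ 𝓝 x, ∃ f : M → V,
      (∀ z ∈ U, CAt ∞ f z) ∧ ∀ z ∈ U, f z ∈ t z) : ∃ f : M → V, CD ∞ f ∧ ∀ z, f z ∈ t z :=
  glue (fun _ _ => LinearMap.id) ht fun x => by
    obtain ⟨U, h1, f, h2, h3⟩ := H x
    exact ⟨U, h1, f, fun e he y hy => (h2 _ hy).lc le_rfl he, h3⟩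

/-- the linear map of `rep` -/
def repL (e : Ch n M) (y : E n) : (Fin n → Fin n → ℝ) →ₗ[ℝ] Fin n → Fin n → ℝ where
  toFun S i j := ∑ k, ∑ l, J e y k i * J e y l j * S k l
  map_add' S S' := by
    funext i j
    simp only [Pi.add_apply, mul_add, Finset.sum_add_distrib]
  map_smul' c S := by
    funext i j
    simp only [Pi.smul_apply, smul_eq_mul, RingHom.id_apply, Finset.mul_sum, mul_left_comm]

/-- gluing of tensors -/
theorem glue_ten {t : M → Set (Fin n → Fin n → ℝ)} (ht : ∀ x, Convex ℝ (t x))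
    (H : ∀ x : M, ∃ e ∈ At M, ∃ U ∈ 𝓝 x, U ⊆ e.source ∧ ∃ T : Fld n M,
      (∀ i j, P366.Stmt.Smooth fun y => rep e T y i j) ∧ ∀ z ∈ U, T z ∈ t z) :
    ∃ T : Fld n M, SmT T ∧ ∀ z, T z ∈ t z := by
  obtain ⟨T, h1, h2⟩ := glue repL ht fun x => by
    obtain ⟨e, he, U, h1, h2, T, h3, h4⟩ := H x
    refine ⟨U, h1, T, fun e' he' y hy => contDiffAt_pi.2 fun i => contDiffAt_pi.2 fun j => ?_, h4⟩
    have k := tm_cd he' he (h2 hy)
    refine (ContDiffAt.sum (s := Finset.univ) fun a _ => ContDiffAt.sum (s := Finset.univ) fun b _ =>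
      ((cd_jac k a i).mul
      (cd_jac k b j)).mul ((h3 a b).contDiffAt.comp y k)).congr_of_eventuallyEq ?_
    filter_upwards [ev_src he' (h2 hy)] with z hz using rep_tm T he' he hz i j
  exact ⟨T, fun e he i j => contDiff_pi.1 (contDiff_pi.1 (h1 e he) i) j, h2⟩

/-- the linear map of `repV` -/
def repVL (e : Ch n M) (y : E n) : (Fin n → ℝ) →ₗ[ℝ] Fin n → ℝ := Matrix.mulVecLin (J e y)⁻¹

/-- gluing of vector fields -/
theorem glue_vec {t : M → Set (Fin n → ℝ)} (ht : ∀ x, Convex ℝ (t x))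
    (H : ∀ x : M, ∃ e ∈ At M, ∃ U ∈ 𝓝 x, U ⊆ e.source ∧ ∃ X : Fin n → M → ℝ,
      (∀ i, P366.Stmt.Smooth (repV e X i)) ∧ ∀ z ∈ U, (fun i => X i z) ∈ t z) :
    ∃ X : Fin n → M → ℝ, CV ∞ X ∧ ∀ z, (fun i => X i z) ∈ t z := by
  obtain ⟨T, h1, h2⟩ := glue repVL ht fun x => by
    obtain ⟨e, he, U, h1, h2, X, h3, h4⟩ := H x
    refine ⟨U, h1, fun z i => X i z, fun e' he' y hy => contDiffAt_pi.2 fun i => ?_, h4⟩
    have k := tm_cd he' he (h2 hy)
    refine (ContDiffAt.sum (s := Finset.univ) fun a _ => (cd_jac_inv he' he (h2 hy) i a).mul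
      ((h3 a).contDiffAt.comp y k)).congr_of_eventuallyEq ?_
    filter_upwards [ev_src he' (h2 hy)] with z hz using repV_tm X he' he hz i
  exact ⟨fun i z => T z i, fun e he i => contDiff_pi.1 (h1 e he) i, h2⟩

/-- the tensor with the components `G` in the chart `e` -/
def unrep (e : Ch n M) (G : P366.Stmt.Field n) : Fld n M := fun z i j =>
  ∑ k, ∑ l, (J e (e z))⁻¹ k i * (J e (e z))⁻¹ l j * G (e z) k l

theorem mat_unrep (e : Ch n M) (G : P366.Stmt.Field n) (z : M) : mat (unrep e G) z =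
    ((J e (e z))⁻¹).transpose * P366.Stmt.mat G (e z) * (J e (e z))⁻¹ := by
  ext i j; exact sum2_eq _ _ _ i j

theorem rep_unrep {e : Ch n M} (he : e ∈ At M) (G : P366.Stmt.Field n) : rep e (unrep e G) = G := by
  funext y
  have h : P366.Stmt.mat (rep e (unrep e G)) y = P366.Stmt.mat G y := by
    rw [mat_rep, mat_unrep, right_inv he, ← Matrix.mul_assoc, ← Matrix.mul_assoc,
      ← Matrix.transpose_mul, J_inv_mul he, Matrix.transpose_one, Matrix.one_mul,
      Matrix.mul_assoc, J_inv_mul he, Matrix.mul_one]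
  exact h

theorem unrep_pos {e : Ch n M} (he : e ∈ At M) {G : P366.Stmt.Field n} {z : M}
    (h : (P366.Stmt.mat G (e z)).PosDef) : (mat (unrep e G) z).PosDef := by
  rw [mat_unrep]
  refine h.conjTranspose_mul_mul_same (B := (J e (e z))⁻¹) ?_
  exact Matrix.mulVec_injective_iff_isUnit.2 ((Matrix.isUnit_iff_isUnit_det _).2
    (Matrix.isUnit_det_of_left_inverse (J_mul_inv he _)))

/-- the vector field with the components `X` in the chart `e` -/
def unrepV (e : Ch n M) (X : Fin n → E n → ℝ) : Fin n → M → ℝ := fun i z =>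
  ∑ k, J e (e z) i k * X k (e z)

theorem repV_unrepV {e : Ch n M} (he : e ∈ At M) (X : Fin n → E n → ℝ) :
    repV e (unrepV e X) = X := by
  funext i y
  have h : (fun i => repV e (unrepV e X) i y) = fun i => X i y := by
    rw [repV_eq]
    show (J e y)⁻¹.mulVec ((J e (e (e.symm y))).mulVec fun k => X k (e (e.symm y))) = _
    rw [right_inv he, Matrix.mulVec_mulVec, J_inv_mul he, Matrix.one_mulVec]
  exact congrFun h i

theorem convex_posDef : Convex ℝ {S : Fin n → Fin n → ℝ | Matrix.PosDef (Matrix.of S)} := by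
  intro S hS T hT a b ha hb hab
  show Matrix.PosDef (a • Matrix.of S + b • Matrix.of T)
  rcases ha.eq_or_lt with rfl | ha'
  · rw [zero_add] at hab
    rw [hab, zero_smul, one_smul, zero_add]
    exact hT
  · exact (Matrix.PosDef.smul hS ha').add_posSemidef (hT.posSemidef.smul hb)

end Vale.Agent.P366N
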