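import Vale.Agent.P366N.Nch
import Vale.Agent.P366Y.J.Touch

/-!
# P366N: the barrier on small balls
-/

open MeasureTheory Metric Filter Topology Set
open scoped ContDiff
open Vale.Agent.P366 hiding E Field
open Vale.Agent.P366.Stmt Vale.Agent.P366Z

noncomputable section

namespace Vale.Agent.P366M.An

variable {n : ℕ}

section Euc

open Vale.Agent.P366P Vale.Agent.P366Y.C

variable {G : Field n} {φ z h : E n → ℝ} {y₀ : E n} {r C : ℝ}

/-- the point of contact with the barrier `-r log (r² - |y - y₀|²)` -/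
theorem contact (hz : Continuous z) (y₀ : E n) (hr : 0 < r) : ∃ y₁, ‖y₁ - y₀‖ < r ∧ z y₀ ≤ z y₁ ∧
    IsLocalMin (fun y => -r * Real.log (r ^ 2 - ‖y - y₀‖ ^ 2) - z y) y₁ := by
  have c : Continuous fun y => (r ^ 2 - ‖y - y₀‖ ^ 2) * Real.exp (z y / r) := by fun_prop
  obtain ⟨y₁, k0, k1⟩ := (isCompact_closedBall y₀ r).exists_isMaxOn
    ⟨y₀, mem_closedBall_self hr.le⟩ c.continuousOn
  have key : ∀ y, 0 < r ^ 2 - ‖y - y₀‖ ^ 2 → (r ^ 2 - ‖y - y₀‖ ^ 2) * Real.exp (z y / r) ≤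
      (r ^ 2 - ‖y₁ - y₀‖ ^ 2) * Real.exp (z y₁ / r) := fun y hy =>
    k1 (mem_closedBall_iff_norm.2 (le_of_sq_le_sq_of (by linarith) hr.le))
  have p0 : 0 < r ^ 2 - ‖y₀ - y₀‖ ^ 2 := by simp; positivity
  have p1 : 0 < r ^ 2 - ‖y₁ - y₀‖ ^ 2 :=
    pos_of_mul_pos_left ((by positivity : 0 < (r ^ 2 - ‖y₀ - y₀‖ ^ 2) *
      Real.exp (z y₀ / r)).trans_le (key y₀ p0)) (Real.exp_pos _).le
  have key2 : ∀ y, 0 < r ^ 2 - ‖y - y₀‖ ^ 2 → r * Real.log (r ^ 2 - ‖y - y₀‖ ^ 2) + z y ≤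
      r * Real.log (r ^ 2 - ‖y₁ - y₀‖ ^ 2) + z y₁ := fun y hy => by
    have k := Real.log_le_log (by positivity) (key y hy)
    rw [Real.log_mul hy.ne' (Real.exp_pos _).ne', Real.log_mul p1.ne' (Real.exp_pos _).ne',
      Real.log_exp, Real.log_exp] at k
    have k2 := mul_le_mul_of_nonneg_left k hr.le
    rwa [mul_add, mul_add, mul_div_cancel₀ _ hr.ne', mul_div_cancel₀ _ hr.ne'] at k2
  refine ⟨y₁, lt_of_pow_lt_pow_left₀ 2 hr.le (by linarith), ?_, ?_⟩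
  · have := key2 y₀ p0
    have k3 : Real.log (r ^ 2 - ‖y₁ - y₀‖ ^ 2) ≤ Real.log (r ^ 2 - ‖y₀ - y₀‖ ^ 2) :=
      Real.log_le_log p1 (by simp)
    nlinarith
  · have ev : ∀ᶠ y in 𝓝 y₁, 0 < r ^ 2 - ‖y - y₀‖ ^ 2 :=
      (by fun_prop : Continuous fun y => r ^ 2 - ‖y - y₀‖ ^ 2).continuousAt.eventually
        (lt_mem_nhds p1)
    exact ev.mono fun y hy => by have := key2 y hy; simp only; linarith
where le_of_sq_le_sq_of {a b : ℝ} (h : a ^ 2 ≤ b ^ 2) (hb : 0 ≤ b) : a ≤ b :=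
  (abs_le_of_sq_le_sq' h hb).2

theorem pd_bar {y : E n} (hy : 0 < r ^ 2 - ‖y - y₀‖ ^ 2) (j : Fin n) :
    Stmt.pd j (fun y => -r * Real.log (r ^ 2 - ‖y - y₀‖ ^ 2)) y =
      2 * r * (y j - y₀ j) / (r ^ 2 - ‖y - y₀‖ ^ 2) := by
  have d : DifferentiableAt ℝ (fun y : E n => ‖y - y₀‖ ^ 2) y :=
    (differentiableAt_id.sub_const _).norm_sq ℝ
  rw [P366Z.pd_const_mul, P366Z.pd_log (d.const_sub _) hy.ne', P366Z.pd_const_sub,
    P366Z.pd_translate (f := fun z => ‖z‖ ^ 2), P366Z.pd_normSq, PiLp.sub_apply]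
  field_simp

theorem pd2_bar {y : E n} (hy : 0 < r ^ 2 - ‖y - y₀‖ ^ 2) (i j : Fin n) :
    Stmt.pd i (Stmt.pd j fun y => -r * Real.log (r ^ 2 - ‖y - y₀‖ ^ 2)) y =
      2 * r / (r ^ 2 - ‖y - y₀‖ ^ 2) * (if i = j then 1 else 0) +
        4 * r * (y i - y₀ i) * (y j - y₀ j) / (r ^ 2 - ‖y - y₀‖ ^ 2) ^ 2 := by
  have d : DifferentiableAt ℝ (fun y : E n => ‖y - y₀‖ ^ 2) y :=
    (differentiableAt_id.sub_const _).norm_sq ℝ
  have ev : ∀ᶠ w in 𝓝 y, 0 < r ^ 2 - ‖w - y₀‖ ^ 2 :=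
    (by fun_prop : Continuous fun y => r ^ 2 - ‖y - y₀‖ ^ 2).continuousAt.eventually
      (lt_mem_nhds hy)
  rw [P366Z.pd_congr (ev.mono fun w hw => pd_bar hw j), P366Z.pd_div (by fun_prop) (d.const_sub _)
    hy.ne', P366Z.pd_const_mul, P366Z.pd_sub_const, P366Z.pd_coord, P366Z.pd_const_sub,
    P366Z.pd_translate (f := fun z => ‖z‖ ^ 2), P366Z.pd_normSq, PiLp.sub_apply]
  field_simp
  ring

theorem psd_entry {a : Fin n → Fin n → ℝ} (h : P366Y.J.Psd a) (i j : Fin n) :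
    |a i j| ≤ ∑ k, a k k := by
  have q : ∀ i j, ∑ k, ∑ l, a k l * (Pi.single i 1 : Fin n → ℝ) k * (Pi.single j 1 : Fin n → ℝ) l =
      a i j := fun i j => by simp [Pi.single_apply]
  have d : ∀ k, 0 ≤ a k k := fun k => q k k ▸ h.2 _
  have c := quad_cs h.1 h.2 (Pi.single i 1) (Pi.single j 1)
  rw [q, q, q] at c
  have s := fun i => Finset.single_le_sum (f := fun k => a k k) (fun k _ => d k) (Finset.mem_univ i)
  exact abs_le.2 (abs_le_of_sq_le_sq' (c.trans (by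
    rw [sq]; exact mul_le_mul (s i) (s j) (d j) ((d i).trans (s i)))) ((d i).trans (s i)))

/-- the mean curvature at the point of contact -/
theorem barE (hG : P366Z.Met G) (hz : Stmt.Smooth z) (hr : 0 < r)
    (hN : ∀ y, ‖y - y₀‖ < r → Nu G y ∧ ∑ k, ∑ i, ∑ j, |Stmt.chr G k i j y| ≤ C ∧
      P366Z.gn G φ y ≤ C) : ∃ y₁, ‖y₁ - y₀‖ < r ∧ z y₀ ≤ z y₁ ∧
      P366P.hw G φ z y₁ ≤ (2 * n + 3) / r + (2 * n + 3) * C := by
  obtain ⟨y, h0, h1, h2⟩ := contact hz.cont y₀ hr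
  refine ⟨y, h0, h1, ?_⟩
  obtain ⟨N, c1, c2⟩ := hN y h0
  have p : 0 < r ^ 2 - ‖y - y₀‖ ^ 2 := sub_pos.2 (pow_lt_pow_left₀ h0 (norm_nonneg _) two_ne_zero)
  have hm := met_g hG hz
  have ps : P366Y.J.Psd fun i j => Stmt.up (gb G 1 z) i j y :=
    ⟨fun i j => hm.up_sy i j y, hm.up_nonneg y⟩
  have cv : ContDiffAt ℝ 2 (fun y : E n => -r * Real.log (r ^ 2 - ‖y - y₀‖ ^ 2)) y :=
    contDiffAt_const.mul ((contDiffAt_const.sub
      ((contDiffAt_id.sub contDiffAt_const).norm_sq ℝ)).log p.ne')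
  obtain ⟨t1, t2⟩ := P366Y.J.touch n _ z y _ cv (hz.c2 y) h2 ps
  set σ := r ^ 2 - ‖y - y₀‖ ^ 2 with hσ
  have e1 : ∀ j, Stmt.pd j z y = 2 * r * (y j - y₀ j) / σ := fun j =>
    (congrFun t1 j).symm.trans (pd_bar p j)
  have W0 := w_pos hG z y
  have W1 : 1 ≤ ww G 1 z y := GbH.one_le_ww hG 1 z y
  have W2 := w_sq hG z y
  set W := ww G 1 z y with hW
  have n0 : (0 : ℝ) ≤ n := Nat.cast_nonneg n
  have tr : ∑ i, Stmt.up (gb G 1 z) i i y ≤ n + 1 :=
    (Finset.sum_le_sum fun i _ => by rw [up_g hG]; nlinarith [mul_self_nonneg (nv G z i y)]).trans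
      N.tr
  have q1 : ∑ i, Stmt.pd i z y ^ 2 ≤ 2 * (W ^ 2 - 1) := by
    rw [W2, add_sub_cancel_left]; exact N.lo _
  have q2 : ∑ i, Stmt.pd i z y ^ 2 = 4 * r ^ 2 * ‖y - y₀‖ ^ 2 / σ ^ 2 := by
    rw [P366Z.norm_sq_eq, Finset.mul_sum, Finset.sum_div]
    exact Finset.sum_congr rfl fun i _ => by rw [e1, PiLp.sub_apply, div_pow]; congr 1; ring
  have q3 : r ^ 2 ≤ σ * W := by
    refine (abs_le_of_sq_le_sq' ?_ (by positivity)).2
    rw [q2, div_le_iff₀ (by positivity)] at q1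
    have : σ ^ 2 = (r ^ 2 - ‖y - y₀‖ ^ 2) ^ 2 := rfl
    nlinarith [sq_nonneg (‖y - y₀‖ ^ 2)]
  have q4 : ∀ k, |Stmt.pd k z y| ≤ 2 * W := fun k => by
    refine abs_le.2 (abs_le_of_sq_le_sq' ?_ (by positivity))
    have := Finset.single_le_sum (f := fun i => Stmt.pd i z y ^ 2) (fun i _ => sq_nonneg _)
      (Finset.mem_univ k)
    nlinarith
  have q5 : ∑ i, ∑ j, Stmt.up (gb G 1 z) i j y * Stmt.pd i (Stmt.pd j z) y ≤
      2 * r / σ * (n + 1) + 1 / r := by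
    refine t2.trans ?_
    have k1 : ∑ i, ∑ j, Stmt.up (gb G 1 z) i j y *
        Stmt.pd i (Stmt.pd j fun y => -r * Real.log (r ^ 2 - ‖y - y₀‖ ^ 2)) y =
        2 * r / σ * ∑ i, Stmt.up (gb G 1 z) i i y + 1 / r * P366Z.ip (gb G 1 z) z z y := by
      rw [P366Z.ip, Finset.mul_sum, Finset.mul_sum, ← Finset.sum_add_distrib]
      refine Finset.sum_congr rfl fun i _ => ?_
      simp only [pd2_bar p, mul_add, Finset.sum_add_distrib, mul_ite, mul_one, mul_zero,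
        Finset.sum_ite_eq, Finset.mem_univ, if_true, Finset.mul_sum, e1]
      congr 1
      · ring
      · exact Finset.sum_congr rfl fun j _ => by rw [← hσ]; field_simp; ring
    refine k1.trans_le (add_le_add (mul_le_mul_of_nonneg_left tr (by positivity)) ?_)
    rw [ip_g_f hG]
    have : 0 < (W ^ 2)⁻¹ := by positivity
    have : 0 < 1 / r := by positivity
    nlinarith
  have q6 : -(∑ i, ∑ j, Stmt.up (gb G 1 z) i j y * ∑ k, Stmt.chr G k i j y * Stmt.pd k z y) ≤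
      (n + 1) * (2 * W) * C := by
    refine le_trans ?_ (mul_le_mul_of_nonneg_left c1 (by positivity))
    rw [Finset.sum_comm (f := fun k i => ∑ j, |Stmt.chr G k i j y|), ← Finset.sum_neg_distrib,
      Finset.mul_sum]
    refine Finset.sum_le_sum fun i _ => ?_
    rw [Finset.sum_comm, ← Finset.sum_neg_distrib, Finset.mul_sum]
    refine Finset.sum_le_sum fun j _ => ?_
    rw [Finset.mul_sum, Finset.mul_sum, ← Finset.sum_neg_distrib]
    refine Finset.sum_le_sum fun k _ => (neg_le_abs _).trans ?_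
    rw [abs_mul, abs_mul, mul_comm |Stmt.chr G k i j y|, ← mul_assoc]
    exact mul_le_mul_of_nonneg_right (mul_le_mul ((psd_entry ps i j).trans tr) (q4 k)
      (abs_nonneg _) (by positivity)) (abs_nonneg _)
  have q7 : P366Z.dv G (nv G z) y = (∑ i, ∑ j, Stmt.up (gb G 1 z) i j y *
      Stmt.pd i (Stmt.pd j z) y - ∑ i, ∑ j, Stmt.up (gb G 1 z) i j y *
        ∑ k, Stmt.chr G k i j y * Stmt.pd k z y) / W := by
    rw [dv_nv' hG hz, Stmt.tr, ← Finset.sum_sub_distrib, Finset.sum_div]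
    refine Finset.sum_congr rfl fun i _ => ?_
    rw [← Finset.sum_sub_distrib, Finset.sum_div]
    exact Finset.sum_congr rfl fun j _ => by rw [sf, Stmt.hess]; ring
  have q8 : P366Z.dv G (nv G z) y ≤ (2 * n + 3) / r + (2 * n + 2) * C := by
    rw [q7, div_le_iff₀ W0]
    have k1 : 2 * r / σ ≤ 2 / r * W := by
      rw [div_le_iff₀ p, div_mul_eq_mul_div, div_mul_eq_mul_div, le_div_iff₀ hr]; nlinarith
    have k2 : 1 / r ≤ 1 / r * W := le_mul_of_one_le_right (by positivity) W1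
    have k3 := mul_le_mul_of_nonneg_right k1 (by positivity : (0 : ℝ) ≤ n + 1)
    have k4 : ((2 * n + 3) / r + (2 * n + 2) * C) * W =
        2 / r * W * (n + 1) + 1 / r * W + (n + 1) * (2 * W) * C := by ring
    linarith
  rw [hw_eq hG]
  linarith [(abs_le.1 (abs_dn_le hG z φ y)).2]

/-- the lower bound along segments -/
theorem segE (hG : P366Z.Met G) (hh : Stmt.Smooth h) {θ T h₁ : ℝ} (hθ : 0 ≤ θ) (hT : 0 < T)
    (h1 : h₁ ≤ T / 2) (h2 : 4 * θ * T * r < 1) (hN : ∀ y, ‖y - y₀‖ < r → Nu G y)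
    (hb : ∀ y, h₁ ≤ h y → P366Z.gn G h y ≤ θ * h y ^ 2) (h0 : T ≤ h y₀) {y₁ : E n}
    (hy : ‖y₁ - y₀‖ < r) : T / 2 ≤ h y₁ := by
  have d : ∀ t : ℝ, HasDerivAt (fun t : ℝ => -h (y₀ + t • (y₁ - y₀)))
      (-fderiv ℝ h (y₀ + t • (y₁ - y₀)) (y₁ - y₀)) t := fun t =>
    ((hh.diff _).hasFDerivAt.comp_hasDerivAt t
      (by simpa using ((hasDerivAt_id t).smul_const (y₁ - y₀)).const_add y₀)).neg
  have b : ∀ t : ℝ, HasDerivAt (fun t : ℝ => -T + T / 2 * t) (T / 2) t := fun t => by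
    simpa using ((hasDerivAt_id t).const_mul (T / 2)).const_add (-T)
  have := image_le_of_deriv_right_lt_deriv_boundary (a := 0) (b := 1)
    (fun t _ => (d t).continuousAt.continuousWithinAt) (fun t _ => (d t).hasDerivWithinAt)
    (by simpa using h0) b (fun t ht e => ?_) (x := 1) (by simp)
  · simp only [one_smul, add_sub_cancel] at this
    linarith
  · have m : ‖y₀ + t • (y₁ - y₀) - y₀‖ < r := by
      rw [add_sub_cancel_left, norm_smul, Real.norm_of_nonneg ht.1]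
      nlinarith [norm_nonneg (y₁ - y₀), ht.1, ht.2]
    have k0 : h (y₀ + t • (y₁ - y₀)) = T - T / 2 * t := by linarith
    have k1 : T / 2 ≤ T - T / 2 * t := by nlinarith [ht.2]
    have k2 : T - T / 2 * t ≤ T := by nlinarith [ht.1]
    have k3 := (hN _ m).norm_le hG (hh.diff _)
    have k4 := hb _ (by rw [k0]; linarith)
    rw [k0] at k4
    have k5 : θ * (T - T / 2 * t) ^ 2 ≤ θ * T ^ 2 :=
      mul_le_mul_of_nonneg_left (pow_le_pow_left₀ (by linarith) k2 2) hθ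
    have k6 := (neg_le_abs _).trans ((fderiv ℝ h (y₀ + t • (y₁ - y₀))).le_opNorm (y₁ - y₀))
    have k7 : ‖fderiv ℝ h (y₀ + t • (y₁ - y₀))‖ * ‖y₁ - y₀‖ ≤ 2 * (θ * T ^ 2) * r :=
      mul_le_mul (by linarith) hy.le (norm_nonneg _) (by positivity)
    nlinarith

end Euc

open Vale.Agent.P366M.Gr

/-- **BAR** -/
theorem bar : BAR := by
  intro n
  have n0 : (0 : ℝ) ≤ n := Nat.cast_nonneg n
  obtain ⟨c, hc⟩ : ∃ c : ℝ, c = 2 * n + 3 := ⟨_, rfl⟩
  have c0 : 0 < c := by linarith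
  refine ⟨1 / (32 * c), by positivity, fun X _ _ g f h₁ hg hf => ?_⟩
  have key : ∀ᶠ T in atTop, ∀ x₀ : X, ∀ (h₀ z : X → ℝ) (a : ℝ), Smooth h₀ → Smooth z →
      (∀ x, h₁ ≤ h₀ x → gn g h₀ x ≤ 1 / (32 * c) * h₀ x ^ 2) →
      (∀ x, 0 < h₀ x → a < z x → h₀ x ≤ hw g f z x) → T ≤ h₀ x₀ → z x₀ ≤ a + 0 := by
    refine unif fun p => ?_
    obtain ⟨e, he, h0, δ, δ0, hδ⟩ := exists_nu hg p
    have hG := hg.rep he
    obtain ⟨C, hC⟩ := (isCompact_closedBall (0 : E n) (2 * δ)).exists_bound_of_continuousOn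
      (f := fun y => ∑ k, ∑ i, ∑ j, |Stmt.chr (rep e g) k i j y| + P366Z.gn (rep e g) (loc e f) y)
      (Continuous.add (continuous_finsetSum _ fun k _ => continuous_finsetSum _ fun i _ =>
        continuous_finsetSum _ fun j _ => (hG.sm_chr k i j).cont.abs)
        (hG.sm_ip (hf e he) (hf e he)).cont.sqrt).continuousOn
    refine ⟨e.symm '' ball 0 δ, h0 ▸ (openEmb_symm he).image_mem_nhds.2 (ball_mem_nhds _ δ0), ?_⟩
    filter_upwards [eventually_gt_atTop 0, eventually_ge_atTop (2 * h₁),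
      eventually_ge_atTop (4 * c / δ), eventually_gt_atTop (4 * (c * C))] with T T0 T1 T2 T3
    rintro _ ⟨y₀, hy₀, rfl⟩ h₀ z a s1 s2 hb hz hT
    have r0 : 0 < 4 * c / T := by positivity
    have r1 : 4 * c / T ≤ δ := by
      rw [div_le_iff₀ T0]; rw [div_le_iff₀ δ0] at T2; linarith
    have mem : ∀ y, ‖y - y₀‖ < 4 * c / T → y ∈ closedBall (0 : E n) (2 * δ) := fun y hy => by
      have := norm_le_insert' y y₀
      rw [mem_ball_zero_iff] at hy₀
      rw [mem_closedBall_zero_iff]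
      linarith
    obtain ⟨y, y1, y2, y3⟩ := barE (φ := loc e f) (C := C) hG (s2 e he) r0 fun y hy => by
      have k := (le_abs_self _).trans (hC y (mem y hy))
      have k1 : 0 ≤ ∑ k, ∑ i, ∑ j, |Stmt.chr (rep e g) k i j y| := by positivity
      exact ⟨hδ y (mem y hy), by linarith [P366Z.gn_nonneg (rep e g) (loc e f) y], by linarith⟩
    have y4 := segE (θ := 1 / (32 * c)) (h₁ := h₁) hG (s1 e he) (by positivity) T0 (by linarith)
      (by field_simp; linarith) (fun y hy => hδ y (mem y hy))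
      (fun y hy => by rw [← loc_gn he g s1.diff]; exact hb _ hy) hT y1
    rw [← loc_hw hg he hf s2, ← hc] at y3
    refine not_lt.1 fun k => ?_
    have y5 := hz (e.symm y) (by change _ ≤ h₀ _ at y4; linarith)
      (by change z _ ≤ z _ at y2; linarith)
    have y6 : c / (4 * c / T) = T / 4 := by field_simp
    change _ ≤ h₀ _ at y4
    change hw g f z _ ≤ _ at y3
    linarith
  obtain ⟨T₀, hT⟩ := eventually_atTop.1 key
  exact ⟨T₀, fun T k => ⟨0, fun h₀ z a x₀ => hT T k x₀ h₀ z a⟩⟩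

end Vale.Agent.P366M.An
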