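import Vale.Agent.P366N.Mke1

/-!
# P366N: the structures `Mfs` and `Mfe` of an atlas with end charts
-/

open Filter Topology Set Metric Function
open scoped ContDiff
open Vale.Agent.P366.Stmt (E)
open Vale.Agent.P366M

noncomputable section

namespace Vale.Agent.P366N

theorem exists_dir {n : ℕ} {y : E n} (hy : y ≠ 0) : ∃ (i : Fin n) (σ : Bool),
    ‖y‖ ≤ n * inner ℝ (EuclideanSpace.single i (if σ then 1 else -1 : ℝ)) y := by
  have : Nonempty (Fin n) := by
    by_contra k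
    exact hy (by ext i; exact (k ⟨i⟩).elim)
  obtain ⟨i, hi⟩ := Finite.exists_max fun i => |y i|
  have h1 : ‖y‖ ≤ n * |y i| := by
    have e : y = ∑ k, EuclideanSpace.single k (y k) := by
      ext k
      simp [Finset.sum_apply, Pi.single_apply]
    calc ‖y‖ ≤ ∑ k, ‖EuclideanSpace.single k (y k)‖ := by
          conv_lhs => rw [e]
          exact norm_sum_le _ _
      _ ≤ ∑ _k : Fin n, |y i| := Finset.sum_le_sum fun k _ => by simpa using hi k
      _ = n * |y i| := by simp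
  rcases abs_cases (y i) with h | h
  · exact ⟨i, true, by simpa [EuclideanSpace.inner_single_left, h.1] using h1⟩
  · exact ⟨i, false, by simpa [EuclideanSpace.inner_single_left, h.1] using h1⟩

/-- the chart `e` corresponds to the chart `c` -/
structure Rel {n : ℕ} {M M' : Type} [TopologicalSpace M] [TopologicalSpace M'] (h : M → M')
    (c : Ch n M) (e : Ch n M') : Prop where
  symm : ∀ y, e.symm y = h (c.symm y)
  app : ∀ x, e (h x) = c x
  src : ∀ x, h x ∈ e.source ↔ x ∈ c.source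

namespace Pre

variable {n : ℕ} {M ι : Type} [TopologicalSpace M] [Fintype ι] (P : Pre n M ι)

/-- the radius -/
def rr : ℝ := n * (P.R₁ + 8) + P.R₁ + 10

omit [Fintype ι] in
theorem rr_ge : P.R₁ + 10 ≤ P.rr := by
  have := P.R1
  have : 0 ≤ (n : ℝ) * (P.R₁ + 8) := by positivity
  unfold rr
  linarith

omit [Fintype ι] in
theorem exists_hc (j : ι) {w : E n} (hw : ‖w‖ = 1) : ∃ e : Ch n M, P.A.Mx e ∧ e.target = univ ∧
    ∀ y, P.R₁ + 3 ≤ inner ℝ w y → e.symm y = (P.Y j).symm y := by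
  obtain ⟨θ, t1, t2, t3, t4⟩ := exists_half (show P.R₁ + 2 < P.R₁ + 3 by linarith) hw
  refine ⟨(P.Y j).trans θ, (P.mx j).trans t3, eq_univ_of_forall fun y => ⟨t2 ▸ mem_univ y, ?_⟩,
    fun y hy => ?_⟩
  · have h1 : P.R₁ + 2 < inner ℝ w (θ.symm y) := (t1 ▸ θ.map_target (t2 ▸ mem_univ y) :
      θ.symm y ∈ {y | P.R₁ + 2 < inner ℝ w y})
    have h2 := real_inner_le_norm w (θ.symm y)
    rw [hw, one_mul] at h2
    exact mem_tg (by linarith)
  · show (P.Y j).symm (θ.symm y) = _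
    conv_lhs => rw [← t4 y hy]
    rw [θ.left_inv (t1 ▸ show P.R₁ + 2 < inner ℝ w y by linarith)]

theorem exists_pref : ∃ c : M → Ch n M,
    (∀ x, P.A.Mx (c x) ∧ (c x).target = univ ∧ x ∈ (c x).source) ∧ (range c).Finite ∧
    (∀ j y, P.rr ≤ ‖y‖ → c ((P.Y j).symm y) ((P.Y j).symm y) = y ∧
      ∀ z ∈ ball y 5, (c ((P.Y j).symm y)).symm z = (P.Y j).symm z) ∧
    ∃ C, ∀ x, ‖P.px x‖ ≤ P.rr → ‖c x x‖ ≤ C := by
  have hr := P.rr_ge
  have h0 := P.R1
  obtain ⟨κ, _, c, a, h1, h2⟩ := P.exists_cover P.rr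
  have hw : ∀ (i : Fin n) (σ : Bool), ‖EuclideanSpace.single i (if σ then 1 else -1 : ℝ)‖ = 1 :=
    fun i σ => by cases σ <;> simp
  choose d d1 d2 d3 using fun q : ι × Fin n × Bool => P.exists_hc q.1 (hw q.2.1 q.2.2)
  obtain ⟨C, hC⟩ := (finite_range fun k => ‖a k‖).bddAbove
  have key : ∀ x, ∃ e ∈ range c ∪ range d, (P.A.Mx e ∧ e.target = univ ∧ x ∈ e.source) ∧
      (∀ j y, P.rr ≤ ‖y‖ → x = (P.Y j).symm y → e x = y ∧
        ∀ z ∈ ball y 5, e.symm z = (P.Y j).symm z) ∧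
      (‖P.px x‖ ≤ P.rr → ‖e x‖ ≤ max (C + 1) P.rr) := fun x => by
    by_cases hx : P.rr ≤ ‖P.px x‖
    · obtain ⟨j, k1, k2⟩ := of_px (show P.R₁ + 2 ≤ ‖P.px x‖ by linarith)
      obtain ⟨i, σ, k3⟩ := exists_dir (y := P.px x) (norm_pos_iff.1 (by linarith))
      have k4 : ∀ z ∈ ball (P.px x) 5, (d (j, i, σ)).symm z = (P.Y j).symm z := fun z hz => by
        refine d3 (j, i, σ) z ?_
        have l1 := real_inner_le_norm (EuclideanSpace.single i (if σ then 1 else -1 : ℝ))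
          (P.px x - z)
        rw [hw, one_mul, inner_sub_right] at l1
        have l2 := mem_ball_iff_norm'.1 hz
        have l3 : (0 : ℝ) < n := by exact_mod_cast i.pos
        have l4 : P.R₁ + 8 ≤ inner ℝ (EuclideanSpace.single i (if σ then 1 else -1 : ℝ))
            (P.px x) := le_of_mul_le_mul_left (by unfold rr at hx; linarith) l3
        simp only
        linarith
      have k5 : (d (j, i, σ)).symm (P.px x) = x := by
        rw [k4 _ (mem_ball_self (by norm_num)), ← k2, (P.Y j).left_inv k1]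
      have k6 : d (j, i, σ) x = P.px x := by
        conv_lhs => rw [← k5]
        exact (d (j, i, σ)).right_inv (d2 _ ▸ mem_univ _)
      refine ⟨_, Or.inr ⟨(j, i, σ), rfl⟩, ⟨d1 _, d2 _, k5 ▸ (d (j, i, σ)).map_target
        (d2 _ ▸ mem_univ _)⟩, fun j' y hy e => ?_, fun h => k6 ▸ le_max_of_le_right h⟩
      have e1 : P.px x = y := by rw [e, px_symm (by linarith)]
      have e2 : j = j' := by
        by_contra l
        exact disjoint_left.1 (P.dj j j' l) k1 (e ▸ (P.Y j').map_target (mem_tg (by linarith)))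
      subst e1 e2
      exact ⟨k6, k4⟩
    · obtain ⟨k, k1, k2⟩ := h2 x (not_le.1 hx).le
      refine ⟨_, Or.inl ⟨k, rfl⟩, ⟨(h1 k).1, (h1 k).2.1, k1⟩, fun j y hy e => ?_,
        fun _ => le_max_of_le_left ?_⟩
      · rw [e, px_symm (by linarith)] at hx
        exact (hx hy).elim
      · linarith [norm_sub_norm_le (c k x) (a k), mem_ball_iff_norm.1 k2, hC ⟨k, rfl⟩]
  choose e e1 e2 e3 e4 using key
  exact ⟨e, e2, ((finite_range c).union (finite_range d)).subset (range_subset_iff.2 e1),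
    fun j y hy => e3 _ j y hy rfl, _, e4⟩

end Pre

theorem exists_mfs0 {n : ℕ} {M ι V : Type} [m : MetricSpace M] [Nonempty M] [Fintype ι]
    (P : Pre n M ι) [NormedAddCommGroup V] [NormedSpace ℝ V] [SecondCountableTopology V]
    {Ψ : M → V} (hd : Isometry Ψ) (hΨ : P.A.SA Ψ)
    (h1 : ∀ x, ∃ c, P.A.Mx c ∧ x ∈ c.source ∧ ∃ π : V → E n, LipschitzWith 1 π ∧
      ∀ᶠ x' in 𝓝 x, c x' = π (Ψ x')) (h2 : ∀ x y, ‖P.px x - P.px y‖ ≤ dist (Ψ x) (Ψ y))
    (h3 : ∀ j y z, P.R₁ + 4 ≤ ‖y‖ → P.R₁ + 4 ≤ ‖z‖ →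
      dist (Ψ ((P.Y j).symm y)) (Ψ ((P.Y j).symm z)) = ‖y - z‖)
    (h4 : ∀ j j' y z, j ≠ j' → P.R₁ + 4 ≤ ‖y‖ → P.R₁ + 4 ≤ ‖z‖ →
      1 ≤ dist (Ψ ((P.Y j).symm y)) (Ψ ((P.Y j').symm z))) :
    ∃ (M' : Type) (_ : Mfs n M') (h : M ≃ₜ M') (ν : ι ≃ Nd M'),
      (∀ c, P.A.Mx c → c.target = univ → ∃ e ∈ At M', Rel h c e) ∧
      (∀ e ∈ At M', ∃ c, P.A.Mx c ∧ c.target = univ ∧ Rel h c e) ∧ P.R₁ + 10 ≤ R0 M' ∧
      (∀ j y, ye (ν j) y = h ((P.Y j).symm y)) ∧ ∀ x, px (h x) = P.px x := by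
  have := hd.isEmbedding.secondCountableTopology
  have hr := P.rr_ge
  have h0 := P.R1
  obtain ⟨c, c1, c2, c3, c4⟩ := P.exists_pref
  letI I : Mf0 n M := P.A.mf0 c c1
  have hA : ∀ e : Ch n M, e ∈ At M ↔ P.A.Mx e ∧ e.target = univ := fun e => by
    refine ⟨fun he => ⟨fun b hb => ⟨fun y hy k => ?_, fun y hy k => ?_⟩, he.1⟩,
      fun he => mem_At he⟩
    · refine Cp.at (c := c (e.symm y)) (fun z _ l => (he.2 _).1 z l) le_rfl hy (c1 _).2.2 ?_
      exact ((c1 _).1 b hb).1 _ ((c _).map_source (c1 _).2.2) (by rwa [(c _).left_inv (c1 _).2.2])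
    · refine Cp.at (c := c (b.symm y)) ((c1 _).1 b hb).2 le_rfl hy (c1 _).2.2 ?_
      exact (he.2 _).2 _ (by rwa [show (ch (b.symm y)) = c (b.symm y) from rfl,
        (c _).left_inv (c1 _).2.2])
  have hcd : ∀ {W : Type} [NormedAddCommGroup W] [NormedSpace ℝ W] {u : M → W},
      P.A.SA u → CD ∞ u := fun h e he => contDiff_iff_contDiffAt.2 fun y =>
    h e ((hA e).1 he).1 y (mem_tgt he y) trivial
  obtain ⟨g, g1, g2⟩ := glue_ten (n := n) (M := M) (t := fun z =>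
      {S | Matrix.PosDef (Matrix.of S)} ∩ {S | P.rr ≤ ‖P.px z‖ → S = eu n z})
    (fun z => convex_posDef.inter (by
      by_cases hz : P.rr ≤ ‖P.px z‖
      · simp only [hz, true_imp_iff, ofPred_eq_eq_singleton, convex_singleton]
      · simp only [hz, false_imp_iff, ofPred_true, convex_univ])) fun x => by
    have l1 : ∀ i j, P366.Stmt.Smooth fun y => rep (ch x) (unrep (ch x) (P366Z.eu n)) y i j :=
      fun i j => by rw [rep_unrep (ch_mem x)]; exact contDiff_const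
    have l2 : ∀ z, Matrix.PosDef (Matrix.of (unrep (ch x) (P366Z.eu n) z)) := fun z =>
      unrep_pos (ch_mem x) Matrix.PosDef.one
    by_cases hx : P.rr ≤ ‖P.px x‖
    · obtain ⟨j, k1, k2⟩ := Pre.of_px (show P.R₁ + 2 ≤ ‖P.px x‖ by linarith)
      have k3 : (P.Y j).symm (P.px x) = x := by rw [← k2, (P.Y j).left_inv k1]
      obtain ⟨k4, k5⟩ := c3 j _ hx
      rw [k3] at k4 k5
      refine ⟨_, ch_mem x, (ch x).symm '' ball (pt x) 1, ?_, ?_, _, l1, ?_⟩
      · have := (openEmb_symm (ch_mem x)).image_mem_nhds.2 (ball_mem_nhds (pt x) one_pos)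
        rwa [symm_pt] at this
      · rintro _ ⟨y, -, rfl⟩
        exact symm_mem (ch_mem x) y
      · rintro _ ⟨y, hy, rfl⟩
        refine ⟨l2 _, fun hz => ?_⟩
        have m0 : y ∈ ball (P.px x) 1 := k4 ▸ hy
        have m1 : (ch x).symm y = (P.Y j).symm y := k5 y (ball_subset_ball (by norm_num) m0)
        have m2 : P.R₁ + 2 ≤ ‖y‖ := by
          linarith [norm_sub_norm_le (P.px x) y, mem_ball_iff_norm'.1 m0]
        rw [m1, Pre.px_symm m2] at hz
        have m3 : J (ch x) y = 1 := by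
          rw [J, ← jac_id y]
          refine jac_congr ?_
          filter_upwards [isOpen_ball.mem_nhds m0, ball_mem_nhds y (show (0 : ℝ) < 5 by norm_num)]
            with w w1 w2
          have := (c3 j y hz).2 w w2
          rw [tm, m1, show (ch x).symm w = _ from k5 w (ball_subset_ball (by norm_num) w1), ← this]
          exact right_inv (ch_mem _) w
        funext a b
        simp [unrep, right_inv (ch_mem x), m3, Matrix.one_apply, P366Z.eu, eu, eq_comm]
    · refine ⟨_, ch_mem x, (ch x).source ∩ {z | ‖P.px z‖ < P.rr}, inter_mem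
        ((ch x).open_source.mem_nhds (mem_ch x)) ((isOpen_lt P.sa_px.cont.norm
          continuous_const).mem_nhds (not_le.1 hx)), inter_subset_left, _, l1,
        fun z hz => ⟨l2 z, fun k => (hz.2.not_ge k).elim⟩⟩
  letI I1 : Mf n M := ⟨g, g1, fun x i j => by
    simpa using congrFun (congrFun (g2 x).1.1.eq j) i, fun x => (g2 x).1⟩
  letI I2 : Mfs n M :=
    { ι := ι
      fι := inferInstance
      px := P.px
      ye := fun j => (P.Y j).symm
      R0 := P.rr
      R0_ge := by linarith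
      sm_px := hcd P.sa_px
      px_ye := fun j y hy => Pre.px_symm (by linarith)
      ye_px := fun x hx => by
        obtain ⟨j, k1, k2⟩ := Pre.of_px (show P.R₁ + 2 ≤ ‖P.px x‖ by linarith)
        exact ⟨j, by rw [← k2, (P.Y j).left_inv k1]⟩
      far := c3
      half := fun j w hw => by
        obtain ⟨e, e1, e2, e3⟩ := P.exists_hc j hw
        exact ⟨e, (hA e).2 ⟨e1, e2⟩, fun y hy => e3 y (by linarith)⟩
      cpt := P.cpt_px
      fin := c2
      core := c4
      lip := fun x y => by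
        obtain ⟨K, t, k1, k2⟩ :=
          ((hcd hΨ _ (ch_mem x)).of_le one_le_oo).locallyLipschitz (𝕂 := ℝ) y
        exact ⟨K, t, k1, fun a ha b hb => hd.edist_eq _ _ ▸ k2 ha hb⟩
      lip' := fun x p hp => by
        obtain ⟨b, b1, b2, π, b3, b4⟩ := h1 p
        obtain ⟨K, t, k1, k2⟩ := ((b1.cp (c1 x).1 _ (b.map_source b2)
          (by rwa [b.left_inv b2])).of_le one_le_oo).exists_lipschitzOnWith (𝕂 := ℝ)
        refine ⟨K, _, inter_mem (inter_mem b4 (b.open_source.mem_nhds b2))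
          ((b.continuousAt b2).preimage_mem_nhds k1), fun a ha a' ha' => ?_⟩
        have k3 := k2 ha.2 ha'.2
        simp only [b.left_inv ha.1.2, b.left_inv ha'.1.2] at k3
        refine k3.trans (mul_le_mul_right ?_ _)
        rw [ha.1.1, ha'.1.1, ← hd.edist_eq]
        simpa using b3 (Ψ a) (Ψ a')
      px_le := fun x y => hd.dist_eq x y ▸ h2 x y
      dist_far := fun j y z hy hz => hd.dist_eq _ _ ▸ h3 j y z (by linarith) (by linarith)
      sep := fun j j' y z h hy hz => hd.dist_eq _ _ ▸ h4 j j' y z h (by linarith) (by linarith)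
      bg_far := fun x hx => (g2 x).2 hx }
  exact ⟨M, I2, Homeomorph.refl M, Equiv.refl ι,
    fun c k1 k2 => ⟨c, (hA c).2 ⟨k1, k2⟩, fun _ => rfl, fun _ => rfl, fun _ => Iff.rfl⟩,
    fun e he => ⟨e, ((hA e).1 he).1, he.1, fun _ => rfl, fun _ => rfl, fun _ => Iff.rfl⟩, hr,
    fun _ _ => rfl, fun _ => rfl⟩

/-- **the structure `Mfs`** -/
theorem Pre.exists_mfs {n : ℕ} {M ι : Type} [TopologicalSpace M] [T2Space M] [Nonempty M]
    [Fintype ι] (P : Pre n M ι) :
    ∃ (M' : Type) (_ : Mfs n M') (h : M ≃ₜ M') (ν : ι ≃ Nd M'),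
      (∀ c, P.A.Mx c → c.target = univ → ∃ e ∈ At M', Rel h c e) ∧
      (∀ e ∈ At M', ∃ c, P.A.Mx c ∧ c.target = univ ∧ Rel h c e) ∧ P.R₁ + 10 ≤ R0 M' ∧
      (∀ j y, ye (ν j) y = h ((P.Y j).symm y)) ∧ ∀ x, Mfs.px (h x) = P.px x := by
  obtain ⟨V, _, _, _, Ψ, h0, h1, h2, h3, h4, h5⟩ := P.exists_emb
  exact exists_mfs0 (m := h0.comapMetricSpace Ψ) P (fun _ _ => rfl) h1 h2 h3 h4 h5

/-- **the structure `Mfe`** -/
theorem Pre.exists_mfe {n : ℕ} {M : Type} [TopologicalSpace M] [T2Space M] [ConnectedSpace M]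
    (P : Pre n M Unit) : ∃ (M' : Type) (_ : Mfe n M') (h : M ≃ₜ M'),
      (∀ c, P.A.Mx c → c.target = univ → ∃ e ∈ At M', Rel h c e) ∧
      (∀ e ∈ At M', ∃ c, P.A.Mx c ∧ c.target = univ ∧ Rel h c e) ∧ P.R₁ + 10 ≤ R0 M' ∧
      (∀ y, yp y = h ((P.Y ()).symm y)) ∧ ∀ x, Mfs.px (h x) = P.px x := by
  obtain ⟨M', I, h, ν, h1, h2, h3, h4, h5⟩ := P.exists_mfs
  exact ⟨M', ⟨ν (), fun j => by rw [← ν.apply_symm_apply j], h.surjective.connectedSpace
    h.continuous⟩, h, h1, h2, h3, h4 (), h5⟩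

end Vale.Agent.P366N
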