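import Vale.Agent.P366C.Ana
import Vale.Agent.P366D.Lat

/-!
# P366N: the data induced on a flat graph are close to the flat ones
-/

open MeasureTheory Metric Filter Topology Set
open scoped ContDiff
open Vale.Agent.P366 hiding E Field
open Vale.Agent.P366.Stmt Vale.Agent.P366Z
open Vale.Agent.P366D (snc ini lat Uo Sml Nr pl pb)
open Vale.Agent.P366C (Ls eL)
open Fin (last)

noncomputable section

namespace Vale.Agent.P366M.An

namespace ChnH

variable {k l N : ℕ} {c d : ℝ} {u v : E k → ℝ} {U : Set (E k)}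

/-- smooth on `U`, with the derivatives up to the order `N` bounded by `c` -/
structure Bn (N : ℕ) (c : ℝ) (u : E k → ℝ) (U : Set (E k)) : Prop where
  sm : ∀ y ∈ U, ContDiffAt ℝ ∞ u y
  bd : ∀ m ≤ N, ∀ y ∈ U, ‖iteratedFDeriv ℝ m u y‖ ≤ c

theorem le_oo (m : ℕ) : (m : WithTop ℕ∞) ≤ ∞ := by exact_mod_cast le_top

theorem Bn.add (h : Bn N c u U) (h' : Bn N d v U) : Bn N (c + d) (fun y => u y + v y) U :=
  ⟨fun y hy => (h.sm y hy).add (h'.sm y hy), fun m hm y hy => by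
    rw [fun_iteratedFDeriv_add_apply ((h.sm y hy).of_le (le_oo m)) ((h'.sm y hy).of_le (le_oo m))]
    exact (norm_add_le _ _).trans (add_le_add (h.bd m hm y hy) (h'.bd m hm y hy))⟩

theorem Bn.mul (hU : IsOpen U) (h : Bn N c u U) (h' : Bn N d v U) :
    Bn N (2 ^ N * (c * d)) (fun y => u y * v y) U :=
  ⟨fun y hy => (h.sm y hy).mul (h'.sm y hy), fun m hm y hy => by
    have c0 := (norm_nonneg _).trans (h.bd 0 N.zero_le y hy)
    have d0 := (norm_nonneg _).trans (h'.bd 0 N.zero_le y hy)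
    have := norm_iteratedFDerivWithin_mul_le (fun y hy => (h.sm y hy).contDiffWithinAt)
      (fun y hy => (h'.sm y hy).contDiffWithinAt) hU.uniqueDiffOn hy (le_oo m)
    simp only [iteratedFDerivWithin_of_isOpen _ hU hy] at this
    refine this.trans ((Finset.sum_le_sum (g := fun i => (m.choose i : ℝ) * (c * d))
      fun i hi => ?_).trans ?_)
    · rw [mul_assoc]
      exact mul_le_mul_of_nonneg_left (mul_le_mul
        (h.bd i ((Finset.mem_range_succ_iff.1 hi).trans hm) y hy)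
        (h'.bd _ ((Nat.sub_le m i).trans hm) y hy) (norm_nonneg _) c0) (Nat.cast_nonneg _)
    · rw [← Finset.sum_mul, ← Nat.cast_sum, Nat.sum_range_choose, Nat.cast_pow, Nat.cast_two]
      exact mul_le_mul_of_nonneg_right (pow_le_pow_right₀ one_le_two hm) (mul_nonneg c0 d0)⟩

theorem Bn.comp {σ : E l → E k} {V : Set (E l)} (hU : IsOpen U) (hV : IsOpen V) (h : Bn N c u U)
    (hσ : ∀ y ∈ V, ContDiffAt ℝ ∞ σ y) (hm : MapsTo σ V U)
    (hb : ∀ m, 1 ≤ m → m ≤ N → ∀ y ∈ V, ‖iteratedFDeriv ℝ m σ y‖ ≤ 2) :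
    Bn N (N.factorial * 2 ^ N * c) (fun y => u (σ y)) V :=
  ⟨fun y hy => (h.sm _ (hm hy)).comp y (hσ y hy), fun m k y hy => by
    have c0 := (norm_nonneg _).trans (h.bd 0 N.zero_le _ (hm hy))
    have := norm_iteratedFDerivWithin_comp_le (fun y hy => (h.sm y hy).contDiffWithinAt)
      (fun y hy => (hσ y hy).contDiffWithinAt) (le_oo m) hU.uniqueDiffOn hV.uniqueDiffOn hm hy
      (C := c) (D := 2) (fun i hi => by
        rw [iteratedFDerivWithin_of_isOpen _ hU (hm hy)]; exact h.bd i (hi.trans k) _ (hm hy))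
      fun i h1 hi => by
        rw [iteratedFDerivWithin_of_isOpen _ hV hy]
        exact (hb i h1 (hi.trans k) y hy).trans (le_self_pow₀ one_le_two (by omega))
    rw [iteratedFDerivWithin_of_isOpen _ hV hy] at this
    refine this.trans ?_
    rw [mul_right_comm]
    have : (m.factorial : ℝ) ≤ N.factorial := by exact_mod_cast Nat.factorial_le k
    gcongr
    exact one_le_two⟩

theorem bn_pd (hU : IsOpen U) (hs : ∀ y ∈ U, ContDiffAt ℝ ∞ u y)
    (hb : ∀ m ≤ N, ∀ y ∈ U, ‖iteratedFDeriv ℝ (m + 1) u y‖ ≤ c) (i : Fin k) :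
    Bn N c (Stmt.pd i u) U :=
  ⟨fun y hy => contDiffAt_pd (hs y hy) (by simp) i, fun m hm y hy => by
    have e : Stmt.pd i u =ᶠ[𝓝 y] fun z => fderiv ℝ u z (EuclideanSpace.single i 1) :=
      eventually_of_mem (hU.mem_nhds hy) fun z hz =>
        P366Z.pd_eq ((hs z hz).differentiableAt (by simp)) i
    rw [(e.iteratedFDeriv ℝ m).self_of_nhds]
    refine (norm_iteratedFDeriv_clm_apply_const (N := ∞) ((hs y hy).fderiv_right (by simp))
      (le_oo m)).trans ?_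
    rw [norm_iteratedFDeriv_fderiv]
    simpa using hb m hm y hy⟩

theorem Bn.sml {η : ℝ} (h0 : 0 < η) (h : Bn ⌊1 / η⌋₊ c u (Uo k η)) (hc : c ≤ η) : Sml η u :=
  fun m hm y hy => (h.bd m (Nat.le_floor ((le_div_iff₀ h0).2 hm)) y hy).trans hc

theorem bn_of {η : ℝ} (h : Sml η u) (hs : ∀ y ∈ Uo k η, ContDiffAt ℝ ∞ u y) (h0 : 0 ≤ η)
    (hN : N * η ≤ 1) : Bn N η u (Uo k η) :=
  ⟨hs, fun m hm => h m ((mul_le_mul_of_nonneg_right (by exact_mod_cast hm) h0).trans hN)⟩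

theorem Bn.mono (h : Bn N c u U) (hc : c ≤ d) : Bn N d u U :=
  ⟨h.sm, fun m hm y hy => (h.bd m hm y hy).trans hc⟩

theorem snc_eq (y : E k) (s : ℝ) : snc y s = Ls k y + s • eL k := by
  ext i; refine Fin.lastCases ?_ (fun j => ?_) i <;> simp [Ls, eL, snc]

theorem norm_graph {w : E k → ℝ} {y : E k} (hw : ContDiffAt ℝ ∞ w y) {m : ℕ} (hm : 1 ≤ m)
    (hb : ‖iteratedFDeriv ℝ m w y‖ ≤ 1) : ‖iteratedFDeriv ℝ m (fun z => snc z (w z)) y‖ ≤ 2 := by
  have h1 : ‖iteratedFDeriv ℝ m (fun z => Ls k z) y‖ ≤ 1 := by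
    obtain ⟨m, rfl⟩ := Nat.exists_eq_add_of_le' hm
    rw [← norm_iteratedFDeriv_fderiv]
    have : fderiv ℝ (fun z => Ls k z) = fun _ => (Ls k).toContinuousLinearMap :=
      funext fun z => (Ls k).toContinuousLinearMap.fderiv
    rw [this]
    rcases m with _ | m
    · rw [norm_iteratedFDeriv_zero]; exact (Ls k).norm_toContinuousLinearMap_le
    · simp [iteratedFDeriv_succ_const]
  have h2 : ‖iteratedFDeriv ℝ m (fun z => w z • eL k) y‖ ≤ 1 := by
    refine ((ContinuousLinearMap.toSpanSingleton ℝ (eL k)).norm_iteratedFDeriv_comp_left hw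
      (le_oo m)).trans ?_
    rw [ContinuousLinearMap.norm_toSpanSingleton]
    simpa [eL] using hb
  simp only [snc_eq]
  rw [fun_iteratedFDeriv_add_apply (g := fun z => w z • eL k) ((Ls k).contDiff.contDiffAt)
    ((hw.smul contDiffAt_const).of_le (le_oo m))]
  exact (norm_add_le _ _).trans (by linarith)

theorem pb_graph (w : E k → ℝ) (G : Stmt.Field (k + 1)) (y : E k) (i j : Fin k) :
    pb (fun z => snc z (w z)) G y i j = G (snc y (w y)) i.castSucc j.castSucc +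
      Stmt.pd j w y * G (snc y (w y)) i.castSucc (last k) +
      Stmt.pd i w y * G (snc y (w y)) (last k) j.castSucc +
      Stmt.pd i w y * Stmt.pd j w y * G (snc y (w y)) (last k) (last k) := by
  simp only [pb, jac, Fin.sum_univ_castSucc, P366D.snc_cast, P366D.snc_last, P366Z.pd_coord,
    ite_mul, mul_ite, one_mul, zero_mul, mul_one, mul_zero, Finset.sum_ite_eq, Finset.mem_univ,
    if_true, Finset.sum_add_distrib]
  ring

end ChnH

open ChnH

theorem snc_mem_Uo {k : ℕ} {η η' : ℝ} (h : η ≤ η') {y : E k} (hy : y ∈ Uo k η') (s : ℝ) :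
    snc y s ∈ Uo (k + 1) η := fun z => by
  refine (h.trans_lt (hy fun i => z i.castSucc)).trans_le ?_
  rw [EuclideanSpace.norm_eq, EuclideanSpace.norm_eq, Fin.sum_univ_castSucc]
  refine Real.sqrt_le_sqrt (le_add_of_le_of_nonneg (le_of_eq ?_) (sq_nonneg _))
  simp

/-- **CHN**: the data induced on a flat graph -/
theorem chn (k : ℕ) {η' : ℝ} (h0 : 0 < η') : ∃ η₁ > (0 : ℝ), η₁ ≤ η' ∧ ∀ η, 0 < η → η ≤ η₁ →
    ∀ (X : Type) [Mf0 (k + 1) X] (g : Fld (k + 1) X) (f : X → ℝ) (Y : E (k + 1) → X)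
      (w : E k → ℝ), Nr g f Y η → (∀ y ∈ Uo k η', ContDiffAt ℝ ∞ w y) →
      (∀ m : ℕ, m * η' ≤ 1 → ∀ y ∈ Uo k η', ‖iteratedFDeriv ℝ (m + 1) w y‖ ≤ η₁) →
      (∀ i j, Sml η' fun y => pl (fun z => Y (snc z (w z))) g y i j - if i = j then 1 else 0) ∧
        Sml η' fun y => f (Y (snc y (w y))) := by
  obtain ⟨N, hN⟩ : ∃ N, N = ⌊1 / η'⌋₊ := ⟨_, rfl⟩
  obtain ⟨A, hA⟩ : ∃ A : ℝ, A = N.factorial * 2 ^ N := ⟨_, rfl⟩
  obtain ⟨B, hB⟩ : ∃ B : ℝ, B = 2 ^ N := ⟨_, rfl⟩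
  have B1 : 1 ≤ B := hB ▸ one_le_pow₀ one_le_two
  have A1 : 1 ≤ A := hA ▸ one_le_mul_of_one_le_of_one_le
    (by exact_mod_cast N.factorial_pos) (one_le_pow₀ one_le_two)
  obtain ⟨K, hK⟩ : ∃ K : ℝ, K = A + B * A + B * A + (B * (B * A) + B) := ⟨_, rfl⟩
  have KA : A ≤ K := by rw [hK]; have : 0 ≤ B * A := by positivity
                        nlinarith
  have K1 : 1 ≤ K := A1.trans KA
  have N1 : (N : ℝ) * η' ≤ 1 := (le_div_iff₀ h0).1 (hN ▸ Nat.floor_le (by positivity))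
  have d1 : η' / K ≤ η' := div_le_self h0.le K1
  refine ⟨min 1 (η' / K), by positivity, (min_le_right _ _).trans d1,
    fun η η0 η1 X _ g f Y w hn hw hb => ?_⟩
  set δ := min 1 (η' / K) with hδ
  have δ0 : 0 < δ := by positivity
  have δ1 : δ ≤ 1 := min_le_left _ _
  have δ2 : K * δ ≤ η' := by
    rw [mul_comm, ← le_div_iff₀ (by linarith)]; exact min_le_right _ _
  have η2 : η ≤ η' := η1.trans ((min_le_right _ _).trans d1)
  have N2 : (N : ℝ) * η ≤ 1 := (mul_le_mul_of_nonneg_left η2 N.cast_nonneg).trans N1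
  have hb' : ∀ m ≤ N, ∀ y ∈ Uo k η', ‖iteratedFDeriv ℝ (m + 1) w y‖ ≤ δ := fun m hm =>
    hb m ((mul_le_mul_of_nonneg_right (by exact_mod_cast hm) h0.le).trans N1)
  have oU := P366D.isOpen_Uo (k := k) (η := η')
  have sσ : ∀ y ∈ Uo k η', ContDiffAt ℝ ∞ (fun z => snc z (w z)) y := fun y hy =>
    P366D.cd_snc contDiffAt_id (hw y hy)
  have cmp : ∀ u : E (k + 1) → ℝ, Sml η u → (∀ y ∈ Uo (k + 1) η, ContDiffAt ℝ ∞ u y) →
      Bn N (A * δ) (fun y => u (snc y (w y))) (Uo k η') := fun u h1 h2 => by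
    rw [hA]
    exact ((bn_of h1 h2 η0.le N2).mono η1).comp P366D.isOpen_Uo oU sσ
      (fun y hy => snc_mem_Uo η2 hy _) fun m m1 m2 y hy => norm_graph (hw y hy) m1 (by
        obtain ⟨m, rfl⟩ := Nat.exists_eq_add_of_le' m1
        exact (hb' m (by omega) y hy).trans δ1)
  have hG := fun a b => cmp _ (hn.gs a b) fun y hy =>
    ((hn.per.smP hy).cd_pl hn.met.sm a b).sub contDiffAt_const
  have hp := bn_pd oU hw hb'
  have hp1 := fun i => (hp i).mono δ1
  refine ⟨fun i j => ?_, Bn.sml h0 (hN ▸ cmp _ hn.fs fun y hy =>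
    (hn.per.smP hy).cAt le_rfl (CD.contDiffAt hn.smf)) (by nlinarith)⟩
  have key := (((hG i.castSucc j.castSucc).add ((hp1 j).mul oU (hG i.castSucc (last k)))).add
    ((hp1 i).mul oU (hG (last k) j.castSucc))).add
    (((hp1 i).mul oU ((hp1 j).mul oU (hG (last k) (last k)))).add ((hp1 i).mul oU (hp j)))
  rw [← hB, hN] at key
  refine (Bn.sml h0 key (by rw [hK] at δ2; linarith)).congr fun y hy => ?_
  rw [(hn.per.smP (snc_mem_Uo η2 hy _)).pl_comp ((sσ y hy).differentiableAt (by simp)), pb_graph]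
  simp only [Fin.castSucc_inj, Fin.castSucc_ne_last, (Fin.castSucc_ne_last _).symm, if_false, if_true]
  ring

end Vale.Agent.P366M.An
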