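import Vale.Agent.P366.Stmt
import Mathlib.Geometry.Manifold.Instances.Real
import Mathlib.Geometry.Manifold.IsManifold.InteriorBoundary
import Mathlib.Geometry.Manifold.LocalDiffeomorph

/-!
# P366: exteriors as manifolds with boundary
-/

open MeasureTheory Filter Topology Set Manifold
open scoped ContDiff ENNReal
open Vale.Agent.P366.Stmt

noncomputable section

namespace Vale.Agent.P366N.St

/-! ### tensors on a manifold with the model `I` -/

section General

variable {V H : Type} [NormedAddCommGroup V] [NormedSpace ℝ V] [TopologicalSpace H]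
  (I : ModelWithCorners ℝ V H) {Ω : Type} [TopologicalSpace Ω] [ChartedSpace H Ω]

variable (Ω) in
/-- Covariant 2-tensor fields. -/
def Bil : Type := (x : Ω) → TangentSpace I x →L[ℝ] TangentSpace I x →L[ℝ] ℝ

variable (Ω) in
/-- Vector fields. -/
def Vec : Type := (x : Ω) → TangentSpace I x

/-- The value of `T` on two tangent vectors at `x`. -/
def ev (T : Bil I Ω) (x : Ω) (v w : TangentSpace I x) : ℝ := T x v w

/-- `T` is symmetric. -/
def Symm (T : Bil I Ω) : Prop := ∀ x v w, ev I T x v w = ev I T x w v

/-- `T` is positive definite. -/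
def Pos (T : Bil I Ω) : Prop := ∀ x v, v ≠ 0 → 0 < ev I T x v v

/-- The differential of a map `φ` from the subset `s` of the model vector space. -/
def dPar (φ : V → Ω) (s : Set V) (y v : V) : TangentSpace I (φ y) :=
  mfderivWithin 𝓘(ℝ, V) I φ s y v

/-- The pull-back of `T` by `φ`. -/
def pull (T : Bil I Ω) (φ : V → Ω) (s : Set V) (y v w : V) : ℝ :=
  ev I T (φ y) (dPar I φ s y v) (dPar I φ s y w)

/-- The vector field `X` in the chart at `p`. -/
def push (X : Vec I Ω) (p : Ω) (y : V) : V :=
  mfderiv I 𝓘(ℝ, V) (extChartAt I p) ((extChartAt I p).symm y) (X ((extChartAt I p).symm y))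

/-- `X` is smooth up to the boundary, compactly supported, and of length at most one. -/
def Test (g : Bil I Ω) (X : Vec I Ω) : Prop :=
  (∀ p, ContDiffOn ℝ ∞ (push I X p) (extChartAt I p).target) ∧
    (∃ C, IsCompact C ∧ ∀ x ∉ C, X x = 0) ∧ ∀ x, ev I g x (X x) (X x) ≤ 1

/-- `G` is smooth, and its differential does not vanish on its zero set. -/
def Regular (G : Ω → ℝ) : Prop :=
  ContMDiff I 𝓘(ℝ, ℝ) ∞ G ∧ ∀ x, G x = 0 → mfderiv I 𝓘(ℝ, ℝ) G x ≠ 0

variable (Ω) in
/-- Diffeomorphisms from open subsets of the model vector space onto open subsets of `Ω`. -/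
def Par : Type := PartialDiffeomorph 𝓘(ℝ, V) I V Ω ∞

/-- The underlying partial bijection. -/
def Par.eqv (Φ : Par I Ω) : PartialEquiv V Ω := Φ.toPartialEquiv

end General

/-! ### manifolds with boundary of dimension `n` -/

variable {n : ℕ} [NeZero n] {Ω : Type} [TopologicalSpace Ω] [ChartedSpace (EuclideanHalfSpace n) Ω]

variable (n Ω) in
/-- Covariant 2-tensor fields on `Ω`. -/
def Tensor : Type := Bil (𝓡∂ n) Ω

variable (n Ω) in
/-- Vector fields on `Ω`. -/
def Vector : Type := Vec (𝓡∂ n) Ω

variable (n Ω) in
/-- The boundary of `Ω`. -/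
def bdry : Set Ω := (𝓡∂ n).boundary Ω

variable (n) in
/-- The chart at `p`, with values in the closed half-space of the coordinate space. -/
def crd (p : Ω) : PartialEquiv Ω (E n) := extChartAt (𝓡∂ n) p

variable (n) in
/-- The closed half-space. -/
def half : Set (E n) := range (𝓡∂ n)

/-- The components of `T` in the parametrisation `φ`, which is defined on a relatively open part
of the set `s` (the whole space or the closed half-space). -/
def comps (T : Tensor n Ω) (φ : E n → Ω) (s : Set (E n)) : Field n := fun y i j =>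
  pull (𝓡∂ n) T φ s y (EuclideanSpace.single i 1) (EuclideanSpace.single j 1)

/-- The components of `T` in the chart at `p`. -/
def inChart (T : Tensor n Ω) (p : Ω) : Field n := comps T (crd n p).symm (half n)

/-- `T` is symmetric and smooth up to the boundary: its components are smooth in every chart. -/
def SmoothSymm (T : Tensor n Ω) : Prop :=
  Symm (𝓡∂ n) T ∧ ∀ p i j, ContDiffOn ℝ ∞ (fun y => inChart T p y i j) (crd n p).target

/-- `G` is a smooth field on the coordinate space which extends the components of `T` in the chart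
at `x` near the point `x`. -/
def Rep (T : Tensor n Ω) (x : Ω) (G : Field n) : Prop := (∀ i j, Smooth fun y => G y i j) ∧
  ∀ᶠ y in 𝓝[half n] (crd n x x), G y = inChart T x y

/-- The components of the vector field `X` in the chart at `p`. -/
def vecIn (X : Vector n Ω) (p : Ω) (y : E n) : E n := push (𝓡∂ n) X p y

/-- The divergence of `X` for the metric `g`, computed in the chart at `x` (it is used at interior
points only: the boundary is a null set). -/
def diverg (g : Tensor n Ω) (X : Vector n Ω) (x : Ω) : ℝ :=
  (∑ i, pd i (fun y => √(mat (inChart g x) y).det * vecIn X x y i) (crd n x x)) /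
    √(mat (inChart g x) (crd n x x)).det

/-- The Riemannian volume: the least measure that dominates, for every chart, Lebesgue measure
with the density `√ det g` on the image of the chart. -/
def riemVol [MeasurableSpace Ω] (g : Tensor n Ω) : Measure Ω :=
  ⨆ p : Ω, (((vol n).withDensity fun y => ENNReal.ofReal √(mat (inChart g p) y).det).restrict
    (crd n p).target).map (crd n p).symm

variable (n Ω) in
/-- Initial data on the manifold with boundary `Ω`: a Riemannian metric `g` and a symmetric
tensor `K`, smooth up to the nonempty boundary; the complement of a compact set is identified by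
`Φ` with the exterior of a ball. -/
structure Data where
  g : Tensor n Ω
  K : Tensor n Ω
  R₀ : ℝ
  Φ : Par (𝓡∂ n) Ω
  smg : SmoothSymm g
  smK : SmoothSymm K
  pos : Pos (𝓡∂ n) g
  ne : (bdry n Ω).Nonempty
  src : (Φ.eqv (𝓡∂ n)).source = {y | R₀ < len y}
  cpt : IsCompact (Φ.eqv (𝓡∂ n)).targetᶜ

namespace Data

variable (D : Data n Ω)

/-- The parametrisation of the end. -/
def φ : E n → Ω := D.Φ.eqv (𝓡∂ n)

/-- The components of the metric on the end. -/
def gE : Field n := comps D.g D.φ univ

/-- The components of `K` on the end. -/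
def KE : Field n := comps D.K D.φ univ

/-- Asymptotic flatness of order `q > (n - 2) / 2`. -/
def IsAF : Prop := ∃ q : ℝ, (n : ℝ) / 2 - 1 < q ∧ ∀ i j k l,
    BigO q (fun y => D.gE y i j - if i = j then 1 else 0) ∧
    BigO (q + 1) (pd k fun y => D.gE y i j) ∧
    BigO (q + 1 + 1) (pd l (pd k fun y => D.gE y i j)) ∧
    BigO (q + 1) (fun y => D.KE y i j) ∧
    BigO (q + 1 + 1) (pd k fun y => D.KE y i j)

/-- The dominant energy condition. -/
def DEC : Prop := ∀ x G L, Rep D.g x G → Rep D.K x L →
  covNorm G (mom G L) (crd n x x) ≤ mu G L (crd n x x)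

/-- The boundary is weakly future trapped; in a chart it is the level set `{y₀ = 0}` and `Ω` is
the side `{y₀ ≥ 0}`. -/
def Trapped : Prop := ∀ x ∈ bdry n Ω, ∀ G L, Rep D.g x G → Rep D.K x L →
  thetaPlus G L (fun y => y 0) (crd n x x) ≤ 0

/-- `m` is the ADM energy. -/
def IsEnergy (m : ℝ) : Prop :=
  Tendsto (flx fun i y => (∑ j, (pd j (fun z => D.gE z i j) y - pd i (fun z => D.gE z j j) y)) / 2)
    atTop (𝓝 m)

/-- `P` is the ADM momentum. -/
def IsMomentum (P : Fin n → ℝ) : Prop :=
  ∀ i, Tendsto (flx fun j y => momT D.gE D.KE y i j) atTop (𝓝 (P i))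

/-- `{0 ≤ G}` is a connected region with the smooth boundary `{G = 0}` that contains the end
outside some coordinate sphere and whose interior lies in the interior of `Ω`. -/
def IsCut (G : Ω → ℝ) : Prop := Regular (𝓡∂ n) G ∧ IsConnected {x | 0 ≤ G x} ∧
  (∀ x ∈ bdry n Ω, G x ≤ 0) ∧ ∃ R, ∀ y, R < len y → 0 < G (D.φ y)

variable [MeasurableSpace Ω]

/-- The `g`-area of the boundary `{G = 0}` of `{0 ≤ G}`, as the supremum of the integrals over
`{0 ≤ G}` of the divergence of the admissible test fields. -/
def area (G : Ω → ℝ) : ℝ≥0∞ :=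
  sSup {a | ∃ X, Test (𝓡∂ n) D.g X ∧
    a = ENNReal.ofReal (∫ x in {x | 0 ≤ G x}, diverg D.g X x ∂riemVol D.g)}

/-- `A_min`: the infimum of the areas of the enclosing cuts. -/
def Amin : ℝ≥0∞ := sInf {a | ∃ G, D.IsCut G ∧ a = D.area G}

end Data

end Vale.Agent.P366N.St
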