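import Vale.Agent.P366N.Fin
import Vale.Agent.P366N.St

/-!
# P366N: the final statement over the short definitions
-/

open Manifold
open scoped ContDiff
open Vale.Agent.P366.Stmt

noncomputable section

namespace Vale.Agent.P366N

/-- **the final statement** -/
def FINAL2 : Prop := ∀ (n : ℕ) [NeZero n] (Ω : Type) [TopologicalSpace Ω] [T2Space Ω]
  [ConnectedSpace Ω] [ChartedSpace (EuclideanHalfSpace n) Ω] [IsManifold (𝓡∂ n) ∞ Ω]
  [MeasurableSpace Ω] [BorelSpace Ω] (D : St.Data n Ω) (m : ℝ) (P : Fin n → ℝ), 3 ≤ n →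
  D.IsAF → D.DEC → D.Trapped → D.IsEnergy m → D.IsMomentum P →
    D.Amin ≠ ⊤ ∧ √(∑ i, P i ^ 2) < m ∧
      (D.Amin.toReal / omega n) ^ (((n : ℝ) - 2) / (n - 1)) / 2 ≤ √(m ^ 2 - ∑ i, P i ^ 2)

variable {n : ℕ} [NeZero n] {Ω : Type} [TopologicalSpace Ω] [ChartedSpace (EuclideanHalfSpace n) Ω]

/-- the same data -/
def St.Data.old (D : St.Data n Ω) : P366N.Data n Ω :=
  ⟨D.g, D.K, D.R₀, D.Φ, D.smg, D.smK, D.pos, D.ne, D.src, D.cpt⟩

theorem St.Data.amin_old [MeasurableSpace Ω] (D : St.Data n Ω) : D.Amin = D.old.Amin := by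
  unfold St.Data.Amin P366N.Data.Amin
  congr 1
  ext a
  exact exists_congr fun G => and_congr and_assoc Iff.rfl

/-- **the final statement from `FULL`** -/
theorem final2_of (H : P366M.FULL) : FINAL2 := fun n _ Ω _ _ _ _ _ _ _ D m P hn h1 h2 h3 h4 h5 => by
  rw [D.amin_old]
  exact final_of H n Ω D.old m P hn h1 h2 h3 h4 h5

end Vale.Agent.P366N
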