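import Vale.Agent.P366N.St

/-!
# P366: integrability of the energy and momentum densities
-/

open MeasureTheory
open Vale.Agent.P366.Stmt

noncomputable section

namespace Vale.Agent.P366N.St.Data

variable {n : ℕ} [NeZero n] {Ω : Type} [TopologicalSpace Ω] [ChartedSpace (EuclideanHalfSpace n) Ω]
  (D : Data n Ω)

/-- The energy density `μ`, computed in the chart at `x` (the boundary is a null set). -/
def muAt (x : Ω) : ℝ := mu (inChart D.g x) (inChart D.K x) (crd n x x)

/-- The length `|J|` of the momentum density, computed in the chart at `x`. -/
def jAt (x : Ω) : ℝ := covNorm (inChart D.g x) (mom (inChart D.g x) (inChart D.K x)) (crd n x x)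

/-- `μ` and `|J|` are integrable for the Riemannian volume. -/
def IsL1 [MeasurableSpace Ω] : Prop :=
  Integrable D.muAt (riemVol D.g) ∧ Integrable D.jAt (riemVol D.g)

end Vale.Agent.P366N.St.Data
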