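import Vale.Agent.P366N.Adm0
import Vale.Agent.P366N.Fin2
import Vale.Agent.P366N.St2
import Vale.Agent.P366Q.A.Xt
import Vale.Agent.P366M.End4
import Vale.Agent.P366Y.A.Fin1

/-!
# P366N: the existence of the ADM limits
-/

open MeasureTheory Filter Topology Set Metric Manifold
open scoped ContDiff
open Vale.Agent.P366.Stmt (E Field BigO flx)
open Vale.Agent.P366 hiding E Field Exterior omega pd mu
open Vale.Agent.P366M Vale.Agent.P366M.Y.A

noncomputable section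

namespace Vale.Agent.P366N

variable {n : ℕ}

theorem Adm.ext {M : Type} [Mfe n M] (X : Exterior n M) (hn : 3 ≤ n) (h : X.IsAF) {S : Set M}
    {r : ℝ} (hS : ∀ y, r ≤ ‖y‖ → yp y ∈ S) (h1 : IntegrableOn (mu X.g X.K) S (vol X.g))
    (h2 : IntegrableOn (covNorm X.g (mom X.g X.K)) S (vol X.g)) :
    ∃ m P, X.IsEnergy m ∧ X.IsMomentum P := by
  obtain ⟨q, hq, hA⟩ := h
  obtain ⟨C₁, R₁, a1⟩ := P366Z.St0.ExtA.unif fun t : Fin n × Fin n => (hA t.1 t.2 t.1 t.1).1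
  obtain ⟨C₂, R₂, a2⟩ := P366Z.St0.ExtA.unif fun t : Fin n × Fin n × Fin n =>
    (hA t.1 t.2.1 t.2.2 t.1).2.1
  obtain ⟨C₃, R₃, a3⟩ := P366Z.St0.ExtA.unif fun t : Fin n × Fin n × Fin n × Fin n =>
    (hA t.1 t.2.1 t.2.2.1 t.2.2.2).2.2.1
  obtain ⟨C₄, R₄, a4⟩ := P366Z.St0.ExtA.unif fun t : Fin n × Fin n => (hA t.1 t.2 t.1 t.1).2.2.2.1
  obtain ⟨C₅, R₅, a5⟩ := P366Z.St0.ExtA.unif fun t : Fin n × Fin n × Fin n =>
    (hA t.1 t.2.1 t.2.2 t.1).2.2.2.2
  obtain ⟨C, ⟨⟨c0, c1⟩, c2, c3⟩, c4, c5⟩ := (((((eventually_gt_atTop (0 : ℝ)).and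
    (eventually_ge_atTop C₁)).and ((eventually_ge_atTop C₂).and (eventually_ge_atTop C₃))).and
      ((eventually_ge_atTop C₄).and (eventually_ge_atTop C₅)))).exists
  obtain ⟨R, ⟨⟨⟨r0, r6⟩, r1⟩, r2, r3⟩, r4, r5⟩ := ((((((eventually_gt_atTop (R0 M + 1 / 2)).and
    (eventually_ge_atTop r)).and (eventually_ge_atTop R₁)).and ((eventually_ge_atTop R₂).and
      (eventually_ge_atTop R₃))).and ((eventually_ge_atTop R₄).and (eventually_ge_atTop R₅)))).exists
  have tg := tw_xg X.g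
  have tk := tw_xk X.K
  have ms : MeasurableSet {y : E n | R < ‖y‖} :=
    (isOpen_lt continuous_const continuous_norm).measurableSet
  have hB : ∀ y ∈ {y : E n | R < ‖y‖}, R0 M ≤ ‖y‖ := fun y hy => by
    linarith [show R < ‖y‖ from hy]
  have key : ∀ (u : M → ℝ) (U : E n → ℝ), IntegrableOn u S (vol X.g) →
      (∀ x, R0 M + 1 / 2 < ‖px x‖ → u x = U (px x)) →
      IntegrableOn (fun y => U y * P366Z.dens (xg X.g) y) {y | R < ‖y‖} := fun u U hu e => by
    have m1 := meas_ye (j := Mfe.o) ms hB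
    have k1 := (X.met.integrable_vol _).1 ((integrable_indicator_iff m1).2 (hu.mono_set (by
      rintro _ ⟨y, hy, rfl⟩; exact hS y (r6.trans (le_of_lt hy)))))
    simp only [← indicator_mul_left] at k1
    refine ((integrableOn_ye _ ms hB _).1 ((integrable_indicator_iff m1).1 k1)).congr_fun
      (fun y hy => ?_) ms
    have e1 : px (ye (Mfe.o : Nd M) y) = y := px_ye' (hB y hy)
    have e2 : R0 M + 1 / 2 < ‖px (ye (Mfe.o : Nd M) y)‖ := by rw [e1]; exact r0.trans hy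
    simp only [e _ e2, tg.dens e2.le, e1]
  obtain ⟨⟨m, k1⟩, k2⟩ := Adm.adm hn (met_xg X.met) (Sy.xk ⟨X.smK, X.syK⟩) hq c0
    ((tg.af r0).1 fun y hy i j k l => ⟨a1 C c1 (i, j) y (r1.trans hy),
      a2 C c2 (i, j, k) y (r2.trans hy), by
        simpa only [add_assoc, one_add_one_eq_two] using a3 C c3 (i, j, k, l) y (r3.trans hy)⟩)
    ((tk.ak r0).1 fun y hy i j k => ⟨a4 C c4 (i, j) y (r4.trans hy), by
        simpa only [add_assoc, one_add_one_eq_two] using a5 C c5 (i, j, k) y (r5.trans hy)⟩)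
    (key _ _ h1 fun x => tg.mu tk) (key _ _ h2 fun x => tg.cm tk)
  choose P hP using k2
  have f1 : ∀ i j, Far R (fun y => fe X.g y i j) fun y => xg X.g y i j := fun i j y hy => by
    simp only [tg y (by linarith)]
  exact ⟨m, P, far_flx (r := R) (fun i y hy => by
    simp only [P366Z.St0.yv, ((f1 _ _).pd _) y hy]) k1, fun i => far_flx (r := R) (fun j y hy => by
      simp only [Stmt.momT, Stmt.tr, Stmt.up, Stmt.mat, tg y (by linarith), tk y (by linarith)])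
        (hP i)⟩

variable [NeZero n] {Ω : Type} [TopologicalSpace Ω] [T2Space Ω] [ConnectedSpace Ω]
  [ChartedSpace (EuclideanHalfSpace n) Ω] [IsManifold (𝓡∂ n) ∞ Ω] [MeasurableSpace Ω] [BorelSpace Ω]

/-- **the ADM limits exist** -/
theorem St.Data.adm (D : St.Data n Ω) (hn : 3 ≤ n) (h1 : D.IsAF) (h2 : D.IsL1) :
    ∃ m P, D.IsEnergy m ∧ D.IsMomentum P := by
  obtain ⟨Y, R, y1, y2⟩ := Data.exists_end (D := D.old) hn h1
  obtain ⟨M, _, κ, hκ⟩ := y1.mod D.old.bdry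
  rw [funext y2] at hκ
  obtain ⟨X, h⟩ := hκ.pk
  have hm := h.mod.emb.measurableEmbedding
  have ev : ∀ x ∉ bd n Ω, ∃ c ∈ At M, c.symm (ec n x x) = κ x ∧ rep c X.g =ᶠ[𝓝 (ec n x x)]
      P366N.inChart D.old.g x ∧ rep c X.K =ᶠ[𝓝 (ec n x x)] P366N.inChart D.old.K x := fun x hx => by
    obtain ⟨c, hc⟩ := h.mod.ex (mem_extChartAt_source x)
    have h3 : ∀ᶠ y in 𝓝[Hs n] (ec n x x), rep c X.g y = P366N.inChart D.old.g x y ∧
        rep c X.K y = P366N.inChart D.old.K x y :=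
      (ev_ec hc.src).1 (hc.near.mono fun z hz => ⟨hz.rl.1 (h.g z), hz.rl.1 (h.K z)⟩)
    rw [nhdsWithin_eq_nhds.2 (mem_of_superset (cont0.continuousAt.eventually
      (lt_mem_nhds (mem_ic hx).2)) fun y hy => mem_Hs.2 (le_of_lt hy))] at h3
    exact ⟨c, hc.mem, hc.eq, h3.mono fun _ => And.left, h3.mono fun _ => And.right⟩
  have key : ∀ (u : Ω → ℝ) (U : M → ℝ), Integrable u (P366N.riemVol D.old.g) →
      (∀ x ∉ bd n Ω, u x = U (κ x)) → IntegrableOn U (range κ) (vol X.g) := fun u U hu e => by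
    rw [h.vol_eq] at hu
    rw [IntegrableOn, ← hm.map_comap, hm.integrable_map_iff]
    exact hu.congr ((measure_eq_zero_iff_ae_notMem.1 h.null).mono e)
  obtain ⟨r, hr⟩ := h.mod.far
  obtain ⟨m, P, k1, k2⟩ := Adm.ext X hn (h.af h1) (S := range κ) (r := r) (fun y hy => ⟨_, (hr y hy).symm⟩)
    (key _ _ h2.1 fun x hx => by
      obtain ⟨c, c1, c2, c3, c4⟩ := ev x hx
      rw [← c2, ← mu_rep X.met c1]
      exact (P366Y.A.Fin1.mu_ev c3 c4.eq_of_nhds).symm)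
    (key _ _ h2.2 fun x hx => by
      obtain ⟨c, c1, c2, c3, c4⟩ := ev x hx
      rw [← c2, ← covNorm_mom_rep X.met c1 (X.smK.dt _)]
      exact (P366Y.A.Fin1.cov_ev c3 c4).symm)
  obtain ⟨s, s1, s2⟩ := h.far
  have f1 : ∀ i j, Far s (fun y => D.old.gE y i j) fun y => fe X.g y i j := fun i j y hy => by
    simp only [s1 y hy]
  refine ⟨m, P, ?_, fun i => ?_⟩
  · exact far_flx (r := s) (W := fun i y => (∑ j, (Stmt.pd j (fun z => D.old.gE z i j) y -
      Stmt.pd i (fun z => D.old.gE z j j) y)) / 2) (fun i y hy => by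
        simp only [((f1 _ _).pd _) y hy]) k1
  · exact far_flx (r := s) (W := fun j y => Stmt.momT D.old.gE D.old.KE y i j) (fun j y hy => by
      simp only [Stmt.momT, Stmt.tr, Stmt.up, Stmt.mat, s1 y hy, s2 y hy]) (k2 i)

end Vale.Agent.P366N
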