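import Vale.Agent.P366Y.B.Def2
import Vale.Agent.P366Y.B.Mln
import Vale.Agent.P366Y.B.Chd
import Vale.Agent.P366Z.St0.Mat
import Vale.Agent.P366Z.St0.Mas1
import Vale.Agent.P366.Bdl.B1
import Mathlib.Analysis.SpecialFunctions.JapaneseBracket

/-!
# P366N: the existence of the ADM limits, in Euclidean space
-/

open MeasureTheory Metric Filter Topology Set
open scoped ContDiff
open Vale.Agent.P366.Stmt Vale.Agent.P366Z Vale.Agent.P366Z.St0
open Vale.Agent.P366Y.A (Sy)
open Vale.Agent.P366Y.B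

noncomputable section

namespace Vale.Agent.P366N.Adm

variable {n : ℕ}

/-- a field with an integrable divergence has a flux at infinity -/
theorem flx_lim (hn : 0 < n) {W : Fin n → E n → ℝ} (hW : ∀ i, Smooth (W i)) {R : ℝ}
    (h : IntegrableOn (fun y => ∑ i, pd i (W i) y) {y | R < ‖y‖}) :
    ∃ m, Tendsto (flx W) atTop (𝓝 m) := by
  have := nontriv hn
  have ms : MeasurableSet {y : E n | R < ‖y‖} :=
    (isOpen_lt continuous_const continuous_norm).measurableSet
  have h1 := (Mas1.polar hn ((integrable_indicator_iff ms).2 h)).1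
  have h2 : ∀ r ∈ Ioi (max R 0), HasDerivAt (P366.flux W) (sphInt r
      ({y : E n | R < ‖y‖}.indicator fun y => ∑ i, pd i (W i) y)) r := fun r hr => by
    have r0 : 0 < r := (le_max_right _ _).trans_lt hr
    refine (P366.flux_hasDerivAt le_rfl (fun i => ((hW i).of_le (by simp)).contDiffOn)
      r0).congr_deriv ?_
    rw [P366.sphInt_eq]
    refine congrArg _ (integral_congr_ae (.of_forall fun θ => ?_))
    have e : ‖r • (θ : E n)‖ = r := by
      rw [norm_smul, norm_eq_of_mem_sphere, mul_one, Real.norm_of_nonneg r0.le]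
    simp only
    rw [indicator_of_mem (by rw [mem_ofPred_eq, e]; exact (le_max_left _ _).trans_lt hr)]
    simp only [P366.dvg, P366.pd_eq_of_smooth (hW _)]
  have h3 := tendsto_limUnder_of_hasDerivAt_of_integrableOn_Ioi h2
    (h1.mono_set (Ioi_subset_Ioi (le_max_right _ _)))
  exact ⟨_, (h3.div_const (((n : ℝ) - 1) * P366.omega n)).congr fun r =>
    (P366.flx_eq W r).symm⟩

/-- fields with a small difference have the same flux at infinity -/
theorem flx_sub (hn : 0 < n) {W W' : Fin n → E n → ℝ} (hW : ∀ i, Continuous (W i))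
    (hW' : ∀ i, Continuous (W' i)) {p A R m : ℝ} (hp : (n : ℝ) - 1 < p)
    (h : ∀ i y, R ≤ ‖y‖ → |W i y - W' i y| ≤ A * ‖y‖ ^ (-p))
    (k : Tendsto (flx W') atTop (𝓝 m)) : Tendsto (flx W) atTop (𝓝 m) := by
  have h0 := (((tendsto_rpow_neg_atTop (y := p - (n - 1)) (by linarith)).const_mul
    (n * A * (vol n).toSphere.real univ)).div_const (|((n : ℝ) - 1) * omega n|))
  rw [mul_zero, zero_div] at h0
  have h1 : Tendsto (fun r => flx W r - flx W' r) atTop (𝓝 0) := by
    refine squeeze_zero_norm' ?_ h0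
    filter_upwards [eventually_ge_atTop R, eventually_gt_atTop 0] with r r1 r0
    have e : ∀ θ : sphere (0 : E n) 1, ‖r • (θ : E n)‖ = r := fun θ => by
      rw [norm_smul, norm_eq_of_mem_sphere, mul_one, Real.norm_of_nonneg r0.le]
    have : IsFiniteMeasure (vol n).toSphere := by rw [P366Z.vol_eq]; infer_instance
    have i1 : ∀ V : Fin n → E n → ℝ, (∀ i, Continuous (V i)) → Integrable (fun θ :
        sphere (0 : E n) 1 => ∑ i, V i (r • θ.1) * ((r • θ.1) i / len (r • θ.1)))
        (vol n).toSphere := fun V hV => by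
      simp only [len, e]
      exact Continuous.integrable_of_hasCompactSupport (by fun_prop)
        (HasCompactSupport.of_compactSpace _)
    rw [flx, flx, ← sub_div, sphInt, sphInt, ← mul_sub, sph, sph,
      ← integral_sub (i1 W hW) (i1 W' hW'), norm_div, norm_mul]
    refine div_le_div_of_nonneg_right ?_ (abs_nonneg _)
    refine (mul_le_mul_of_nonneg_left (norm_integral_le_of_norm_le_const
      (C := n * (A * r ^ (-p) * 1)) (.of_forall fun θ => ?_)) (norm_nonneg _)).trans_eq ?_
    · rw [← Finset.sum_sub_distrib]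
      refine Chd.sumb fun i => ?_
      rw [← sub_mul]
      refine Chd.mulb (by simpa only [e] using h i (r • θ.1) (by rwa [e])) ?_
      rw [len, abs_div, abs_norm]
      exact div_le_one_of_le₀ (PiLp.norm_apply_le (r • θ.1) i) (norm_nonneg _)
    · rw [Real.norm_of_nonneg (by positivity), ← Real.rpow_natCast, Nat.cast_pred hn,
        show -(p - (n - 1)) = (n - 1) + -p by ring, Real.rpow_add r0]
      ring
  simpa using h1.add k

theorem int_far {p : ℝ} (hp : (n : ℝ) < p) (A : ℝ) :
    IntegrableOn (fun y : E n => A * ‖y‖ ^ (-p)) {y | 1 < ‖y‖} := by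
  have p0 : 0 < p := (Nat.cast_nonneg n).trans_lt hp
  have ms : MeasurableSet {y : E n | 1 < ‖y‖} :=
    (isOpen_lt continuous_const continuous_norm).measurableSet
  refine Integrable.const_mul ?_ A
  refine ((integrable_one_add_norm (E := E n) (μ := volume) (r := p) (by simpa using hp)).const_mul
    (2 ^ p)).integrableOn.mono'
      (measurable_norm.pow_const _).aestronglyMeasurable ?_
  filter_upwards [ae_restrict_mem ms] with y hy
  have y0 : 1 < ‖y‖ := hy
  rw [Real.norm_of_nonneg (by positivity), show (2 : ℝ) ^ p = (2⁻¹) ^ (-p) by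
    rw [Real.inv_rpow zero_le_two, Real.rpow_neg zero_le_two, inv_inv],
    ← Real.mul_rpow (by positivity) (by positivity)]
  exact Real.rpow_le_rpow_of_nonpos (by positivity) (by linarith) (by linarith)

/-- the ADM limits exist -/
theorem adm (hn : 3 ≤ n) {G L : Field n} (hG : Met G) (hL : Sy L) {q C R : ℝ}
    (hq : (n : ℝ) / 2 - 1 < q) (C0 : 0 < C) (af : Af G q C R) (ak : Ak L q C R)
    (h1 : IntegrableOn (fun y => mu G L y * dens G y) {y | R < ‖y‖})
    (h2 : IntegrableOn (fun y => covNorm G (mom G L) y * dens G y) {y | R < ‖y‖}) :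
    (∃ m, Tendsto (flx fun i y => yv G i y / 2) atTop (𝓝 m)) ∧
      ∀ i, ∃ p, Tendsto (flx fun j y => momT G L y i j) atTop (𝓝 p) := by
  have n3 : (3 : ℝ) ≤ n := by exact_mod_cast hn
  have q0 : 0 < q := by linarith
  have n0 : 0 < n := by omega
  obtain ⟨A, A0, R₂, -, hA⟩ := Def2.lin (scl_of mat0) (mln_of mat0) n q C q0 C0
  obtain ⟨e, e0, B, B0, hB⟩ := mat0 n
  obtain ⟨e', e0', B', B0', hB'⟩ := mln_of mat0 n
  have t0 := (tendsto_rpow_neg_atTop q0).const_mul C
  rw [mul_zero] at t0
  obtain ⟨R₃, hR⟩ := eventually_atTop.1 (((t0.eventually (eventually_le_nhds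
    (lt_min (lt_min e0 e0') (show 0 < 1 / (2 * B) by positivity)))).and
      (eventually_ge_atTop R)).and ((eventually_ge_atTop R₂).and (eventually_gt_atTop 1)))
  have ms : MeasurableSet {y : E n | R₃ < ‖y‖} :=
    (isOpen_lt continuous_const continuous_norm).measurableSet
  have s1 : {y : E n | R₃ < ‖y‖} ⊆ {y | R < ‖y‖} := fun y hy => (hR _ le_rfl).1.2.trans_lt hy
  have s2 : {y : E n | R₃ < ‖y‖} ⊆ {y | 1 < ‖y‖} := fun y hy => (hR _ le_rfl).2.2.trans hy
  have k0 := (int_far (n := n) (p := 2 * q + 2) (by linarith) A).mono_set s2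
  have a1 : ∀ y, R₃ ≤ ‖y‖ → ∀ i j, |G y i j - eu n y i j| ≤ C * ‖y‖ ^ (-q) := fun y hy i j =>
    (af y (hR _ hy).1.2 i j i i).1
  have b1 : ∀ y, R₃ ≤ ‖y‖ → (∀ i j, |up G i j y - eu n y i j| ≤ B * (C * ‖y‖ ^ (-q))) ∧
      |dens G y - 1| ≤ B * (C * ‖y‖ ^ (-q)) := fun y hy => hB G y _ hG (by positivity)
        ((hR _ hy).1.1.trans ((min_le_left _ _).trans (min_le_left _ _))) (a1 y hy)
  have d1 : ∀ y, R₃ ≤ ‖y‖ → 1 / 2 ≤ dens G y := fun y hy => by
    have := mul_le_mul_of_nonneg_left ((hR _ hy).1.1.trans (min_le_right _ _)) B0.le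
    rw [show B * (1 / (2 * B)) = 1 / 2 by field_simp] at this
    linarith [(abs_le.1 (b1 y hy).2).1]
  have key : ∀ u v : E n → ℝ, Continuous u → IntegrableOn (fun y => v y * dens G y) {y | R < ‖y‖} →
      (∀ y, R₃ ≤ ‖y‖ → |u y| ≤ |v y| + A * ‖y‖ ^ (-(2 * q + 2))) →
      IntegrableOn u {y | R₃ < ‖y‖} := fun u v hu hv h => by
    refine (((hv.mono_set s1).norm.const_mul 2).add k0).mono' hu.aestronglyMeasurable ?_
    filter_upwards [ae_restrict_mem ms] with y hy
    have := d1 y (le_of_lt hy)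
    refine (h y (le_of_lt hy)).trans ?_
    simp only [Pi.add_apply, Real.norm_eq_abs, abs_mul, abs_of_pos (show 0 < dens G y by linarith)]
    nlinarith [abs_nonneg (v y)]
  have sy : ∀ i, Smooth (yv G i) := fun i => ContDiff.sum fun j _ =>
    ContDiff.sub ((hG.sm i j).pd j) ((hG.sm j j).pd i)
  refine ⟨flx_lim n0 (fun i => ContDiff.div_const (sy i) 2) (R := R₃) ?_, fun i => ?_⟩
  · have e1 : (fun y => ∑ i, pd i (fun z => yv G i z / 2) y) = fun y => lr G y / 2 := by
      funext y
      simp only [lr, div_eq_inv_mul, pd_const_mul, Finset.mul_sum]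
    rw [e1]
    refine key _ _ ((continuous_finsetSum _ fun i _ => ((sy i).pd i).cont).div_const 2) h1
      fun y hy => ?_
    have := abs_le.1 (hA G L R y hG hL af ak (hR _ hy).1.2 (hR _ hy).2.1).1
    rw [abs_le]
    constructor <;> linarith [le_abs_self (mu G L y), neg_abs_le (mu G L y)]
  · obtain ⟨p, hp⟩ := flx_lim n0 (W := fun j y => pe L y j i) (fun j => Chd.sm_pe hL j i)
      (R := R₃) (key (lj L i) _ (continuous_finsetSum _ fun j _ =>
        ((Chd.sm_pe hL j i).pd j).cont) h2 fun y hy => by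
          have k1 := abs_le.1 (hA G L R y hG hL af ak (hR _ hy).1.2 (hR _ hy).2.1).2.1
          have k2 : |lj L i y| ≤ Def2.nn fun j => lj L j y := by
            rw [Def2.nn_eq]
            exact PiLp.norm_apply_le (WithLp.toLp 2 fun j => lj L j y : E n) i
          linarith [le_abs_self (covNorm G (mom G L) y)])
    refine ⟨p, flx_sub n0 (fun j => (Chd.sm_momT hG hL i j).cont)
      (fun j => (Chd.sm_pe hL j i).cont) (p := 2 * q + 1) (R := R₃)
      (A := (B' + 1) * C * C + n * (n * (B * C * ((B' + 1) * C)))) (by linarith)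
      (fun j y hy => ?_) hp⟩
    have y0 : 0 < ‖y‖ := one_pos.trans (hR _ hy).2.2
    have l1 := fun a b c => ak y (hR _ hy).1.2 a b c
    have l2 := (hB' G L y _ _ _ _ hG hL (by positivity)
      ((hR _ hy).1.1.trans ((min_le_left _ _).trans (min_le_right _ _))) (by positivity)
      (by positivity) (by positivity) (a1 y hy) (fun a b c => (af y (hR _ hy).1.2 a b c a).2.1)
      (fun a b => (l1 a b a).1) fun a b c => (l1 a b c).2).2.1
    have l0 : 0 ≤ C * ‖y‖ ^ (-(q + 1)) := by positivity
    have l3 := Chd.quad (k := (B' + 1) * (C * ‖y‖ ^ (-(q + 1)))) (a1 y hy) (b1 y hy).1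
      (fun a b => (l1 a b a).1.trans (by nlinarith)) (l2.trans (by nlinarith)) j i
    have e1 : momT G L y i j = momT G L y j i := by simp only [momT, hG.sy y i j, hL.sy y i j]
    rw [e1, abs_sub_comm]
    refine l3.trans_eq ?_
    rw [show -(2 * q + 1) = -q + -(q + 1) by ring, Real.rpow_add y0]
    ring

end Vale.Agent.P366N.Adm
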