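import Vale.Agent.P366N.Ext2
import Vale.Agent.P366M.Vol
import Vale.Agent.P366Z.Int

/-!
# P366N: volume and area
-/

open MeasureTheory Filter Topology Set Metric Function Manifold
open scoped ContDiff ENNReal
open Vale.Agent.P366.Stmt (E Field)
open Vale.Agent.P366 Vale.Agent.P366M

noncomputable section

namespace Vale.Agent.P366N

theorem restrict_loc {α : Type} [TopologicalSpace α] [SecondCountableTopology α]
    [MeasurableSpace α] {μ ν : Measure α} {s : Set α}
    (h : ∀ x ∈ s, ∃ W ∈ 𝓝 x, μ.restrict W = ν.restrict W) : μ.restrict s = ν.restrict s := by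
  choose! W h1 h2 using h
  obtain ⟨t, k1, k2, k3⟩ := TopologicalSpace.countable_cover_nhdsWithin (f := W)
    fun x hx => mem_nhdsWithin_of_mem_nhds (h1 x hx)
  exact Measure.restrict_congr_mono k3
    ((Measure.restrict_biUnion_congr k2).2 fun x hx => h2 x (k1 hx))

variable {n : ℕ} [NeZero n] {Ω : Type} [TopologicalSpace Ω] [ChartedSpace (EuclideanHalfSpace n) Ω]
  [MeasurableSpace Ω] [BorelSpace Ω]

/-- the measure of a chart -/
def cm (g : Tensor n Ω) (p : Ω) : Measure Ω :=
  (((Stmt.vol n).withDensity fun y => ENNReal.ofReal √(Stmt.mat (inChart g p) y).det).restrict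
    (ec n p).target).map (ec n p).symm

theorem cm_apply (g : Tensor n Ω) (p : Ω) {A : Set Ω} (hA : MeasurableSet A) :
    cm g p A = ((volume : Measure (E n)).withDensity
      fun y => ENNReal.ofReal √(Stmt.mat (inChart g p) y).det)
        ((ec n p).symm ⁻¹' A ∩ (ec n p).target) := by
  have h : MeasurableSet (ec n p).target := extChartAt_target (𝓡∂ n) p ▸
    ((chartAt _ p).open_target.preimage (𝓡∂ n).continuous_symm).measurableSet.inter
      (𝓡∂ n).isClosed_range.measurableSet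
  rw [cm, Measure.map_apply_of_aemeasurable ((continuousOn_extChartAt_symm p).aemeasurable h) hA,
    Measure.restrict_apply' h, P366Z.vol_eq]

variable [IsManifold (𝓡∂ n) ∞ Ω] {M : Type} [Mfe n M] {κ : Ω → M} {D : Data n Ω}
  {X : Exterior n M}

namespace Pk

variable (h : Pk D κ X)
include h

theorem cm_eq (p : Ω) : ((vol X.g).comap κ).restrict (ec n p).source = cm D.g p := by
  have := h.mod.emb.isEmbedding.secondCountableTopology
  have hm := h.mod.emb.measurableEmbedding
  have hs := (isOpen_extChartAt_source (I := 𝓡∂ n) p).measurableSet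
  rw [← Measure.restrict_eq_self_of_ae_mem (μ := cm D.g p) (s := (ec n p).source) (by
    rw [ae_iff, show {a | ¬a ∈ (ec n p).source} = (ec n p).sourceᶜ from rfl, cm_apply _ _ hs.compl]
    exact measure_mono_null (fun y hy => (hy.1 ((ec n p).map_target hy.2)).elim) measure_empty)]
  refine restrict_loc fun x hx => ?_
  obtain ⟨c, hc⟩ := h.mod.ex hx
  refine ⟨_, interior_mem_nhds.2 hc.near, Measure.ext fun B hB => ?_⟩
  rw [Measure.restrict_apply hB, Measure.restrict_apply hB]
  have h1 := hB.inter (isOpen_interior (s := {z | Adp κ p z c})).measurableSet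
  have h2 : ∀ z ∈ B ∩ interior {z | Adp κ p z c}, Adp κ p z c := fun z hz =>
    interior_subset (s := {z | Adp κ p z c}) hz.2
  generalize B ∩ interior {z | Adp κ p z c} = A at h1 h2
  have h3 : ∀ y ∈ (ec n p).symm ⁻¹' A ∩ (ec n p).target, ∃ z ∈ A, ec n p z = y := fun y hy =>
    ⟨_, hy.1, (ec n p).right_inv hy.2⟩
  have h4 : c.symm '' ((ec n p).symm ⁻¹' A ∩ (ec n p).target) = κ '' A := by
    refine Subset.antisymm ?_ ?_
    · rintro _ ⟨y, hy, rfl⟩
      obtain ⟨z, hz, rfl⟩ := h3 y hy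
      exact ⟨z, hz, (h2 z hz).eq.symm⟩
    · rintro _ ⟨z, hz, rfl⟩
      exact ⟨_, ⟨by rwa [mem_preimage, (ec n p).left_inv (h2 z hz).src],
        (ec n p).map_source (h2 z hz).src⟩, (h2 z hz).eq⟩
  have h5 : MeasurableSet ((ec n p).symm ⁻¹' A ∩ (ec n p).target) := by
    rw [← preimage_image_eq (_ ∩ _) (symm_inj hc.mem), h4]
    exact (measEmb_symm hc.mem).measurable (hm.measurableSet_image' h1)
  rw [hm.comap_apply, cm_apply _ _ h1, withDensity_apply _ h5, ← h4, vol_image X.met hc.mem h5]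
  refine setLIntegral_congr_fun h5 fun y hy => ?_
  obtain ⟨z, hz, rfl⟩ := h3 y hy
  simp only [P366Z.dens, Stmt.mat, (h2 z hz).rl.1 (h.g z)]

theorem vol_eq : riemVol D.g = (vol X.g).comap κ := by
  have := h.mod.emb.isEmbedding.secondCountableTopology
  have h1 : riemVol D.g ≤ (vol X.g).comap κ :=
    iSup_le fun p => (h.cm_eq p).symm.trans_le Measure.restrict_le_self
  rw [← Measure.restrict_univ (μ := riemVol D.g), ← Measure.restrict_univ (μ := .comap κ _)]
  refine restrict_loc fun p _ => ⟨_, extChartAt_source_mem_nhds (I := 𝓡∂ n) p,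
    (Measure.restrict_mono_measure h1 _).antisymm ?_⟩
  rw [← Measure.restrict_restrict_of_subset (subset_refl (extChartAt (𝓡∂ n) p).source), h.cm_eq p]
  exact Measure.restrict_mono_measure (le_iSup (cm D.g) p) _

theorem null : ((vol X.g).comap κ) (bd n Ω) = 0 := by
  have := h.mod.emb.isEmbedding.secondCountableTopology
  have hS := ((𝓡∂ n).isClosed_boundary (M := Ω) (n := ∞) (by simp)).measurableSet
  refine measure_null_of_locally_null _ fun p _ => ⟨_, inter_mem_nhdsWithin _
    (extChartAt_source_mem_nhds (I := 𝓡∂ n) p), ?_⟩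
  rw [← Measure.restrict_apply hS, h.cm_eq p, cm_apply _ _ hS]
  refine withDensity_absolutelyContinuous _ _ (measure_mono_null (fun y hy => ?_)
    (Measure.addHaar_submodule _ (EuclideanSpace.proj (𝕜 := ℝ) (0 : Fin n)).ker fun k => ?_))
  · have := (bd_iff ((ec n p).map_target hy.2)).1 hy.1
    rwa [(ec n p).right_inv hy.2] at this
  · simpa using (k ▸ Submodule.mem_top : EuclideanSpace.single (0 : Fin n) (1 : ℝ) ∈
      (EuclideanSpace.proj (𝕜 := ℝ) (0 : Fin n)).ker)

omit [MeasurableSpace Ω] [BorelSpace Ω] in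
theorem dv_eq {V : (x : Ω) → TangentSpace (𝓡∂ n) x} {Z : Fin n → M → ℝ} (h1 : CV ∞ Z)
    (h2 : ∀ x, (fun i => Z i (κ x)) = (Bk κ x (xv V x)).ofLp) {x : Ω} (hx : x ∉ bd n Ω) :
    diverg D.g V x = dv X.g Z (κ x) := by
  obtain ⟨c, hc⟩ := h.mod.ex (mem_extChartAt_source x)
  have h3 : ∀ᶠ y in 𝓝[Hs n] (ec n x x), rep c X.g y = inChart D.g x y ∧
      (fun i => repV c Z i y) = (vecIn V x y).ofLp :=
    (ev_ec hc.src).1 (hc.near.mono fun z hz => ⟨hz.rl.1 (h.g z), hz.rlv.1 (h2 z)⟩)
  rw [nhdsWithin_eq_nhds.2 (mem_of_superset (cont0.continuousAt.eventually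
    (lt_mem_nhds (mem_ic hx).2)) fun y hy => mem_Hs.2 (le_of_lt hy))] at h3
  rw [← hc.eq, ← dv_rep X.met hc.mem (h1.dv (by simp) _), diverg, P366Z.dv, P366Z.dens, Stmt.mat,
    Stmt.mat, h3.self_of_nhds.1]
  congr 1
  refine Finset.sum_congr rfl fun i _ => P366Z.pd_congr (h3.mono fun y hy => ?_) i
  simp only [P366Z.dens, Stmt.mat, hy.1, congrFun hy.2 i]

theorem area {G : M → ℝ} (hG : IsExt G) (k : ∀ z, 0 ≤ G z → 0 ≤ X.F z) :
    D.area (fun x => G (κ x)) ≤ X.area G := by
  refine sSup_le_sSup ?_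
  rintro _ ⟨V, ⟨v1, ⟨C, v2, v3⟩, v4⟩, rfl⟩
  obtain ⟨Z, z1, z2⟩ := h.mod.vec v1
  obtain ⟨r, hr⟩ := h.mod.px
  obtain ⟨R, hR⟩ := v2.exists_bound_of_continuousOn (f := fun x => px (κ x))
    ((cont_of_loc fun e he => (Mfs.sm_px e he).continuous).comp h.mod.emb.continuous).continuousOn
  refine ⟨Z, ⟨z1, ⟨max r R, fun z hz i => ?_⟩, fun z hz => ?_⟩, congrArg _ ?_⟩
  · rw [max_lt_iff] at hz
    have l1 := (hr z hz.1).2
    have l2 := congrFun (z2 (D.Φ (px z))) i
    rwa [l1, show xv V (D.Φ (px z)) = 0 from v3 _ fun l => hz.2.not_ge (l1 ▸ hR _ l),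
      map_zero] at l2
  · obtain ⟨x, rfl⟩ := (h.rng z).1 hz
    simp only [fun i => congrFun (z2 x) i]
    exact (h.g x _ _).symm.trans_le (v4 x)
  · have hm := h.mod.emb.measurableEmbedding
    have hT : MeasurableSet {z | 0 ≤ G z} := (isClosed_le continuous_const
      (cont_of_loc fun e he => (hG.1 e he).continuous)).measurableSet
    rw [h.vol_eq, integral_congr_ae (ae_restrict_of_ae ((measure_eq_zero_iff_ae_notMem.1
      h.null).mono fun x hx => h.dv_eq z1 z2 hx))]
    refine (hm.setIntegral_map (dv X.g Z) {z | 0 ≤ G z}).symm.trans ?_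
    rw [hm.map_comap, Measure.restrict_restrict_of_subset (s := {z | 0 ≤ G z})
      fun z hz => (h.rng z).1 (k z hz),
      ← integral_indicator hT, ← integral_indicator hT, X.met.integral_vol]
    exact integral_congr_ae (.of_forall fun z => (indicator_mul_left _ _ _).symm)

theorem amin : D.Amin ≤ X.Amin := le_sInf fun _ ⟨_, h1, h2, h3⟩ =>
  sInf_le_of_le ⟨_, h.cut h1 h2, rfl⟩ (h3 ▸ h.area h1 h2)

end Pk

end Vale.Agent.P366N
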