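import Vale.Agent.P366N.Sl
import Mathlib.Analysis.SpecialFunctions.SmoothTransition
import Mathlib.Analysis.InnerProductSpace.Calculus
import Mathlib.Analysis.Calculus.Deriv.MeanValue
import Mathlib.Analysis.Calculus.InverseFunctionTheorem.Deriv

/-!
# P366N: diffeomorphisms of half-spaces and balls onto the whole space
-/

open Filter Topology Set Metric
open scoped ContDiff

noncomputable section

namespace Vale.Agent.P366N

/-- a half-line onto the line -/
theorem exists_ray {a b : ℝ} (hab : b < a) : ∃ l : OpenPartialHomeomorph ℝ ℝ, l.source = Ioi b ∧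
    l.target = univ ∧ LD l ∧ (∀ s, a ≤ s → l s = s) ∧ ∀ s ∈ Ioi b, l s ≤ s := by
  let f : ℝ → ℝ := fun u => u - Real.smoothTransition (a - u) * (u - b)⁻¹
  have hs : ∀ u ∈ Ioi b, ContDiffAt ℝ ∞ f u := fun u hu => contDiffAt_id.sub
    ((Real.smoothTransition.contDiff.comp (contDiff_const.sub contDiff_id)).contDiffAt.mul
      ((contDiffAt_id.sub contDiffAt_const).inv (sub_pos.2 hu).ne'))
  have hd : ∀ u ∈ Ioi b, ∃ d, 0 < d ∧ HasDerivAt f d u := fun u hu => by
    have h0 : 0 < u - b := sub_pos.2 hu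
    have h1 := ((Real.smoothTransition.contDiff (n := 1)).differentiable one_ne_zero
      (a - u)).hasDerivAt.comp u ((hasDerivAt_id u).const_sub a)
    have h2 := ((hasDerivAt_id u).sub_const b).inv h0.ne'
    refine ⟨_, ?_, (hasDerivAt_id u).sub (h1.mul h2)⟩
    have h3 : 0 ≤ deriv Real.smoothTransition (a - u) := Real.smoothTransition.monotone.deriv_nonneg
    have h4 := Real.smoothTransition.nonneg (a - u)
    have h5 : 0 ≤ deriv Real.smoothTransition (a - u) * (u - b)⁻¹ := by positivity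
    have h6 : 0 ≤ Real.smoothTransition (a - u) * (1 / (u - b) ^ 2) := by positivity
    simp only [id, Function.comp]
    rw [neg_div]
    nlinarith
  have hc : ContinuousOn f (Ioi b) := fun u hu => (hs u hu).continuousAt.continuousWithinAt
  have hm : StrictMonoOn f (Ioi b) := strictMonoOn_of_deriv_pos (convex_Ioi b) hc fun u hu => by
    rw [interior_Ioi] at hu
    obtain ⟨d, h1, h2⟩ := hd u hu
    rwa [h2.deriv]
  have hid : ∀ s, a ≤ s → f s = s := fun s h => by
    simp only [f, Real.smoothTransition.zero_of_nonpos (sub_nonpos.2 h), zero_mul, sub_zero]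
  have hsu : f '' Ioi b = univ := by
    refine eq_univ_of_forall fun v => ?_
    have t1 : Tendsto f (𝓝[>] b) atBot := by
      have k1 : Tendsto (fun u => (u - b)⁻¹) (𝓝[>] b) atTop := by
        refine tendsto_inv_nhdsGT_zero.comp (tendsto_nhdsWithin_iff.2 ⟨?_, ?_⟩)
        · have : Tendsto (fun u => u - b) (𝓝 b) (𝓝 (b - b)) := (continuous_sub_right b).tendsto b
          rw [sub_self] at this
          exact this.mono_left nhdsWithin_le_nhds
        · filter_upwards [self_mem_nhdsWithin] with u hu using sub_pos.2 (mem_Ioi.1 hu)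
      have k2 : Tendsto (fun u => Real.smoothTransition (a - u)) (𝓝[>] b)
          (𝓝 (Real.smoothTransition (a - b))) :=
        ((Real.smoothTransition.continuous.comp (continuous_sub_left a)).tendsto b).mono_left
          nhdsWithin_le_nhds
      have k3 := k2.pos_mul_atTop (Real.smoothTransition.pos_of_pos (sub_pos.2 hab)) k1
      exact (tendsto_id.mono_left nhdsWithin_le_nhds).add_atBot (tendsto_neg_atTop_atBot.comp k3)
    obtain ⟨u, h1, h2⟩ := ((t1.eventually (eventually_le_atBot v)).and self_mem_nhdsWithin).exists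
    have h3 : max a v ∈ Ioi b := hab.trans_le (le_max_left _ _)
    exact isPreconnected_Ioi.intermediate_value h2 h3 hc
      ⟨h1, by rw [hid _ (le_max_left _ _)]; exact le_max_right _ _⟩
  have ho : IsOpenMap ((Ioi b).domRestrict f) := by
    refine isOpenMap_iff_nhds_le.2 fun u => ?_
    obtain ⟨d, h1, h2⟩ := hd u u.2
    have h3 := ((hs u u.2).hasStrictDerivAt' h2 (by simp)).map_nhds_eq h1.ne'
    rw [domRestrict_eq, ← map_map, isOpen_Ioi.isOpenEmbedding_subtypeVal.map_nhds_eq, h3]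
    exact le_rfl
  let l := OpenPartialHomeomorph.ofContinuousOpenRestrict (hm.injOn.toPartialEquiv f _) hc ho
    isOpen_Ioi
  refine ⟨l, rfl, hsu, ⟨hs, fun v hv => ?_⟩, hid, fun s h => ?_⟩
  · obtain ⟨d, h1, h2⟩ := hd _ (l.map_target hv)
    exact l.contDiffAt_symm_deriv h1.ne' hv h2 (hs _ (l.map_target hv))
  · have := Real.smoothTransition.nonneg (a - s)
    have h0 : 0 < s - b := sub_pos.2 h
    exact sub_le_self _ (by positivity)

variable {V : Type} [NormedAddCommGroup V] [InnerProductSpace ℝ V]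

/-- an open partial homeomorphism from smooth maps -/
def mkLD (f g : V → V) (s : Set V) (hs : IsOpen s) (h1 : ∀ y, g y ∈ s) (h2 : ∀ y ∈ s, g (f y) = y)
    (h3 : ∀ y, f (g y) = y) (h4 : ∀ y ∈ s, ContDiffAt ℝ ∞ f y) (h5 : ∀ y, ContDiffAt ℝ ∞ g y) :
    OpenPartialHomeomorph V V where
  toFun := f
  invFun := g
  source := s
  target := univ
  map_source' _ _ := trivial
  map_target' y _ := h1 y
  left_inv' := h2
  right_inv' y _ := h3 y
  open_source := hs
  open_target := isOpen_univ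
  continuousOn_toFun y hy := (h4 y hy).continuousAt.continuousWithinAt
  continuousOn_invFun y _ := (h5 y).continuousAt.continuousWithinAt

/-- a half-space onto the whole space -/
theorem exists_half {a b : ℝ} (hab : b < a) {w : V} (hw : ‖w‖ = 1) :
    ∃ θ : OpenPartialHomeomorph V V, θ.source = {y | b < inner ℝ w y} ∧ θ.target = univ ∧ LD θ ∧
      ∀ y, a ≤ inner ℝ w y → θ y = y := by
  obtain ⟨l, l1, l2, l3, l4, -⟩ := exists_ray hab
  have hi : ∀ (k : ℝ → ℝ) y, inner ℝ w (y + (k (inner ℝ w y) - inner ℝ w y) • w) =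
      k (inner ℝ w y) := fun k y => by
    rw [inner_add_right, inner_smul_right, real_inner_self_eq_norm_sq, hw]
    ring
  have hc : ∀ (k : ℝ → ℝ) y, ContDiffAt ℝ ∞ k (inner ℝ w y) →
      ContDiffAt ℝ ∞ (fun y : V => y + (k (inner ℝ w y) - inner ℝ w y) • w) y := fun k y hk => by
    have : ContDiffAt ℝ ∞ (fun y : V => inner ℝ w y) y := contDiffAt_const.inner ℝ contDiffAt_id
    exact contDiffAt_id.add (((hk.comp y this).sub this).smul contDiffAt_const)
  have h4 : ∀ y ∈ {y | b < inner ℝ w y},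
      ContDiffAt ℝ ∞ (fun y : V => y + (l (inner ℝ w y) - inner ℝ w y) • w) y :=
    fun y hy => hc l y (l3.fw _ (l1 ▸ hy))
  have h5 : ∀ y, ContDiffAt ℝ ∞ (fun y : V => y + (l.symm (inner ℝ w y) - inner ℝ w y) • w) y :=
    fun y => hc l.symm y (l3.inv _ (l2 ▸ mem_univ _))
  refine ⟨mkLD _ _ _ (isOpen_lt continuous_const (by fun_prop)) (fun y => ?_) (fun y hy => ?_)
    (fun y => ?_) h4 h5, rfl, rfl, ⟨h4, fun y _ => h5 y⟩, fun y hy => ?_⟩
  · rw [mem_ofPred_eq, hi l.symm]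
    exact (l1 ▸ l.map_target (l2 ▸ mem_univ _) : _ ∈ Ioi b)
  · rw [hi l, l.left_inv (l1 ▸ hy), add_assoc, ← add_smul]
    simp
  · rw [hi l.symm, l.right_inv (l2 ▸ mem_univ _), add_assoc, ← add_smul]
    simp
  · show y + (l (inner ℝ w y) - inner ℝ w y) • w = y
    rw [l4 _ hy, sub_self, zero_smul, add_zero]

/-- a ball onto the whole space -/
theorem exists_ball (c : V) {r : ℝ} (hr : 0 < r) :
    ∃ θ : OpenPartialHomeomorph V V, θ.source = ball c r ∧ θ.target = univ ∧ LD θ ∧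
      ∀ y ∈ ball c (r / 2), θ y = y := by
  obtain ⟨l, l1, l2, l3, l4, l5⟩ := exists_ray (show -r < -(r / 2) by linarith)
  let R : (ℝ → ℝ) → V → V := fun k y => c + (-k (-‖y - c‖) / ‖y - c‖) • (y - c)
  have hn : ∀ (k : ℝ → ℝ) y, k 0 = 0 → k (-‖y - c‖) ≤ 0 → ‖R k y - c‖ = -k (-‖y - c‖) :=
    fun k y h0 h => by
      by_cases hy : ‖y - c‖ = 0
      · simp [R, hy, h0]
      · simp only [R, add_sub_cancel_left, norm_smul, Real.norm_eq_abs]
        rw [abs_of_nonneg (div_nonneg (neg_nonneg.2 h) (norm_nonneg _)), div_mul_cancel₀ _ hy]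
  have hid : ∀ (k : ℝ → ℝ) y, k (-‖y - c‖) = -‖y - c‖ → R k y = y := fun k y h => by
    by_cases hy : ‖y - c‖ = 0
    · simp [R, sub_eq_zero.1 (norm_eq_zero.1 hy)]
    · simp only [R, h, neg_neg, div_self hy, one_smul, add_sub_cancel]
  have hRR : ∀ (k k' : ℝ → ℝ) y, k 0 = 0 → k (-‖y - c‖) ≤ 0 → k' (k (-‖y - c‖)) = -‖y - c‖ →
      k' 0 = 0 → R k' (R k y) = y := fun k k' y h0 h h' h0' => by
    by_cases hy : ‖y - c‖ = 0
    · simp [R, sub_eq_zero.1 (norm_eq_zero.1 hy)]
    · have k1 : k (-‖y - c‖) ≠ 0 := fun e => hy (by rw [e, h0'] at h'; linarith)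
      show c + (-k' (-‖R k y - c‖) / ‖R k y - c‖) • (R k y - c) = y
      rw [hn k y h0 h, neg_neg, h', neg_neg]
      simp only [R, add_sub_cancel_left, smul_smul]
      rw [show ‖y - c‖ / -k (-‖y - c‖) * (-k (-‖y - c‖) / ‖y - c‖) = 1 by field_simp]
      simp
  have hc : ∀ (k : ℝ → ℝ) y, (∀ s, -(r / 2) ≤ s → k s = s) → ContDiffAt ℝ ∞ k (-‖y - c‖) →
      ContDiffAt ℝ ∞ (R k) y := fun k y h hk => by
    by_cases hy : y = c
    · refine contDiffAt_id.congr_of_eventuallyEq ?_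
      rw [hy]
      filter_upwards [ball_mem_nhds c (half_pos hr)] with z hz
      exact hid k z (h _ (neg_le_neg (mem_ball_iff_norm.1 hz).le))
    · have h1 : ContDiffAt ℝ ∞ (fun y : V => ‖y - c‖) y :=
        (contDiffAt_id.sub contDiffAt_const).norm ℝ (sub_ne_zero.2 hy)
      exact contDiffAt_const.add (((hk.comp y h1.neg).neg.div h1
        (norm_ne_zero_iff.2 (sub_ne_zero.2 hy))).smul (contDiffAt_id.sub contDiffAt_const))
  have l6 : ∀ s, -(r / 2) ≤ s → l.symm s = s := fun s h => by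
    conv_lhs => rw [← l4 s h]
    exact l.left_inv (l1 ▸ show -r < s by linarith)
  have l7 : ∀ s ≤ 0, l.symm s ≤ 0 := fun s h => by
    by_contra k
    have := l4 (l.symm s) (by linarith)
    rw [l.right_inv (l2 ▸ mem_univ _)] at this
    linarith
  have hb : ∀ y ∈ ball c r, -‖y - c‖ ∈ Ioi (-r) := fun y hy => neg_lt_neg (mem_ball_iff_norm.1 hy)
  have n0 : ∀ y : V, -‖y - c‖ ≤ 0 := fun y => neg_nonpos.2 (norm_nonneg _)
  have z1 : l 0 = 0 := l4 0 (by linarith)
  have z2 : l.symm 0 = 0 := l6 0 (by linarith)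
  have h4 : ∀ y ∈ ball c r, ContDiffAt ℝ ∞ (R l) y := fun y hy =>
    hc l y l4 (l3.fw _ (l1 ▸ hb y hy))
  have h5 : ∀ y, ContDiffAt ℝ ∞ (R l.symm) y := fun y =>
    hc l.symm y l6 (l3.inv _ (l2 ▸ mem_univ _))
  refine ⟨mkLD _ _ _ isOpen_ball (fun y => ?_) (fun y hy => ?_)
    (fun y => ?_) h4 h5, rfl, rfl, ⟨h4, fun y _ => h5 y⟩, fun y hy => ?_⟩
  · rw [mem_ball_iff_norm, hn _ _ z2 (l7 _ (n0 y)), neg_lt]
    exact (l1 ▸ l.map_target (l2 ▸ mem_univ _) : _ ∈ Ioi (-r))
  · exact hRR _ _ y z1 ((l5 _ (hb y hy)).trans (n0 y)) (l.left_inv (l1 ▸ hb y hy)) z2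
  · exact hRR _ _ y z2 (l7 _ (n0 y)) (l.right_inv (l2 ▸ mem_univ _)) z1
  · exact hid l y (l4 _ (neg_le_neg (mem_ball_iff_norm.1 hy).le))

/-- every compatible chart has the germ of a compatible chart onto the whole space -/
theorem Atl.Mx.germ {P : Type} [TopologicalSpace P] {A : Atl P V} {c : OpenPartialHomeomorph P V}
    (h : A.Mx c) {p : P} (hp : p ∈ c.source) {U : Set P} (hU : U ∈ 𝓝 p) :
    ∃ e : OpenPartialHomeomorph P V, A.Mx e ∧ e.target = univ ∧ p ∈ e.source ∧
      e.source ⊆ U ∩ c.source ∧ e p = c p ∧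
      ∃ r > 0, ball (c p) r ⊆ c.target ∧ ∀ y ∈ ball (c p) r, e.symm y = c.symm y := by
  have h1 : c.target ∩ c.symm ⁻¹' U ∈ 𝓝 (c p) :=
    inter_mem (c.open_target.mem_nhds (c.map_source hp))
      ((c.continuousAt_symm (c.map_source hp)).preimage_mem_nhds (by rwa [c.left_inv hp]))
  obtain ⟨r, hr, h2⟩ := Metric.mem_nhds_iff.1 h1
  obtain ⟨θ, t1, t2, t3, t4⟩ := exists_ball (c p) hr
  have t5 : ∀ y, θ.symm y ∈ ball (c p) r := fun y => t1 ▸ θ.map_target (t2 ▸ mem_univ y)
  refine ⟨c.trans θ, h.trans t3, eq_univ_of_forall fun y => ⟨t2 ▸ mem_univ y, (h2 (t5 y)).1⟩,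
    ⟨hp, t1 ▸ mem_ball_self hr⟩, fun q hq => ⟨?_, hq.1⟩, t4 _ (mem_ball_self (half_pos hr)),
    r / 2, half_pos hr, fun y hy => (h2 (ball_subset_ball (by linarith) hy)).1, fun y hy => ?_⟩
  · have := (h2 (t1 ▸ hq.2 : c q ∈ ball (c p) r)).2
    rwa [mem_preimage, c.left_inv hq.1] at this
  · show c.symm (θ.symm y) = c.symm y
    conv_lhs => rw [← t4 y hy]
    rw [θ.left_inv (t1 ▸ ball_subset_ball (by linarith) hy)]

end Vale.Agent.P366N
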