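import Vale.Agent.P366.Stmt
import Mathlib.Geometry.Manifold.Instances.Real
import Mathlib.Geometry.Manifold.IsManifold.InteriorBoundary
import Mathlib.Geometry.Manifold.LocalDiffeomorph

/-!
# P366: exteriors as manifolds with boundary
-/

open MeasureTheory Filter Topology Set Manifold
open scoped ContDiff ENNReal
open Vale.Agent.P366.Stmt

noncomputable section

namespace Vale.Agent.P366N

variable {n : ℕ} [NeZero n] {Ω : Type} [TopologicalSpace Ω] [ChartedSpace (EuclideanHalfSpace n) Ω]

variable (n Ω) in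
/-- Covariant 2-tensor fields on `Ω`. -/
abbrev Tensor := (x : Ω) → TangentSpace (𝓡∂ n) x →L[ℝ] TangentSpace (𝓡∂ n) x →L[ℝ] ℝ

/-- The components of `T` in the parametrisation `φ`, which is defined on a relatively open part
of the set `s` (the whole space or the closed half-space). -/
def comps (T : Tensor n Ω) (φ : E n → Ω) (s : Set (E n)) : Field n := fun y i j =>
  T (φ y) (mfderivWithin (𝓡 n) (𝓡∂ n) φ s y (EuclideanSpace.single i 1))
    (mfderivWithin (𝓡 n) (𝓡∂ n) φ s y (EuclideanSpace.single j 1))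

/-- The components of `T` in the chart at `p`. -/
def inChart (T : Tensor n Ω) (p : Ω) : Field n :=
  comps T (extChartAt (𝓡∂ n) p).symm (range (𝓡∂ n))

/-- `T` is symmetric and smooth up to the boundary: its components are smooth in every chart. -/
def SmoothSymm (T : Tensor n Ω) : Prop := (∀ x v w, T x v w = T x w v) ∧
  ∀ p i j, ContDiffOn ℝ ∞ (fun y => inChart T p y i j) (extChartAt (𝓡∂ n) p).target

/-- `G` is a smooth field on the coordinate space which extends the components of `T` in the chart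
at `x` near the point `x`. -/
def Rep (T : Tensor n Ω) (x : Ω) (G : Field n) : Prop := (∀ i j, Smooth fun y => G y i j) ∧
  ∀ᶠ y in 𝓝[range (𝓡∂ n)] (extChartAt (𝓡∂ n) x x), G y = inChart T x y

/-- The components of the vector field `X` in the chart at `p`. -/
def vecIn (X : (x : Ω) → TangentSpace (𝓡∂ n) x) (p : Ω) (y : E n) : E n :=
  mfderiv (𝓡∂ n) (𝓡 n) (extChartAt (𝓡∂ n) p) ((extChartAt (𝓡∂ n) p).symm y)
    (X ((extChartAt (𝓡∂ n) p).symm y))

/-- The divergence of `X` for the metric `g`, computed in the chart at `x` (it is used at interior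
points only: the boundary is a null set). -/
def diverg (g : Tensor n Ω) (X : (x : Ω) → TangentSpace (𝓡∂ n) x) (x : Ω) : ℝ :=
  (∑ i, pd i (fun y => √(mat (inChart g x) y).det * vecIn X x y i) (extChartAt (𝓡∂ n) x x)) /
    √(mat (inChart g x) (extChartAt (𝓡∂ n) x x)).det

/-- The Riemannian volume: the least measure that dominates, for every chart, Lebesgue measure
with the density `√ det g` on the image of the chart. -/
def riemVol [MeasurableSpace Ω] (g : Tensor n Ω) : Measure Ω :=
  ⨆ p : Ω, (((vol n).withDensity fun y => ENNReal.ofReal √(mat (inChart g p) y).det).restrict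
    (extChartAt (𝓡∂ n) p).target).map (extChartAt (𝓡∂ n) p).symm

variable (n Ω) in
/-- Initial data on the manifold with boundary `Ω`: a Riemannian metric `g` and a symmetric
tensor `K`, smooth up to the nonempty boundary; the complement of a compact set is identified by
`Φ` with the exterior of a ball. -/
structure Data where
  g : Tensor n Ω
  K : Tensor n Ω
  R₀ : ℝ
  Φ : PartialDiffeomorph (𝓡 n) (𝓡∂ n) (E n) Ω ∞
  smg : SmoothSymm g
  smK : SmoothSymm K
  pos : ∀ x v, v ≠ 0 → 0 < g x v v
  bdry : ((𝓡∂ n).boundary Ω).Nonempty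
  src : Φ.source = {y | R₀ < len y}
  cpt : IsCompact Φ.targetᶜ

namespace Data

variable (D : Data n Ω)

/-- The components of the metric on the end. -/
def gE : Field n := comps D.g D.Φ univ

/-- The components of `K` on the end. -/
def KE : Field n := comps D.K D.Φ univ

/-- Asymptotic flatness of order `q > (n - 2) / 2`. -/
def IsAF : Prop := ∃ q : ℝ, (n : ℝ) / 2 - 1 < q ∧ ∀ i j k l,
    BigO q (fun y => D.gE y i j - if i = j then 1 else 0) ∧
    BigO (q + 1) (pd k fun y => D.gE y i j) ∧
    BigO (q + 1 + 1) (pd l (pd k fun y => D.gE y i j)) ∧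
    BigO (q + 1) (fun y => D.KE y i j) ∧
    BigO (q + 1 + 1) (pd k fun y => D.KE y i j)

/-- The dominant energy condition. -/
def DEC : Prop := ∀ x G L, Rep D.g x G → Rep D.K x L →
  covNorm G (mom G L) (extChartAt (𝓡∂ n) x x) ≤ mu G L (extChartAt (𝓡∂ n) x x)

/-- The boundary is weakly future trapped; in a chart it is the level set `{y₀ = 0}` and `Ω` is
the side `{y₀ ≥ 0}`. -/
def Trapped : Prop := ∀ x ∈ (𝓡∂ n).boundary Ω, ∀ G L, Rep D.g x G → Rep D.K x L →
  thetaPlus G L (fun y => y 0) (extChartAt (𝓡∂ n) x x) ≤ 0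

/-- `m` is the ADM energy. -/
def IsEnergy (m : ℝ) : Prop :=
  Tendsto (flx fun i y => (∑ j, (pd j (fun z => D.gE z i j) y - pd i (fun z => D.gE z j j) y)) / 2)
    atTop (𝓝 m)

/-- `P` is the ADM momentum. -/
def IsMomentum (P : Fin n → ℝ) : Prop :=
  ∀ i, Tendsto (flx fun j y => momT D.gE D.KE y i j) atTop (𝓝 (P i))

/-- Admissible test fields: smooth up to the boundary, compactly supported, of length at most
one. -/
def TestField (X : (x : Ω) → TangentSpace (𝓡∂ n) x) : Prop :=
  (∀ p, ContDiffOn ℝ ∞ (vecIn X p) (extChartAt (𝓡∂ n) p).target) ∧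
    (∃ C, IsCompact C ∧ ∀ x ∉ C, X x = 0) ∧ ∀ x, D.g x (X x) (X x) ≤ 1

/-- `{0 ≤ G}` is a connected region with the smooth boundary `{G = 0}` that contains the end
outside some coordinate sphere and whose interior lies in the interior of `Ω`. -/
def IsCut (G : Ω → ℝ) : Prop :=
  ContMDiff (𝓡∂ n) 𝓘(ℝ, ℝ) ∞ G ∧ (∀ x, G x = 0 → mfderiv (𝓡∂ n) 𝓘(ℝ, ℝ) G x ≠ 0) ∧
    IsConnected {x | 0 ≤ G x} ∧ (∀ x ∈ (𝓡∂ n).boundary Ω, G x ≤ 0) ∧
    ∃ R, ∀ y, R < len y → 0 < G (D.Φ y)

variable [MeasurableSpace Ω]

/-- The `g`-area of the boundary `{G = 0}` of `{0 ≤ G}`, as the supremum of the integrals over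
`{0 ≤ G}` of the divergence of the admissible test fields. -/
def area (G : Ω → ℝ) : ℝ≥0∞ :=
  sSup {a | ∃ X, D.TestField X ∧
    a = ENNReal.ofReal (∫ x in {x | 0 ≤ G x}, diverg D.g X x ∂riemVol D.g)}

/-- `A_min`: the infimum of the areas of the enclosing cuts. -/
def Amin : ℝ≥0∞ := sInf {a | ∃ G, D.IsCut G ∧ a = D.area G}

end Data

end Vale.Agent.P366N
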