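import Vale.Agent.P366N.Seeley
import Vale.Agent.P366N.Stmt
import Vale.Agent.P366N.Dif
import Mathlib.Geometry.Manifold.BumpFunction
import Mathlib.Geometry.Manifold.MFDeriv.Atlas

/-!
# P366N: local extensions across the boundary; a defining function of the boundary
-/

open Filter Topology Set Metric Function Manifold
open scoped ContDiff
open Vale.Agent.P366.Stmt (E)

noncomputable section

namespace Vale.Agent.P366N

variable {n : ℕ} [NeZero n]

variable (n) in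
/-- the closed half-space -/
abbrev Hs : Set (E n) := range (𝓡∂ n)

theorem mem_Hs {y : E n} : y ∈ Hs n ↔ 0 ≤ y 0 := by
  rw [Hs, range_modelWithCornersEuclideanHalfSpace]
  rfl

theorem cont0 : Continuous fun y : E n => y 0 := by fun_prop

theorem cd0 : ContDiff ℝ ∞ fun y : E n => y 0 := (EuclideanSpace.proj (𝕜 := ℝ) (0 : Fin n)).contDiff

theorem ext_real {f : E n → ℝ} {T : Set (E n)} {a : E n} (hT : T ∈ 𝓝[Hs n] a)
    (hf : ContDiffOn ℝ ∞ f T) : ∃ F : E n → ℝ, ContDiff ℝ ∞ F ∧ F =ᶠ[𝓝[Hs n] a] f := by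
  obtain ⟨r, hr, h1⟩ := Metric.mem_nhdsWithin_iff.1 hT
  let χ : ContDiffBump a := ⟨r / 4, r / 2, by linarith, by linarith⟩
  have e : Hs n = {x | 0 ≤ EuclideanSpace.proj (𝕜 := ℝ) (0 : Fin n) x} := by
    ext y
    exact mem_Hs
  have h0 : ∀ y ∉ closedBall a (r / 2), (fun y => χ y * f y) =ᶠ[𝓝 y] fun _ => 0 := fun y hy => by
    filter_upwards [isClosed_closedBall.isOpen_compl.mem_nhds hy] with z hz
    rw [χ.zero_of_le_dist (not_le.1 fun k => hz k).le, zero_mul]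
  have h2 : ContDiffOn ℝ ∞ (fun y => χ y * f y) (Hs n) := fun y hy => by
    by_cases k : y ∈ closedBall a (r / 2)
    · have k' : y ∈ ball a r := closedBall_subset_ball (by linarith) k
      exact χ.contDiff.contDiffWithinAt.mul ((hf y (h1 ⟨k', hy⟩)).mono_of_mem_nhdsWithin
        (mem_of_superset (inter_mem (mem_nhdsWithin_of_mem_nhds (isOpen_ball.mem_nhds k'))
          self_mem_nhdsWithin) h1))
    · exact (contDiffAt_const.congr_of_eventuallyEq (h0 y k)).contDiffWithinAt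
  obtain ⟨F, k1, k2⟩ := rG3_seeley (EuclideanSpace.proj (𝕜 := ℝ) (0 : Fin n))
    (e := EuclideanSpace.single 0 1) (by simp) (e ▸ h2) fun m => by
      rw [← e]
      obtain ⟨C, hC⟩ := ((isCompact_closedBall a (r / 2)).inter_right
        (𝓡∂ n).isClosed_range).exists_bound_of_continuousOn
        ((h2.continuousOn_iteratedFDerivWithin (m := m) (by exact_mod_cast le_top)
          (𝓡∂ n).uniqueDiffOn).mono inter_subset_right)
      refine ⟨max C 0, fun y hy => ?_⟩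
      by_cases k : y ∈ closedBall a (r / 2)
      · exact le_max_of_le_left (hC y ⟨k, mem_Hs.2 hy⟩)
      · rw [((h0 y k).filter_mono nhdsWithin_le_nhds).iteratedFDerivWithin_eq
          (h0 y k).self_of_nhds]
        simp
  refine ⟨F, k1, ?_⟩
  filter_upwards [self_mem_nhdsWithin, mem_nhdsWithin_of_mem_nhds
    (closedBall_mem_nhds a (show 0 < r / 4 by linarith))] with y hy hy'
  rw [k2 y (mem_Hs.1 hy), χ.one_of_mem_closedBall hy', one_mul]

/-- **the local extension across the hyperplane** -/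
theorem ext_loc {W : Type} [NormedAddCommGroup W] [NormedSpace ℝ W] [FiniteDimensional ℝ W]
    {f : E n → W} {T : Set (E n)} {a : E n} (hT : T ∈ 𝓝[Hs n] a)
    (hf : ContDiffOn ℝ ∞ f T) : ∃ F : E n → W, ContDiff ℝ ∞ F ∧ F =ᶠ[𝓝[Hs n] a] f := by
  let b := Module.finBasis ℝ W
  choose F h1 h2 using fun i => ext_real hT
    ((b.coord i).toContinuousLinearMap.contDiff.comp_contDiffOn hf)
  refine ⟨fun y => ∑ i, F i y • b i, ContDiff.sum fun i _ => (h1 i).smul contDiff_const, ?_⟩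
  filter_upwards [eventually_all.2 h2] with y hy
  simp only [hy]
  exact b.sum_repr (f y)

theorem fderiv_Hs {W : Type} [NormedAddCommGroup W] [NormedSpace ℝ W] {F G : E n → W} {a : E n}
    (ha : a ∈ Hs n) (h : F =ᶠ[𝓝[Hs n] a] G) (hF : DifferentiableAt ℝ F a)
    (hG : DifferentiableAt ℝ G a) : fderiv ℝ F a = fderiv ℝ G a :=
  ((𝓡∂ n).uniqueDiffOn a ha).eq hF.hasFDerivAt.hasFDerivWithinAt
    (hG.hasFDerivAt.hasFDerivWithinAt.congr_of_eventuallyEq h (h.self_of_nhdsWithin ha))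

theorem le_fderiv0 {F : E n → ℝ} {a : E n} {c : ℝ} (ha : a 0 = 0) (h0 : F a = 0)
    (hF : DifferentiableAt ℝ F a) (h : ∀ᶠ y in 𝓝[Hs n] a, c * y 0 ≤ F y) :
    c ≤ fderiv ℝ F a (EuclideanSpace.single 0 1) := by
  have h1 := (hF.hasFDerivAt.hasLineDerivAt (EuclideanSpace.single 0 1)).tendsto_slope_zero_right
  have h2 : Tendsto (fun t : ℝ => a + t • EuclideanSpace.single (0 : Fin n) (1 : ℝ)) (𝓝[>] 0)
      (𝓝[Hs n] a) := by
    refine tendsto_nhdsWithin_iff.2 ⟨tendsto_nhdsWithin_of_tendsto_nhds ?_, ?_⟩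
    · exact Continuous.tendsto' (by fun_prop) _ _ (by simp)
    · filter_upwards [self_mem_nhdsWithin] with t ht
      exact mem_Hs.2 (by simpa [ha] using (mem_Ioi.1 ht).le)
  refine ge_of_tendsto h1 ?_
  filter_upwards [h2.eventually h, self_mem_nhdsWithin] with t h3 ht
  have ht' : 0 < t := ht
  rw [h0, sub_zero, smul_eq_mul, inv_mul_eq_div, le_div_iff₀ ht']
  simpa [ha] using h3

omit [NeZero n] in
theorem exists_equiv (D : E n →L[ℝ] E n) (h : Injective D) :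
    ∃ L : E n ≃L[ℝ] E n, (L : E n →L[ℝ] E n) = D :=
  ⟨(LinearEquiv.ofInjectiveEndo (D : E n →ₗ[ℝ] E n) h).toContinuousLinearEquiv, by ext; rfl⟩

variable {Ω : Type} [TopologicalSpace Ω] [ChartedSpace (EuclideanHalfSpace n) Ω]

variable (n) in
/-- the chart at `p` -/
abbrev ec (p : Ω) : PartialEquiv Ω (E n) := extChartAt (𝓡∂ n) p

variable (n Ω) in
/-- the boundary -/
abbrev bd : Set Ω := (𝓡∂ n).boundary Ω

variable {p q x : Ω}

theorem ec_mem (p x : Ω) : ec n p x ∈ Hs n := mem_range_self _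

theorem ec_nonneg (p x : Ω) : 0 ≤ ec n p x 0 := mem_Hs.1 (ec_mem p x)

theorem ev_ec (hx : x ∈ (ec n p).source) {P : E n → Prop} :
    (∀ᶠ z in 𝓝 x, P (ec n p z)) ↔ ∀ᶠ y in 𝓝[Hs n] (ec n p x), P y := by
  rw [← map_extChartAt_nhds' hx, eventually_map]

theorem ev_symm (hx : x ∈ (ec n p).source) {P : Ω → Prop} :
    (∀ᶠ y in 𝓝[Hs n] (ec n p x), P ((ec n p).symm y)) ↔ ∀ᶠ z in 𝓝 x, P z := by
  rw [← map_extChartAt_symm_nhdsWithin_range' hx, eventually_map]

theorem src_eq (p : Ω) : (ec n p).source = (chartAt (EuclideanHalfSpace n) p).source :=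
  extChartAt_source _ p

variable [IsManifold (𝓡∂ n) ∞ Ω]

theorem bd_iff (hx : x ∈ (ec n p).source) : x ∈ bd n Ω ↔ ec n p x 0 = 0 := by
  rw [src_eq] at hx
  have h := (𝓡∂ n).isInteriorPoint_iff_of_mem_atlas (n := ∞) (by simp)
    (chart_mem_atlas (EuclideanHalfSpace n) p) hx
  have h0 := ec_nonneg (n := n) p x
  refine ((𝓡∂ n).isBoundaryPoint_iff_not_isInteriorPoint x).trans (h.not.trans ⟨fun k => ?_,
    fun k l => ?_⟩)
  · by_contra l
    refine k (OpenPartialHomeomorph.mem_interior_extend_target _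
      ((chartAt _ p).map_source hx) ?_)
    rw [interior_range_modelWithCornersEuclideanHalfSpace]
    exact lt_of_le_of_ne h0 (Ne.symm l)
  · have := OpenPartialHomeomorph.interior_extend_target_subset_interior_range _ l
    rw [interior_range_modelWithCornersEuclideanHalfSpace] at this
    exact (ne_of_gt this) k

section ext

variable {W : Type} [NormedAddCommGroup W] [NormedSpace ℝ W]

omit [IsManifold (𝓡∂ n) ∞ Ω] in
theorem ext_of [FiniteDimensional ℝ W] {f : E n → W} (hf : ContDiffOn ℝ ∞ f (ec n p).target)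
    (hx : x ∈ (ec n p).source) :
    ∃ F : E n → W, ContDiff ℝ ∞ F ∧ ∀ᶠ z in 𝓝 x, F (ec n p z) = f (ec n p z) := by
  obtain ⟨F, h1, h2⟩ := ext_loc (extChartAt_target_mem_nhdsWithin' hx) hf
  exact ⟨F, h1, (ev_ec hx (P := fun y => F y = f y)).2 h2⟩

theorem exists_ext [FiniteDimensional ℝ W] {u : Ω → W} (hu : ContMDiff (𝓡∂ n) 𝓘(ℝ, W) ∞ u)
    (hx : x ∈ (ec n p).source) :
    ∃ F : E n → W, ContDiff ℝ ∞ F ∧ ∀ᶠ z in 𝓝 x, u z = F (ec n p z) := by
  obtain ⟨F, h1, h2⟩ := ext_of (f := u ∘ (ec n p).symm)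
    (hu.comp_contMDiffOn (contMDiffOn_extChartAt_symm p)).contDiffOn hx
  refine ⟨F, h1, ?_⟩
  filter_upwards [h2, extChartAt_source_mem_nhds' hx] with z h3 h4
  rw [h3, comp_apply, (ec n p).left_inv h4]

theorem has_mfd {u : Ω → W} {F : E n → W} (hx : x ∈ (ec n p).source)
    (h : ∀ᶠ z in 𝓝 x, u z = F (ec n p z)) (hF : DifferentiableAt ℝ F (ec n p x)) :
    HasMFDerivAt (𝓡∂ n) 𝓘(ℝ, W) u x
      ((fderiv ℝ F (ec n p x)).comp (mfderiv (𝓡∂ n) (𝓡 n) (ec n p) x)) :=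
  (hF.hasFDerivAt.hasMFDerivAt.comp x
    (mdifferentiableAt_extChartAt (src_eq (n := n) p ▸ hx)).hasMFDerivAt).congr_of_eventuallyEq h

theorem mfd_ne {u : Ω → W} {F : E n → W} (hx : x ∈ (ec n p).source)
    (h : ∀ᶠ z in 𝓝 x, u z = F (ec n p z)) (hF : DifferentiableAt ℝ F (ec n p x)) :
    mfderiv (𝓡∂ n) 𝓘(ℝ, W) u x ≠ 0 ↔ fderiv ℝ F (ec n p x) ≠ 0 := by
  rw [(has_mfd hx h hF).mfderiv]
  refine not_congr ⟨fun k => ?_, fun k => by rw [k]; rfl⟩
  obtain ⟨L, hL⟩ := isInvertible_mfderiv_extChartAt hx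
  ext v
  obtain ⟨w, rfl⟩ := L.surjective v
  have := DFunLike.congr_fun k w
  rw [← hL] at this
  exact this

theorem cmd_of {u : Ω → W} {F : E n → W} (hx : x ∈ (ec n p).source)
    (h : ∀ᶠ z in 𝓝 x, u z = F (ec n p z)) (hF : ContDiffAt ℝ ∞ F (ec n p x)) :
    ContMDiffAt (𝓡∂ n) 𝓘(ℝ, W) ∞ u x :=
  (hF.contMDiffAt.comp x (contMDiffAt_extChartAt' (src_eq (n := n) p ▸ hx))).congr_of_eventuallyEq h

end ext

/-- **a defining function of the boundary** -/
theorem exists_F0 [T2Space Ω] (hS : IsCompact (bd n Ω)) : ∃ F : Ω → ℝ,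
    ContMDiff (𝓡∂ n) 𝓘(ℝ, ℝ) ∞ F ∧ (∀ x, 0 ≤ F x) ∧ (∀ x, F x = 0 ↔ x ∈ bd n Ω) ∧
    (∃ C, IsCompact C ∧ ∀ x ∉ C, F x = 1) ∧
    ∃ U, IsOpen U ∧ bd n Ω ⊆ U ∧ ∀ x ∈ U, mfderiv (𝓡∂ n) 𝓘(ℝ, ℝ) F x ≠ 0 := by
  have key := hS.induction_on (p := fun t => ∃ u w : Ω → ℝ, ContMDiff (𝓡∂ n) 𝓘(ℝ, ℝ) ∞ u ∧
      ContMDiff (𝓡∂ n) 𝓘(ℝ, ℝ) ∞ w ∧ (∀ x, 0 ≤ u x ∧ 0 ≤ w x) ∧ (∀ x ∈ bd n Ω, u x = 0) ∧
      (∀ x ∉ bd n Ω, 0 < u x + w x) ∧ (∃ C, IsCompact C ∧ ∀ x ∉ C, u x = 0 ∧ w x = 1) ∧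
      ∀ x ∈ t, w x = 0 ∧ ∃ p, x ∈ (ec n p).source ∧ ∀ᶠ z in 𝓝 x, ec n p z 0 ≤ u z)
    ⟨0, 1, contMDiff_const, contMDiff_const, by simp, by simp, by simp,
      ⟨∅, isCompact_empty, by simp⟩, by simp⟩
    (fun s t hst ⟨u, w, h1, h2, h3, h4, h5, h6, h7⟩ =>
      ⟨u, w, h1, h2, h3, h4, h5, h6, fun x hx => h7 x (hst hx)⟩)
    (fun s t ⟨u, w, h1, h2, h3, h4, h5, ⟨C, h6, h6'⟩, h7⟩
      ⟨u', w', k1, k2, k3, k4, k5, ⟨C', k6, k6'⟩, k7⟩ => by
      refine ⟨u + u', w * w', h1.add k1, h2.mul k2, fun x => ⟨add_nonneg (h3 x).1 (k3 x).1,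
        mul_nonneg (h3 x).2 (k3 x).2⟩, fun x hx => by simp [h4 x hx, k4 x hx], fun x hx => ?_,
        ⟨C ∪ C', h6.union k6, fun x hx => ?_⟩, fun x hx => ?_⟩
      · have l1 := h5 x hx
        have l2 := k5 x hx
        obtain ⟨l3, l4⟩ := h3 x
        obtain ⟨l5, l6⟩ := k3 x
        simp only [Pi.add_apply, Pi.mul_apply]
        by_contra l
        have l7 := mul_nonneg l4 l6
        have l8 := mul_pos (show 0 < w x by linarith) (show 0 < w' x by linarith)
        linarith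
      · simp [h6' x fun k => hx (Or.inl k), k6' x fun k => hx (Or.inr k)]
      · rcases hx with hx | hx
        · obtain ⟨l1, p, l2, l3⟩ := h7 x hx
          exact ⟨by simp [l1], p, l2, l3.mono fun z hz => le_add_of_le_of_nonneg hz (k3 z).1⟩
        · obtain ⟨l1, p, l2, l3⟩ := k7 x hx
          exact ⟨by simp [l1], p, l2, l3.mono fun z hz => le_add_of_nonneg_of_le (h3 z).1 hz⟩)
    fun p _ => by
      obtain ⟨f⟩ : Nonempty (SmoothBumpFunction (𝓡∂ n) p) := inferInstance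
      have h0 : ∀ x, f x ≠ 0 → x ∈ (ec n p).source := fun x hx =>
        src_eq (n := n) p ▸ f.support_subset_source hx
      refine ⟨{x | f =ᶠ[𝓝 x] 1}, mem_nhdsWithin_of_mem_nhds
        f.eventuallyEq_one.eventually_nhds, fun x => f x • ec n p x 0, fun x => 1 - f x,
        f.contMDiff_smul (cd0.contMDiff.comp_contMDiffOn contMDiffOn_extChartAt),
        contMDiff_const.sub f.contMDiff, fun x => ⟨mul_nonneg f.nonneg (ec_nonneg p x),
          sub_nonneg.2 f.le_one⟩, fun x hx => ?_, fun x hx => ?_,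
        ⟨_, f.hasCompactSupport, fun x hx => by simp [image_eq_zero_of_notMem_tsupport hx]⟩,
        fun x hx => ?_⟩
      · by_cases k : f x = 0
        · simp [k]
        · simp only [(bd_iff (h0 x k)).1 hx, smul_zero]
      · have l1 := mul_nonneg (f.nonneg (x := x)) (ec_nonneg (n := n) p x)
        rcases (f.le_one (x := x)).eq_or_lt with k | k
        · have l2 := (ec_nonneg (n := n) p x).lt_of_ne'
            ((bd_iff (h0 x (k ▸ one_ne_zero))).not.1 hx)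
          simpa [k] using l2
        · simp only [smul_eq_mul]
          linarith
      · have k : f x = 1 := hx.self_of_nhds
        exact ⟨by simp [k], p, h0 x (k ▸ one_ne_zero), hx.mono fun z hz => by simp [hz]⟩
  obtain ⟨u, w, h1, h2, h3, h4, h5, ⟨C, h6, h6'⟩, h7⟩ := key
  have h8 : ∀ x ∈ bd n Ω, (u + w) x = 0 := fun x hx => by simp [h4 x hx, (h7 x hx).1]
  refine ⟨u + w, h1.add h2, fun x => add_nonneg (h3 x).1 (h3 x).2, fun x => ⟨fun k => ?_, h8 x⟩,
    ⟨C, h6, fun x hx => by simp [h6' x hx]⟩,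
    interior {x | mfderiv (𝓡∂ n) 𝓘(ℝ, ℝ) (u + w) x ≠ 0}, isOpen_interior, fun x hx => ?_,
    fun x hx => interior_subset hx⟩
  · by_contra l
    exact (h5 x l).ne' k
  · obtain ⟨-, p, k1, k2⟩ := h7 x hx
    obtain ⟨F, k3, k4⟩ := exists_ext (h1.add h2) k1
    have k5 := le_fderiv0 (c := 1) ((bd_iff k1).1 hx) (k4.self_of_nhds.symm.trans (h8 x hx))
      (k3.differentiable (by simp) _) ((ev_ec k1).1 (by
        filter_upwards [k2, k4] with z l1 l2
        rw [← l2, one_mul]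
        exact le_add_of_le_of_nonneg l1 (h3 z).2))
    have k6 : fderiv ℝ F (ec n p x) ≠ 0 := fun l => by
      rw [l] at k5
      norm_num at k5
    refine mem_interior_iff_mem_nhds.2 ?_
    filter_upwards [k4.eventually_nhds, extChartAt_source_mem_nhds' k1,
      (((k3.continuous_fderiv (by simp)).continuousAt.comp
        (continuousAt_extChartAt' k1)).eventually_ne k6)] with z l1 l2 l3
    exact (mfd_ne l2 l1 (k3.differentiable (by simp) _)).2 l3

end Vale.Agent.P366N
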