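import Vale.Agent.P366N.Bd1

/-!
# P366N: pushing a manifold with compact boundary into its interior
-/

open Filter Topology Set Metric Function Manifold
open scoped ContDiff
open Vale.Agent.P366.Stmt (E)

noncomputable section

namespace Vale.Agent.P366N

variable {n : ℕ} [NeZero n]

omit [NeZero n] in
theorem LD.trans {θ θ' : OpenPartialHomeomorph (E n) (E n)} (h : LD θ) (h' : LD θ') :
    LD (θ.trans θ') :=
  ⟨fun y hy => (h'.fw _ hy.2).comp y (h.fw y hy.1),
    fun y hy => (h.inv _ hy.2).comp y (h'.inv y hy.1)⟩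

theorem exists_shear (a : E n) {r : ℝ} (hr : 0 < r) : ∃ σ : E n → E n, ContDiff ℝ ∞ σ ∧
    Injective σ ∧ (∀ y, Injective (fderiv ℝ σ y)) ∧ (∀ y ∉ ball a r, σ y = y) ∧
    (∀ y ∈ ball a r, σ y ∈ ball a (2 * r)) ∧ (∀ y, σ y = y ∨ y 0 < σ y 0) ∧
    ∀ y ∈ ball a (r / 2), y 0 < σ y 0 := by
  let ρ : ContDiffBump a := ⟨r / 2, r, by linarith, by linarith⟩
  obtain ⟨K, hK⟩ := ContDiff.lipschitzWith_of_hasCompactSupport ρ.hasCompactSupport
    (ρ.contDiff (n := 1)) (by simp)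
  obtain ⟨δ, d0, d1, d2⟩ : ∃ δ : ℝ, 0 < δ ∧ δ ≤ r ∧ δ * K < 1 := by
    have : 0 < (K : ℝ) + 1 := by positivity
    refine ⟨min r (1 / (K + 1)), lt_min hr (by positivity), min_le_left _ _, ?_⟩
    refine (mul_le_mul_of_nonneg_right (min_le_right _ _) K.2).trans_lt ?_
    rw [div_mul_eq_mul_div, div_lt_one this]
    simp
  have key : ∀ (v : E n) (t : ℝ), |t| ≤ K * ‖v‖ →
      v + (δ * t) • EuclideanSpace.single (0 : Fin n) (1 : ℝ) = 0 → v = 0 := fun v t h1 h2 => by
    have h3 : ‖v‖ = δ * |t| := by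
      rw [eq_neg_of_add_eq_zero_left h2, norm_neg, norm_smul]
      simp [abs_of_pos d0]
    by_contra h4
    have h5 := norm_pos_iff.2 h4
    nlinarith [mul_le_mul_of_nonneg_left h1 d0.le]
  have h0 : ∀ y : E n, (y + (δ * ρ y) • EuclideanSpace.single (0 : Fin n) (1 : ℝ)) 0 =
      y 0 + δ * ρ y := fun y => by simp
  refine ⟨fun y => y + (δ * ρ y) • EuclideanSpace.single 0 1,
    contDiff_id.add ((contDiff_const.mul ρ.contDiff).smul contDiff_const), fun y z h => ?_,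
    fun y => (injective_iff_map_eq_zero _).2 fun v h => ?_, fun y hy => ?_, fun y hy => ?_,
    fun y => ?_, fun y hy => ?_⟩
  · refine sub_eq_zero.1 (key _ (ρ y - ρ z) ?_ ?_)
    · simpa [dist_eq_norm] using hK.dist_le_mul y z
    · rw [mul_sub, sub_smul, sub_add_sub_comm]
      exact sub_eq_zero.2 h
  · have h1 := ((ρ.contDiff (n := 1)).differentiable one_ne_zero y).hasFDerivAt
    have h2 : HasFDerivAt (fun y => y + (δ * ρ y) • EuclideanSpace.single (0 : Fin n) (1 : ℝ)) _ y :=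
      (hasFDerivAt_id y).add ((h1.const_mul δ).smul_const _)
    rw [h2.fderiv] at h
    refine key v (fderiv ℝ ρ y v) (((fderiv ℝ ρ y).le_opNorm v).trans
      (mul_le_mul_of_nonneg_right (norm_fderiv_le_of_lipschitz ℝ hK) (norm_nonneg _))) ?_
    simpa using h
  · simp [ρ.zero_of_le_dist (not_lt.1 fun k => hy k)]
  · have h1 : ‖(δ * ρ y) • EuclideanSpace.single (0 : Fin n) (1 : ℝ)‖ ≤ r := by
      rw [norm_smul]
      simp only [PiLp.norm_single, norm_one, mul_one, Real.norm_eq_abs]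
      rw [abs_of_nonneg (mul_nonneg d0.le ρ.nonneg)]
      nlinarith [ρ.le_one (x := y)]
    rw [mem_ball_iff_norm] at hy ⊢
    rw [add_sub_right_comm]
    linarith [norm_add_le (y - a) ((δ * ρ y) • EuclideanSpace.single (0 : Fin n) (1 : ℝ))]
  · rcases (ρ.nonneg (x := y)).eq_or_lt with h | h
    · exact Or.inl (by simp [← h])
    · exact Or.inr (by rw [h0]; linarith [mul_pos d0 h])
  · rw [h0, ρ.one_of_mem_closedBall (ball_subset_closedBall hy)]
    linarith

variable {Ω : Type} [TopologicalSpace Ω] [ChartedSpace (EuclideanHalfSpace n) Ω]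
  {φ ψ : Ω → Ω} {p q r x : Ω}

variable (n) in
/-- in the charts at `p` and `q`, the map `φ` extends near `x` to a local diffeomorphism -/
def ExAt (φ : Ω → Ω) (p q x : Ω) : Prop := ∃ θ : OpenPartialHomeomorph (E n) (E n), LD θ ∧
  ec n p x ∈ θ.source ∧ ∀ᶠ z in 𝓝 x, θ (ec n p z) = ec n q (φ z)

theorem ExAt.comp (h : ExAt n φ p r x) (h' : ExAt n ψ r q (φ x)) (hc : ContinuousAt φ x) :
    ExAt n (ψ ∘ φ) p q x := by
  obtain ⟨θ, h1, h2, h3⟩ := h
  obtain ⟨θ', k1, k2, k3⟩ := h'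
  refine ⟨θ.trans θ', h1.trans k1, ⟨h2, by rwa [← h3.self_of_nhds] at k2⟩, ?_⟩
  filter_upwards [h3, hc.eventually k3] with z l1 l2
  rw [OpenPartialHomeomorph.trans_apply, l1, l2, comp_apply]

theorem exAt_of {F : E n → E n} (hF : ContDiff ℝ ∞ F) (hi : Injective (fderiv ℝ F (ec n p x)))
    (h : ∀ᶠ z in 𝓝 x, F (ec n p z) = ec n q (φ z)) : ExAt n φ p q x := by
  obtain ⟨L, hL⟩ := exists_equiv _ hi
  obtain ⟨θ, t1, -, t3, t4⟩ := locdiff isOpen_univ (mem_univ _) (fun _ _ => hF.contDiffAt) L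
    (hL ▸ (hF.differentiable (by simp) _).hasFDerivAt)
  exact ⟨θ, t4, t1, h.mono fun z hz => (t3 _).trans hz⟩

variable [IsManifold (𝓡∂ n) ∞ Ω]

theorem exAt_id (hp : x ∈ (ec n p).source) (hq : x ∈ (ec n q).source) : ExAt n id p q x := by
  obtain ⟨F, h1, h2⟩ := ext_loc (inter_mem (extChartAt_target_mem_nhdsWithin' hp)
    ((ev_symm hp).2 (extChartAt_source_mem_nhds' hq))) (contDiffOn_ext_coord_change q p)
  have h3 : ∀ᶠ z in 𝓝 x, ec n q z = F (ec n p z) := by
    filter_upwards [(ev_ec hp).2 h2, extChartAt_source_mem_nhds' hp] with z k1 k2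
    rw [k1, comp_apply, (ec n p).left_inv k2]
  refine exAt_of h1 ((injective_iff_map_eq_zero _).2 fun v hv => ?_) (h3.mono fun z hz => hz.symm)
  have h4 := (has_mfd hp h3 (h1.differentiable (by simp) _)).mfderiv
  obtain ⟨L, hL⟩ := isInvertible_mfderiv_extChartAt hp
  obtain ⟨L', hL'⟩ := isInvertible_mfderiv_extChartAt hq
  obtain ⟨w, rfl⟩ := L.surjective v
  have h5 := DFunLike.congr_fun h4 w
  rw [← hL, ← hL'] at h5
  rw [L'.map_eq_zero_iff.1 (h5.trans hv)]
  exact L.map_zero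

variable (n) in
/-- maps that push into the interior -/
structure Psh (U : Set Ω) (φ : Ω → Ω) : Prop where
  cont : Continuous φ
  inj : Injective φ
  ex : ∀ p q x, x ∈ (ec n p).source → φ x ∈ (ec n q).source → ExAt n φ p q x
  cpt : ∃ C, IsCompact C ∧ C ⊆ U ∧ ∀ x ∉ C, φ x = x
  int : ∀ x, φ x = x ∨ φ x ∉ bd n Ω

omit [IsManifold (𝓡∂ n) ∞ Ω] in
theorem Psh.nb {U : Set Ω} (h : Psh n U φ) (hx : x ∉ bd n Ω) : φ x ∉ bd n Ω :=
  (h.int x).elim (fun k => k.symm ▸ hx) id

omit [IsManifold (𝓡∂ n) ∞ Ω] in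
theorem Psh.comp {U : Set Ω} (h : Psh n U φ) (h' : Psh n U ψ) : Psh n U (ψ ∘ φ) := by
  obtain ⟨C, h1, h2, h3⟩ := h.cpt
  obtain ⟨C', k1, k2, k3⟩ := h'.cpt
  refine ⟨h'.cont.comp h.cont, h'.inj.comp h.inj, fun p q x hp hq =>
    (h.ex p _ x hp (mem_extChartAt_source _)).comp (h'.ex _ q _ (mem_extChartAt_source _) hq)
      h.cont.continuousAt, ⟨C ∪ C', h1.union k1, union_subset h2 k2, fun x hx => ?_⟩, fun x => ?_⟩
  · rw [comp_apply, h3 x fun k => hx (Or.inl k), k3 x fun k => hx (Or.inr k)]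
  · rcases h.int x with k | k
    · rw [comp_apply, k]
      exact h'.int x
    · exact Or.inr (h'.nb k)

variable [T2Space Ω]

omit [IsManifold (𝓡∂ n) ∞ Ω] in
theorem Psh.emb {U : Set Ω} (h : Psh n U φ) : IsClosedEmbedding φ := by
  obtain ⟨C, h1, -, h3⟩ := h.cpt
  refine .of_continuous_injective_isClosedMap h.cont h.inj fun A hA => ?_
  have h4 : ∀ x ∈ closure Cᶜ, φ x = x := fun x hx =>
    closure_minimal h3 (isClosed_eq h.cont continuous_id) hx
  have e : φ '' A = φ '' (C ∩ A) ∪ A ∩ closure Cᶜ := by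
    refine Subset.antisymm ?_ (union_subset (image_mono inter_subset_right)
      fun x hx => ⟨x, hx.1, h4 x hx.2⟩)
    rintro _ ⟨x, hx, rfl⟩
    by_cases k : x ∈ C
    · exact Or.inl ⟨x, ⟨k, hx⟩, rfl⟩
    · rw [h3 x k]
      exact Or.inr ⟨hx, subset_closure k⟩
  rw [e]
  exact ((h1.inter_right hA).image h.cont).isClosed.union (hA.inter isClosed_closure)

theorem psh_loc {U : Set Ω} (hU : U ∈ 𝓝 p) :
    ∃ φ, Psh n U φ ∧ ∀ᶠ x in 𝓝 p, φ x ∉ bd n Ω := by
  classical
  have hp := mem_extChartAt_source (I := 𝓡∂ n) p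
  obtain ⟨r, hr, h1⟩ := Metric.mem_nhdsWithin_iff.1
    (inter_mem (extChartAt_target_mem_nhdsWithin' hp) ((ev_symm hp).2 hU))
  obtain ⟨σ, s1, s2, s3, s4, s5, s6, s7⟩ := exists_shear (ec n p p) (half_pos hr)
  rw [mul_div_cancel₀ _ two_ne_zero] at s5
  have t1 : ∀ x ∈ (ec n p).source, σ (ec n p x) ∈ (ec n p).target := fun x hx => by
    by_cases k : ec n p x ∈ ball (ec n p p) (r / 2)
    · refine (h1 ⟨s5 _ k, mem_Hs.2 ?_⟩).1
      rcases s6 (ec n p x) with l | l
      · rw [l]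
        exact ec_nonneg p x
      · exact (ec_nonneg p x).trans l.le
    · rw [s4 _ k]
      exact (ec n p).map_source hx
  let φ : Ω → Ω := fun x => if x ∈ (ec n p).source then (ec n p).symm (σ (ec n p x)) else x
  have f1 : ∀ x ∈ (ec n p).source, φ x = (ec n p).symm (σ (ec n p x)) := fun x hx => if_pos hx
  have f2 : ∀ x ∈ (ec n p).source, φ x ∈ (ec n p).source := fun x hx =>
    f1 x hx ▸ (ec n p).map_target (t1 x hx)
  have f3 : ∀ x ∈ (ec n p).source, ec n p (φ x) = σ (ec n p x) := fun x hx => by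
    rw [f1 x hx, (ec n p).right_inv (t1 x hx)]
  have c0 : closedBall (ec n p p) (r / 2) ∩ Hs n ⊆ _ :=
    (inter_subset_inter_left _ (closedBall_subset_ball (half_lt_self hr))).trans h1
  have c1 : IsCompact ((ec n p).symm '' (closedBall (ec n p p) (r / 2) ∩ Hs n)) :=
    ((isCompact_closedBall _ _).inter_right (𝓡∂ n).isClosed_range).image_of_continuousOn
      ((continuousOn_extChartAt_symm p).mono fun y hy => (c0 hy).1)
  have c2 : ∀ x ∉ (ec n p).symm '' (closedBall (ec n p p) (r / 2) ∩ Hs n), φ x = x :=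
    fun x hx => by
      by_cases k : x ∈ (ec n p).source
      · rw [f1 x k, s4 _ fun l => hx ⟨_, ⟨ball_subset_closedBall l, ec_mem p x⟩,
          (ec n p).left_inv k⟩, (ec n p).left_inv k]
      · exact if_neg k
  have c3 : ∀ x ∉ (ec n p).source, φ =ᶠ[𝓝 x] id := fun x hx => by
    refine mem_of_superset (c1.isClosed.isOpen_compl.mem_nhds ?_) c2
    rintro ⟨y, hy, rfl⟩
    exact hx ((ec n p).map_target (c0 hy).1)
  have c4 : Continuous φ := continuous_iff_continuousAt.2 fun x => by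
    by_cases k : x ∈ (ec n p).source
    · refine ((continuousAt_extChartAt_symm'' (t1 x k)).comp (f := fun z => σ (ec n p z))
        (s1.continuous.continuousAt.comp (continuousAt_extChartAt' k))).congr ?_
      filter_upwards [extChartAt_source_mem_nhds' k] with z hz using (f1 z hz).symm
    · exact continuousAt_id.congr (c3 x k).symm
  have c5 : ∀ x ∈ (ec n p).source, ec n p x 0 < σ (ec n p x) 0 → φ x ∉ bd n Ω := fun x hx h k => by
    have := (bd_iff (f2 x hx)).1 k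
    rw [f3 x hx] at this
    linarith [ec_nonneg (n := n) p x]
  refine ⟨φ, ⟨c4, fun x z h => ?_, fun a b x ha hb => ?_, ⟨_, c1, ?_, c2⟩, fun x => ?_⟩, ?_⟩
  · by_cases k : x ∈ (ec n p).source <;> by_cases l : z ∈ (ec n p).source
    · exact (ec n p).injOn k l (s2 (by rw [← f3 x k, h, f3 z l]))
    · exact (l ((h.trans (if_neg l)) ▸ f2 x k)).elim
    · exact (k ((h.symm.trans (if_neg k)) ▸ f2 z l)).elim
    · exact (if_neg k).symm.trans (h.trans (if_neg l))
  · by_cases k : x ∈ (ec n p).source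
    · exact ((exAt_id ha k).comp (ψ := φ) (exAt_of s1 (s3 _) (mem_of_superset
        (extChartAt_source_mem_nhds' k) fun z hz => (f3 z hz).symm)) continuousAt_id).comp
        (ψ := id) (exAt_id (f2 x k) hb) c4.continuousAt
    · obtain ⟨θ, l1, l2, l3⟩ := exAt_id ha ((c3 x k).self_of_nhds ▸ hb : id x ∈ _)
      refine ⟨θ, l1, l2, ?_⟩
      filter_upwards [l3, c3 x k] with z m1 m2
      rw [m1, m2]
  · rintro _ ⟨y, hy, rfl⟩
    exact (c0 hy).2
  · by_cases k : x ∈ (ec n p).source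
    · rcases s6 (ec n p x) with l | l
      · exact Or.inl (by rw [f1 x k, l, (ec n p).left_inv k])
      · exact Or.inr (c5 x k l)
    · exact Or.inl (if_neg k)
  · filter_upwards [extChartAt_source_mem_nhds' hp, (continuousAt_extChartAt' hp).eventually
      (ball_mem_nhds _ (show 0 < r / 2 / 2 by linarith))] with x h2 h3 using c5 x h2 (s7 _ h3)

/-- **the push into the interior** -/
theorem exists_push (hS : IsCompact (bd n Ω)) {U : Set Ω} (hU : IsOpen U) (hSU : bd n Ω ⊆ U) :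
    ∃ φ, Psh n U φ ∧ ∀ x, φ x ∉ bd n Ω := by
  obtain ⟨φ, h1, h2⟩ := hS.induction_on (p := fun t => ∃ φ, Psh n U φ ∧ ∀ x ∈ t, φ x ∉ bd n Ω)
    ⟨id, ⟨continuous_id, injective_id, fun _ _ _ => exAt_id,
      ⟨∅, isCompact_empty, empty_subset _, fun _ _ => rfl⟩, fun _ => Or.inl rfl⟩, by simp⟩
    (fun s t hst ⟨φ, h1, h2⟩ => ⟨φ, h1, fun x hx => h2 x (hst hx)⟩)
    (fun s t ⟨φ, h1, h2⟩ ⟨ψ, k1, k2⟩ => ⟨ψ ∘ φ, h1.comp k1, fun x hx => by
      rcases h1.int x with l | l
      · rcases hx with hx | hx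
        · exact k1.nb (h2 x hx)
        · rw [comp_apply, l]
          exact k2 x hx
      · exact k1.nb l⟩)
    fun p hp => by
      obtain ⟨φ, h1, h2⟩ := psh_loc (n := n) (hU.mem_nhds (hSU hp))
      exact ⟨_, mem_nhdsWithin_of_mem_nhds h2, φ, h1, fun _ h => h⟩
  exact ⟨φ, h1, fun x => (em (x ∈ bd n Ω)).elim (h2 x) h1.nb⟩

end Vale.Agent.P366N
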