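import Vale.Agent.P366N.Bd2
import Mathlib.Topology.Compactification.OnePoint.Basic

/-!
# P366N: interior charts, the end and the chart at infinity
-/

open Filter Topology Set Metric Function Manifold Bornology
open scoped ContDiff
open Vale.Agent.P366.Stmt (E)

noncomputable section

namespace Vale.Agent.P366N

variable {n : ℕ}

/-- the inversion -/
def iv (y : E n) : E n := (‖y‖ ^ 2)⁻¹ • y

theorem norm_iv (y : E n) : ‖iv y‖ = ‖y‖⁻¹ := by
  rw [iv, norm_smul, norm_inv, norm_pow, norm_norm]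
  by_cases h : ‖y‖ = 0
  · simp [h]
  · field_simp

theorem iv_iv (y : E n) : iv (iv y) = y := by
  by_cases h : y = 0
  · simp [h, iv]
  · have := norm_ne_zero_iff.2 h
    rw [iv, norm_iv, iv, smul_smul, show (‖y‖⁻¹ ^ 2)⁻¹ * (‖y‖ ^ 2)⁻¹ = 1 by field_simp, one_smul]

theorem cd_iv {y : E n} (h : y ≠ 0) : ContDiffAt ℝ ∞ iv y :=
  (((contDiff_norm_sq ℝ).contDiffAt).inv (pow_ne_zero 2 (norm_ne_zero_iff.2 h))).smul
    contDiffAt_id

variable [NeZero n] {Ω : Type} [TopologicalSpace Ω] [ChartedSpace (EuclideanHalfSpace n) Ω]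
  {b b' Y : OpenPartialHomeomorph Ω (E n)} {R : ℝ} {x : Ω}

/-- interior charts -/
structure IC (b : OpenPartialHomeomorph Ω (E n)) : Prop where
  fw : ContMDiffOn (𝓡∂ n) (𝓡 n) ∞ b b.source
  inv : ContMDiffOn (𝓡 n) (𝓡∂ n) ∞ b.symm b.target

theorem IC.sm {W : Type} [NormedAddCommGroup W] [NormedSpace ℝ W] (h : IC b) {u : Ω → W} {y : E n}
    (hy : y ∈ b.target) (hu : ContMDiffAt (𝓡∂ n) 𝓘(ℝ, W) ∞ u (b.symm y)) :
    ContDiffAt ℝ ∞ (fun z => u (b.symm z)) y :=
  (hu.comp y (h.inv.contMDiffAt (b.open_target.mem_nhds hy))).contDiffAt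

theorem IC.cp (h : IC b) (h' : IC b') : Cp b b' := fun _ hy k =>
  h.sm hy (h'.fw.contMDiffAt (b'.open_source.mem_nhds k))

theorem IC.reg (h : IC b) {u : Ω → ℝ} (hx : x ∈ b.source)
    (hu : ContMDiffAt (𝓡∂ n) 𝓘(ℝ, ℝ) ∞ u x) (h0 : mfderiv (𝓡∂ n) 𝓘(ℝ, ℝ) u x ≠ 0) :
    fderiv ℝ (fun z => u (b.symm z)) (b x) ≠ 0 := fun k => h0 (by
  have h1 := ((h.sm (b.map_source hx) (by rwa [b.left_inv hx])).differentiableAt
    (by simp)).hasFDerivAt.hasMFDerivAt.comp x ((h.fw.contMDiffAt
      (b.open_source.mem_nhds hx)).mdifferentiableAt (by simp)).hasMFDerivAt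
  rw [(h1.congr_of_eventuallyEq (f₁ := u) (by
    filter_upwards [b.open_source.mem_nhds hx] with z hz
    rw [comp_apply, b.left_inv hz])).mfderiv, k]
  rfl)

/-- the chart at `p` restricted to the interior -/
def ic (p : Ω) : OpenPartialHomeomorph Ω (E n) where
  toPartialEquiv := (ec n p).restr {x | 0 < ec n p x 0}
  open_source := (continuousOn_extChartAt p).isOpen_inter_preimage (isOpen_extChartAt_source p)
    (isOpen_lt continuous_const cont0)
  open_target := by
    have e : ((ec n p).restr {x | 0 < ec n p x 0}).target =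
        (𝓡∂ n).symm ⁻¹' (chartAt (EuclideanHalfSpace n) p).target ∩ {y | 0 < y 0} := by
      ext y
      refine ⟨fun h => ⟨(extChartAt_target (𝓡∂ n) p ▸ h.1).1, ?_⟩, fun h => ?_⟩
      · have := h.2
        rwa [mem_preimage, mem_ofPred_eq, (ec n p).right_inv h.1] at this
      · have k : y ∈ (ec n p).target := extChartAt_target (𝓡∂ n) p ▸ ⟨h.1, mem_Hs.2 (le_of_lt h.2)⟩
        exact ⟨k, by rw [mem_preimage, mem_ofPred_eq, (ec n p).right_inv k]; exact h.2⟩
    rw [e]
    exact ((chartAt _ p).open_target.preimage (𝓡∂ n).continuous_symm).inter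
      (isOpen_lt continuous_const cont0)
  continuousOn_toFun := (continuousOn_extChartAt p).mono inter_subset_left
  continuousOn_invFun := (continuousOn_extChartAt_symm p).mono inter_subset_left

/-- the chart `Y` of the end -/
structure End (Y : OpenPartialHomeomorph Ω (E n)) (R : ℝ) : Prop where
  pos : 0 < R
  ic : IC Y
  tg : Y.target = {y | R < ‖y‖}
  cl : ∀ r > R, IsClosed {x | x ∈ Y.source ∧ r ≤ ‖Y x‖}
  cp : ∀ r ≥ R, IsCompact {x | x ∈ Y.source → ‖Y x‖ ≤ r}

namespace End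

variable (h : End Y R)
include h

theorem lt (hx : x ∈ Y.source) : R < ‖Y x‖ := (h.tg ▸ Y.map_source hx :)

theorem mem {y : E n} (hy : R < ‖y‖) : y ∈ Y.target := h.tg ▸ hy

theorem cpt : IsCompact Y.sourceᶜ := by
  convert h.cp R le_rfl using 1
  ext x
  exact ⟨fun k l => (k l).elim, fun k l => (h.lt l).not_ge (k l)⟩

theorem far {C : Set Ω} (hC : IsCompact C) : ∃ r > R, ∀ x ∈ C, x ∈ Y.source → ‖Y x‖ < r :=
  hC.induction_on (p := fun t => ∃ r > R, ∀ x ∈ t, x ∈ Y.source → ‖Y x‖ < r)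
    ⟨R + 1, by linarith, by simp⟩ (fun _ _ hst ⟨r, k1, k2⟩ => ⟨r, k1, fun x hx => k2 x (hst hx)⟩)
    (fun _ _ ⟨r, k1, k2⟩ ⟨r', _, l2⟩ => ⟨max r r', lt_max_of_lt_left k1, fun x hx k =>
      hx.elim (fun l => lt_max_of_lt_left (k2 x l k)) fun l => lt_max_of_lt_right (l2 x l k)⟩)
    fun x _ => by
      have k : R < max R ‖Y x‖ + 1 := by linarith [le_max_left R ‖Y x‖]
      refine ⟨_, mem_nhdsWithin_of_mem_nhds ((h.cl _ k).isOpen_compl.mem_nhds fun l => ?_), _, k,
        fun z hz l => not_le.1 fun m => hz ⟨l, m⟩⟩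
      linarith [l.2, le_max_right R ‖Y x‖]

theorem t1 : Tendsto (fun x => ‖Y x‖) (cocompact Ω) atTop := tendsto_atTop.2 fun r => by
  filter_upwards [(h.cp _ (le_max_left R r)).compl_mem_cocompact] with x hx
  exact (le_max_right R r).trans (not_le.1 fun k => hx fun _ => k).le

theorem t2 : Tendsto Y.symm (cobounded (E n)) (cocompact Ω) :=
  hasBasis_cocompact.tendsto_right_iff.2 fun C hC => by
    obtain ⟨r, k1, k2⟩ := h.far hC
    filter_upwards [(tendsto_norm_cobounded_atTop (E := E n)).eventually (eventually_ge_atTop r)] with y hy k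
    have l := h.mem (k1.trans_le hy)
    have := k2 _ k (Y.map_target l)
    rw [Y.right_inv l] at this
    exact this.not_ge hy

theorem mono {r : ℝ} (hr : R ≤ r) : ∃ Y' : OpenPartialHomeomorph Ω (E n), End Y' r ∧
    (∀ y, Y'.symm y = Y.symm y) ∧ ∀ x ∈ Y'.source, x ∈ Y.source ∧ r < ‖Y x‖ := by
  refine ⟨(Y.symm.restrOpen {y | r < ‖y‖} (isOpen_lt continuous_const continuous_norm)).symm,
    ⟨h.pos.trans_le hr, ⟨h.ic.fw.mono inter_subset_left, h.ic.inv.mono inter_subset_left⟩,
      inter_eq_right.2 fun y hy => h.mem (hr.trans_lt hy), fun s hs => ?_, fun s hs => ?_⟩,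
    fun _ => rfl, fun _ k => k⟩
  · convert h.cl s (hr.trans_lt hs) using 1
    ext x
    exact ⟨fun k => ⟨k.1.1, k.2⟩, fun k => ⟨⟨k.1, lt_of_lt_of_le hs k.2⟩, k.2⟩⟩
  · convert h.cp s (hr.trans hs) using 1
    ext x
    exact ⟨fun k l => (le_or_gt ‖Y x‖ r).elim (fun m => m.trans hs) fun m => k ⟨l, m⟩,
      fun k l => k l.1⟩

/-- the chart at infinity -/
theorem cap [T2Space Ω] : ∃ c : OpenPartialHomeomorph (OnePoint Ω) (E n),
    c.source = insert OnePoint.infty (OnePoint.some '' Y.source) ∧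
    (∀ x : Ω, c x = iv (Y x)) ∧ c.symm 0 = OnePoint.infty ∧
    (∀ y ≠ 0, c.symm y = OnePoint.some (Y.symm (iv y))) ∧
    ∀ y ∈ c.target, y ≠ 0 → iv y ∈ Y.target := by
  classical
  have h0 : ∀ x ∈ Y.source, Y x ≠ 0 := fun x hx => norm_pos_iff.1 (h.pos.trans (h.lt hx))
  have h1 : ∀ x ∈ Y.source, iv (Y x) ≠ 0 := fun x hx => norm_ne_zero_iff.1 (by
    rw [norm_iv]; exact inv_ne_zero (norm_ne_zero_iff.2 (h0 x hx)))
  have h2 : ∀ y ∈ ball (0 : E n) R⁻¹, y ≠ 0 → iv y ∈ Y.target := fun y hy k => h.mem (by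
    rw [norm_iv]
    exact lt_inv_of_lt_inv₀ (norm_pos_iff.2 k) (mem_ball_zero_iff.1 hy))
  refine ⟨{ toFun := fun z => z.elim 0 fun x => iv (Y x)
            invFun := fun y => if y = 0 then OnePoint.infty else OnePoint.some (Y.symm (iv y))
            source := insert OnePoint.infty (OnePoint.some '' Y.source)
            target := ball 0 R⁻¹
            map_source' := ?_
            map_target' := fun y hy => ?_
            left_inv' := ?_
            right_inv' := fun y hy => ?_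
            open_source := ?_
            open_target := isOpen_ball
            continuousOn_toFun := ?_
            continuousOn_invFun := fun y hy => ContinuousAt.continuousWithinAt ?_ },
    rfl, fun _ => rfl, if_pos rfl, fun y hy => if_neg hy, h2⟩
  · rintro _ (rfl | ⟨x, hx, rfl⟩)
    · exact mem_ball_self (inv_pos.2 h.pos)
    · rw [mem_ball_zero_iff, OnePoint.elim_some, norm_iv]
      exact inv_strictAnti₀ h.pos (h.lt hx)
  · split_ifs with k
    · exact Or.inl rfl
    · exact Or.inr ⟨_, Y.map_target (h2 y hy k), rfl⟩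
  · rintro _ (rfl | ⟨x, hx, rfl⟩)
    · exact if_pos rfl
    · simp only [OnePoint.elim_some, if_neg (h1 x hx), iv_iv, Y.left_inv hx]
  · split_ifs with k
    · exact k.symm
    · rw [OnePoint.elim_some, Y.right_inv (h2 y hy k), iv_iv]
  · rintro _ (rfl | ⟨x, hx, rfl⟩) <;> refine ContinuousAt.continuousWithinAt ?_
    · rw [OnePoint.continuousAt_infty', coclosedCompact_eq_cocompact]
      refine tendsto_zero_iff_norm_tendsto_zero.2 ((tendsto_inv_atTop_zero.comp h.t1).congr ?_)
      exact fun x => (norm_iv _).symm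
    · exact OnePoint.continuousAt_coe.2 ((cd_iv (h0 x hx)).continuousAt.comp (Y.continuousAt hx))
  · by_cases k : y = 0
    · subst k
      rw [continuousAt_iff_punctured_nhds, if_pos rfl]
      have l1 : Tendsto iv (𝓝[≠] (0 : E n)) (cobounded (E n)) := by
        rw [← tendsto_norm_atTop_iff_cobounded]
        exact (tendsto_inv_nhdsGT_zero.comp tendsto_norm_nhdsNE_zero).congr
          fun y => (norm_iv y).symm
      refine (OnePoint.tendsto_coe_infty.comp
        (coclosedCompact_eq_cocompact (X := Ω) ▸ h.t2.comp l1)).congr' ?_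
      filter_upwards [self_mem_nhdsWithin] with z hz using (if_neg hz).symm
    · refine ((OnePoint.continuous_coe.continuousAt.comp (Y.continuousAt_symm (h2 y hy k))).comp
        (cd_iv k).continuousAt).congr ?_
      filter_upwards [isOpen_ne.mem_nhds k] with z hz using (if_neg hz).symm
  · have e : OnePoint.some ⁻¹' insert OnePoint.infty (OnePoint.some '' Y.source) = Y.source := by
      ext x
      simp
    rw [OnePoint.isOpen_iff_of_mem' (mem_insert _ _), e]
    exact ⟨h.cpt, Y.open_source⟩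

end End

variable [IsManifold (𝓡∂ n) ∞ Ω]

omit [IsManifold (𝓡∂ n) ∞ Ω] in
theorem IC.nb (h : IC b) (hx : x ∈ b.source) : x ∉ bd n Ω := by
  have k : IsLocalDiffeomorphAt (𝓡∂ n) (𝓡 n) ∞ b x :=
    ⟨⟨b.toPartialEquiv, b.open_source, b.open_target, h.fw, h.inv⟩, hx, fun _ _ => rfl⟩
  exact ((𝓡∂ n).isInteriorPoint_iff_not_isBoundaryPoint x).1
    ((k.isInteriorPoint_iff (by simp)).2 BoundarylessManifold.isInteriorPoint)

theorem ic_IC (p : Ω) : IC (ic (n := n) p) :=
  ⟨contMDiffOn_extChartAt.mono fun _ h => src_eq (n := n) p ▸ h.1,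
    (contMDiffOn_extChartAt_symm p).mono inter_subset_left⟩

theorem mem_ic (hx : x ∉ bd n Ω) : x ∈ (ic (n := n) x).source :=
  ⟨mem_extChartAt_source x, (ec_nonneg x x).lt_of_ne'
    ((bd_iff (mem_extChartAt_source x)).not.1 hx)⟩

theorem End.cbd (h : End Y R) : IsCompact (bd n Ω) :=
  h.cpt.of_isClosed_subset ((𝓡∂ n).isClosed_boundary (n := ∞) (by simp)) fun _ k l => h.ic.nb l k

end Vale.Agent.P366N
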