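import Vale.Agent.P366N.Cap1
import Vale.Agent.P366N.Mke

/-!
# P366N: the embedding of an exterior into a manifold with one end
-/

open Filter Topology Set Metric Function Manifold Bornology
open scoped ContDiff
open Vale.Agent.P366.Stmt (E)
open Vale.Agent.P366M

noncomputable section

namespace Vale.Agent.P366N

variable {n : ℕ} [NeZero n] {Ω : Type} [TopologicalSpace Ω] [ChartedSpace (EuclideanHalfSpace n) Ω]

/-- a chart of `Ω` as a chart of the compactification -/
def lf (b : OpenPartialHomeomorph Ω (E n)) : OpenPartialHomeomorph (OnePoint Ω) (E n) :=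
  b.lift_openEmbedding OnePoint.isOpenEmbedding_coe

omit [NeZero n] [ChartedSpace (EuclideanHalfSpace n) Ω] in
theorem lf_app (b : OpenPartialHomeomorph Ω (E n)) (x : Ω) : lf b x = b x :=
  b.lift_openEmbedding_apply _

omit [NeZero n] [ChartedSpace (EuclideanHalfSpace n) Ω] in
theorem lf_mem {b : OpenPartialHomeomorph Ω (E n)} {x : Ω} :
    OnePoint.some x ∈ (lf b).source ↔ x ∈ b.source := OnePoint.coe_injective.mem_set_image

/-- the data for the double -/
structure Core (F : Ω → ℝ) (φ : Ω → Ω) (U : Set Ω) (δ : ℝ) (Y : OpenPartialHomeomorph Ω (E n))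
    (R : ℝ) : Prop where
  en : End Y R
  sm : ContMDiff (𝓡∂ n) 𝓘(ℝ, ℝ) ∞ F
  zero : ∀ x ∈ bd n Ω, F x = 0
  ne : (bd n Ω).Nonempty
  ps : Psh n U φ
  reg : ∀ x ∈ U, mfderiv (𝓡∂ n) 𝓘(ℝ, ℝ) F x ≠ 0
  d0 : 0 < δ
  d1 : δ < 1
  lt : ∀ x, δ < F (φ x)
  one : ∀ x ∈ Y.source, F x = 1
  fix : ∀ x ∈ Y.source, φ x = x

variable (n) in
/-- `κ` is an embedding which is smooth up to the boundary and compatible with the ends -/
structure Mod {M : Type} [Mfe n M] (κ : Ω → M) (Φ : E n → Ω) : Prop where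
  emb : IsClosedEmbedding κ
  adp : ∀ p x, x ∈ (ec n p).source → ∃ c ∈ At M, ∀ᶠ z in 𝓝 x, c.symm (ec n p z) = κ z
  far : ∃ r, ∀ y, r ≤ ‖y‖ → yp y = κ (Φ y)

namespace Core

variable [IsManifold (𝓡∂ n) ∞ Ω] [T2Space Ω] [ConnectedSpace Ω] {F : Ω → ℝ} {φ : Ω → Ω}
  {U : Set Ω} {δ R : ℝ} {Y : OpenPartialHomeomorph Ω (E n)} (h : Core F φ U δ Y R)
include h

omit [IsManifold (𝓡∂ n) ∞ Ω] [T2Space Ω] [ConnectedSpace Ω] in
theorem nb {x : Ω} (hx : δ ≤ F x) : x ∉ bd n Ω := fun k => by linarith [h.zero x k, h.d0]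

omit [T2Space Ω] in
theorem conn : IsPreconnected {x | δ ≤ F x} := by
  obtain ⟨C, c1, c2, c3⟩ := h.ps.cpt
  have hA : IsClosed {x | δ ≤ F x} := isClosed_le continuous_const h.sm.continuous
  have key : ∀ u v, IsClosed u → IsClosed v → {x | δ ≤ F x} ⊆ u ∪ v →
      {x | δ ≤ F x} ∩ (u ∩ v) = ∅ → range φ ⊆ u → {x | δ ≤ F x} ⊆ u := by
    intro u v hu hv h1 h2 h3 x hx
    by_contra k
    have h4 : ∀ z ∈ {x | δ ≤ F x} ∩ v, z ∉ u := fun z hz l =>
      eq_empty_iff_forall_notMem.1 h2 z ⟨hz.1, l, hz.2⟩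
    have h5 : {x | δ ≤ F x} ∩ v ⊆ C := fun z hz => by
      by_contra l
      exact h4 z hz (h3 ⟨z, c3 z l⟩)
    obtain ⟨z, hz, h6⟩ := (c1.of_isClosed_subset (hA.inter hv) h5).exists_isMaxOn
      ⟨x, hx, (h1 hx).resolve_left k⟩ h.sm.continuous.continuousOn
    have h7 : IsLocalMax F z := by
      filter_upwards [hu.isOpen_compl.mem_nhds (h4 z hz)] with w hw
      by_cases l : δ ≤ F w
      · exact h6 ⟨l, (h1 l).resolve_left hw⟩
      · exact (not_le.1 l).le.trans hz.1
    have h8 := mem_ic (h.nb hz.1)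
    refine (ic_IC z).reg h8 (h.sm z) (h.reg z (c2 (h5 hz))) (IsLocalMax.fderiv_eq_zero ?_)
    refine IsLocalMax.comp_continuous (g := (ic z).symm) ?_
      ((ic z).continuousAt_symm ((ic z).map_source h8))
    rwa [(ic z).left_inv h8]
  refine isPreconnected_iff_subset_of_disjoint_closed.2 fun u v hu hv h1 h2 => ?_
  have h3 : range φ ⊆ {x | δ ≤ F x} := range_subset_iff.2 fun x => (h.lt x).le
  refine (isPreconnected_iff_subset_of_disjoint_closed.1 (isPreconnected_range h.ps.cont) u v hu hv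
    (h3.trans h1) (subset_eq_empty (inter_subset_inter_left _ h3) h2)).imp (key u v hu hv h1 h2)
    (key v u hv hu (union_comm u v ▸ h1) (inter_comm u v ▸ h2))

theorem mod : ∃ (M : Type) (_ : Mfe n M) (κ : Ω → M), Mod n κ Y.symm := by
  have := Manifold.locallyCompact_of_finiteDimensional (M := Ω) (𝓡∂ n)
  obtain ⟨c, c1, c2, c3, c4, c5⟩ := h.en.cap
  have hd : 0 < 1 - δ := sub_pos.2 h.d1
  let f : OnePoint Ω → ℝ := fun z => z.elim (1 - δ) fun x => F x - δ
  have f1 : ∀ y ∈ c.target, f (c.symm y) = 1 - δ := fun y hy => by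
    rcases (c1 ▸ c.map_target hy : c.symm y ∈ insert _ _) with k | ⟨x, hx, k⟩
    · rw [k]
      rfl
    · rw [← k, ← h.one x hx]
      rfl
  let D : Dbl (OnePoint Ω) (E n) :=
    { B := {e | e = c ∨ ∃ b, IC b ∧ e = lf b}
      f := f
      O := {(OnePoint.infty, √(1 - δ))}ᶜ
      op := isOpen_compl_singleton
      cp := by
        rintro _ (rfl | ⟨b, hb, rfl⟩) _ (rfl | ⟨b', hb', rfl⟩)
        · exact Cp.refl _
        · intro y hy k
          have k0 : y ≠ 0 := fun l => OnePoint.infty_notMem_image_coe (by rwa [l, c3] at k)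
          rw [c4 y k0, lf_mem] at k
          refine ((h.en.ic.cp hb' _ (c5 y hy k0) k).comp y (cd_iv k0)).congr_of_eventuallyEq ?_
          filter_upwards [isOpen_ne.mem_nhds k0] with z hz
          rw [c4 z hz, lf_app, comp_apply]
        · intro y hy k
          have k1 : b.symm y ∈ Y.source := by
            rcases (c1 ▸ k : OnePoint.some (b.symm y) ∈ insert _ _) with l | l
            · exact (OnePoint.coe_ne_infty _ l).elim
            · exact lf_mem.1 l
          exact ((cd_iv (norm_pos_iff.1 (h.en.pos.trans (h.en.lt k1)))).comp y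
            (hb.cp h.en.ic y hy k1)).congr_of_eventuallyEq (.of_forall fun z => c2 (b.symm z))
        · exact fun y hy k => (hb.cp hb' y hy (lf_mem.1 k)).congr_of_eventuallyEq
            (.of_forall fun z => lf_app _ _)
      cov := fun z hz => by
        induction z using OnePoint.rec with
        | infty => exact ⟨c, Or.inl rfl, c1 ▸ Or.inl rfl⟩
        | coe x => exact ⟨_, Or.inr ⟨_, ic_IC x, rfl⟩, lf_mem.2 (mem_ic (h.nb (sub_nonneg.1 hz)))⟩
      sm := by
        rintro _ (rfl | ⟨b, hb, rfl⟩) y hy -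
        · exact contDiffAt_const.congr_of_eventuallyEq
            (mem_of_superset (OpenPartialHomeomorph.open_target _ |>.mem_nhds hy) f1)
        · exact (hb.sm hy (h.sm _)).sub contDiffAt_const
      reg := by
        rintro _ (rfl | ⟨b, hb, rfl⟩) y hy k
        · exact (hd.ne' ((f1 y hy).symm.trans k)).elim
        · obtain ⟨C, -, l1, l2⟩ := h.ps.cpt
          have l3 : b.symm y ∈ C := by
            by_contra l
            have := h.lt (b.symm y)
            rw [l2 _ l] at this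
            exact this.ne' (sub_eq_zero.1 k)
          have l4 := hb.reg (b.map_target hy) (h.sm _) (h.reg _ (l1 l3))
          rw [b.right_inv hy] at l4
          exact (fderiv_sub_const (f := fun z => F (b.symm z)) δ).trans_ne l4 }
  have f2 : Continuous f := (OnePoint.continuous_iff f).2 ⟨tendsto_const_nhds.congr' (by
    filter_upwards [coclosedCompact_eq_cocompact (X := Ω) ▸ h.en.cpt.compl_mem_cocompact] with x hx
    exact congrArg (· - δ) (h.one x (not_not.1 hx)).symm), h.sm.continuous.sub continuous_const⟩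
  have q1 : ∀ q : D.S, 0 ≤ q.1.2 → q.1.1 ≠ OnePoint.infty := fun q hq k =>
    q.2.2 (Prod.ext k (by
      have : q.1.2 ^ 2 = f q.1.1 := q.2.1
      rw [k] at this
      exact ((congrArg Real.sqrt this).symm.trans (Real.sqrt_sq hq)).symm))
  have q2 : ∀ A, IsClosed A → IsClosed {q : D.S | q.1.1 ∈ OnePoint.some '' A ∧ 0 ≤ q.1.2} :=
    fun A hA => by
      have k : IsClosed (insert OnePoint.infty (OnePoint.some '' A)) := by
        rw [OnePoint.isClosed_iff_of_mem (mem_insert _ _)]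
        convert hA
        ext x
        simp
      convert (k.preimage (f := fun q : D.S => q.1.1) (by fun_prop)).inter
        (isClosed_le (f := fun _ : D.S => (0 : ℝ)) (g := fun q : D.S => q.1.2) continuous_const
          (by fun_prop)) using 1
      ext q
      exact ⟨fun l => ⟨Or.inr l.1, l.2⟩, fun l => ⟨l.1.resolve_left (q1 q l.2), l.2⟩⟩
  let κ : Ω → D.S := fun x => ⟨(φ x, √(F (φ x) - δ)), Real.sq_sqrt (sub_pos.2 (h.lt x)).le,
    fun k => OnePoint.coe_ne_infty _ (congrArg Prod.fst k)⟩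
  have k0 := OnePoint.isOpenEmbedding_coe.isEmbedding.comp h.ps.emb.isEmbedding
  have k1 : Continuous κ := (k0.continuous.prodMk
    ((h.sm.continuous.comp h.ps.cont).sub continuous_const).sqrt).subtype_mk _
  have k2 : IsClosedEmbedding κ := by
    refine ⟨.of_comp k1 (g := fun q : D.S => q.1.1) (by fun_prop) k0, ?_⟩
    convert q2 _ h.ps.emb.isClosed_range
    ext q
    refine ⟨?_, ?_⟩
    · rintro ⟨x, rfl⟩
      exact ⟨⟨_, ⟨x, rfl⟩, rfl⟩, Real.sqrt_nonneg _⟩
    · rintro ⟨⟨_, ⟨x, rfl⟩, l1⟩, l2⟩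
      refine ⟨x, Subtype.ext (Prod.ext l1 ?_)⟩
      have : q.1.2 ^ 2 = f q.1.1 := q.2.1
      rw [← l1] at this
      exact (congrArg Real.sqrt this).symm.trans (Real.sqrt_sq l2)
  have s1 : Continuous fun z => (z, √(f z)) := continuous_id.prodMk f2.sqrt
  have s2 : Continuous fun z => (z, -√(f z)) := continuous_id.prodMk f2.sqrt.neg
  have s3 : ∀ p : OnePoint Ω × ℝ, p.2 ^ 2 = f p.1 →
      (0 ≤ p.2 ∧ (p.1, √(f p.1)) = p) ∨ (p.1, -√(f p.1)) = p := fun p hp => by
    rw [← hp, Real.sqrt_sq_eq_abs]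
    rcases abs_cases p.2 with l | l
    · exact Or.inl ⟨l.2, by rw [l.1]⟩
    · exact Or.inr (by rw [l.1, neg_neg])
  have : ConnectedSpace D.S := by
    obtain ⟨a, ha⟩ := h.ne
    obtain ⟨x, hx⟩ := intermediate_value_univ a (φ a) h.sm.continuous
      ⟨(h.zero a ha).trans_le h.d0.le, (h.lt a).le⟩
    have l1 := h.conn.image _ OnePoint.continuous_coe.continuousOn
    have l2 : IsPreconnected (insert OnePoint.infty (OnePoint.some '' {x | δ ≤ F x})) := by
      refine l1.subset_closure (subset_insert _ _) (insert_subset (mem_closure_of_tendsto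
        (OnePoint.tendsto_coe_infty.comp (coclosedCompact_eq_cocompact (X := Ω) ▸ h.en.t2)) ?_)
        subset_closure)
      filter_upwards [(tendsto_norm_cobounded_atTop (E := E n)).eventually (eventually_gt_atTop R)]
        with y hy
      exact ⟨_, h.d1.le.trans_eq (h.one _ (Y.map_target (h.en.mem hy))).symm, rfl⟩
    have l3 := (IsPreconnected.union ((x : OnePoint Ω), √(f x)) · · (l1.image _ s1.continuousOn)
      (l2.image _ s2.continuousOn)) ⟨x, ⟨x, hx.ge, rfl⟩, rfl⟩ ⟨x, Or.inr ⟨x, hx.ge, rfl⟩, by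
        simp only [show f x = 0 from sub_eq_zero.2 hx, Real.sqrt_zero, neg_zero]⟩
    refine isConnected_iff_connectedSpace.1 ⟨⟨_, (κ a).2⟩, ?_⟩
    convert l3
    ext p
    refine ⟨fun hp => ?_, ?_⟩
    · have m1 : p.1 ∈ insert OnePoint.infty (OnePoint.some '' {x | δ ≤ F x}) := by
        have m2 : 0 ≤ f p.1 := (sq_nonneg _).trans_eq hp.1
        generalize p.1 = z at m2
        induction z using OnePoint.rec with
        | infty => exact Or.inl rfl
        | coe z => exact Or.inr ⟨z, sub_nonneg.1 m2, rfl⟩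
      exact (s3 p hp.1).imp (fun m => ⟨_, m1.resolve_left (q1 ⟨p, hp⟩ m.1), m.2⟩)
        fun m => ⟨_, m1, m⟩
    · rintro (⟨_, ⟨z, hz, rfl⟩, rfl⟩ | ⟨z, hz, rfl⟩)
      · exact ⟨Real.sq_sqrt (sub_nonneg.2 hz), fun k =>
          OnePoint.coe_ne_infty _ (congrArg Prod.fst k)⟩
      · refine ⟨(neg_sq _).trans (Real.sq_sqrt ?_), fun k => ?_⟩
        · rcases hz with rfl | ⟨z, hz, rfl⟩
          · exact hd.le
          · exact sub_nonneg.2 hz
        · have m : -√(f z) = √(1 - δ) := congrArg Prod.snd k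
          linarith [Real.sqrt_nonneg (f z), Real.sqrt_pos.2 hd]
  obtain ⟨a⟩ : Nonempty D.S := inferInstance
  have hY : lf Y ∈ D.B := Or.inr ⟨Y, h.en.ic, rfl⟩
  have y1 : (Dbl.upper _ hY a).target = {y | R < ‖y‖} := by
    ext y
    refine ⟨fun k => (h.en.tg ▸ k.1 :), fun k => ⟨h.en.mem k, ?_, fun l =>
      OnePoint.coe_ne_infty _ (congrArg Prod.fst l)⟩⟩
    exact sub_pos.2 ((h.one _ (Y.map_target (h.en.mem k))).symm ▸ h.d1)
  let P : Pre n D.S Unit :=
    { A := D.atl
      Y := fun _ => Dbl.upper _ hY a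
      R₁ := R
      R1 := h.en.pos.le
      mx := fun _ => D.atl.mx (Dbl.upper_good hY a)
      tg := fun _ => y1
      dj := fun _ _ k => (k rfl).elim
      cl := fun _ r hr => by
        convert q2 _ (h.en.cl r hr) using 1
        ext q
        refine ⟨?_, ?_⟩
        · rintro ⟨⟨⟨x, l1, l2⟩, l3⟩, l4⟩
          exact ⟨⟨x, ⟨l1, by rwa [← lf_app, l2]⟩, l2⟩, le_of_lt l3⟩
        · rintro ⟨⟨x, ⟨l1, l2⟩, l3⟩, l4⟩
          refine ⟨⟨⟨x, l1, l3⟩, l4.lt_of_ne' fun l => hd.ne' ?_⟩, by rwa [← lf_app, l3] at l2⟩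
          have : q.1.2 ^ 2 = f q.1.1 := q.2.1
          rw [← l3, l] at this
          rw [← h.one x l1]
          exact this.symm.trans (by norm_num)
      cpt := fun r hr => by
        have l1 := h.en.cp r hr.le
        rw [Subtype.isCompact_iff]
        convert ((isCompact_range s1).union (isCompact_range s2)).of_isClosed_subset
          ((isClosed_eq (continuous_snd.pow 2) (f2.comp continuous_fst)).inter
            ((OnePoint.isOpen_compl_image_coe.2 ⟨l1.isClosed, l1⟩).prod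
              (isOpen_Ioi (a := (0 : ℝ)))).isClosed_compl)
          fun p hp => (s3 p hp.1).imp (fun m => ⟨_, m.2⟩) fun m => ⟨_, m⟩
        ext p
        refine ⟨?_, fun hp => ⟨⟨p, hp.1, fun l => hp.2 ?_⟩, fun _ l => ?_, rfl⟩⟩
        · rintro ⟨q, hq, rfl⟩
          refine ⟨q.2.1, fun l => l.1 ?_⟩
          obtain ⟨x, hx⟩ := OnePoint.ne_infty_iff_exists.1 (q1 q (le_of_lt l.2))
          refine ⟨x, fun m => ?_, hx⟩
          rw [← lf_app, hx]
          exact hq () ⟨⟨x, m, hx⟩, l.2⟩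
        · rw [l]
          exact ⟨OnePoint.infty_notMem_image_coe, Real.sqrt_pos.2 hd⟩
        · obtain ⟨⟨x, m1, m2⟩, m3⟩ := l
          obtain ⟨z, m4, m5⟩ := not_not.1 fun m => hp.2 ⟨m, m3⟩
          obtain rfl := OnePoint.coe_injective (m5.trans m2.symm)
          have := m4 m1
          rwa [← lf_app, m2] at this }
  obtain ⟨M, I, e, e1, -, -, e2, -⟩ := P.exists_mfe
  refine ⟨M, I, e ∘ κ, e.isClosedEmbedding.comp k2, fun p x hx => ?_, R + 1, fun y hy => ?_⟩
  · have l0 := mem_ic (h.nb (h.lt x).le)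
    obtain ⟨θ, t1, t2, t3⟩ := h.ps.ex p _ x hx l0.1
    have hb : lf (ic (φ x)) ∈ D.B := Or.inr ⟨_, ic_IC _, rfl⟩
    have l1 : ∀ z, Dbl.upper _ hb a (κ z) = ec n (φ x) (φ z) := fun z => lf_app _ _
    have l2 : κ x ∈ ((Dbl.upper _ hb a).trans θ.symm).source :=
      ⟨⟨lf_mem.2 l0, Real.sqrt_pos.2 (sub_pos.2 (h.lt x))⟩, by
        have := θ.map_source t2
        rwa [t3.self_of_nhds, ← l1] at this⟩
    have l3 : ∀ᶠ z in 𝓝 x, (Dbl.upper _ hb a).trans θ.symm (κ z) = ec n p z := by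
      filter_upwards [t3, (continuousAt_extChartAt' hx).eventually (θ.open_source.mem_nhds t2)]
        with z m1 m2
      rw [OpenPartialHomeomorph.trans_apply, l1, ← m1, θ.left_inv m2]
    obtain ⟨b, b1, b2, -, -, -, r, hr, -, b3⟩ :=
      ((D.atl.mx (Dbl.upper_good hb a)).trans t1.symm).germ l2 univ_mem
    obtain ⟨b', b4, b5⟩ := e1 b b1 b2
    refine ⟨b', b4, ?_⟩
    rw [l3.self_of_nhds] at b3
    filter_upwards [l3, (continuousAt_extChartAt' hx).eventually (ball_mem_nhds _ hr),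
      k1.continuousAt.eventually (OpenPartialHomeomorph.open_source _ |>.mem_nhds l2)]
      with z m1 m2 m3
    rw [b5.symm, b3 _ m2, ← m1, OpenPartialHomeomorph.left_inv _ m3, comp_apply]
  · have l : R < ‖y‖ := by linarith
    rw [e2, comp_apply]
    refine congrArg e (Subtype.ext ((Dbl.upper_symm hY a (y1 ▸ l)).trans ?_))
    show _ = (OnePoint.some (φ _), √(F (φ _) - δ))
    rw [h.fix _ (Y.map_target (h.en.mem l))]
    rfl

end Core

/-- **the embedding** -/
theorem End.mod [IsManifold (𝓡∂ n) ∞ Ω] [T2Space Ω] [ConnectedSpace Ω]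
    {Y : OpenPartialHomeomorph Ω (E n)} {R : ℝ} (h : End Y R) (hne : (bd n Ω).Nonempty) :
    ∃ (M : Type) (_ : Mfe n M) (κ : Ω → M), Mod n κ Y.symm := by
  obtain ⟨F, f1, f2, f3, ⟨C, f4, f5⟩, U, f6, f7, f8⟩ := exists_F0 h.cbd
  obtain ⟨φ, p1, p2⟩ := exists_push h.cbd f6 f7
  obtain ⟨C', p3, -, p4⟩ := p1.cpt
  obtain ⟨δ, d1, d2⟩ := (f4.union p3).exists_forall_le' (f1.continuous.comp p1.cont).continuousOn
    fun x _ => (f2 _).lt_of_ne' ((f3 _).not.2 (p2 x))
  obtain ⟨r, r1, r2⟩ := h.far (f4.union p3)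
  obtain ⟨Y', y1, y2, y3⟩ := h.mono r1.le
  have y4 : ∀ x ∈ Y'.source, x ∉ C ∪ C' := fun x hx k =>
    (r2 x k (y3 x hx).1).not_gt (y3 x hx).2
  have d3 := min_le_left δ 1
  have d4 := min_le_right δ 1
  have d5 := lt_min d1 one_pos
  rw [← funext y2]
  refine Core.mod (δ := min δ 1 / 2) ⟨y1, f1, fun x hx => (f3 x).2 hx, hne, p1, f8, by linarith,
    by linarith, fun x => ?_, fun x hx => f5 x fun k => y4 x hx (Or.inl k),
    fun x hx => p4 x fun k => y4 x hx (Or.inr k)⟩
  by_cases k : x ∈ C ∪ C'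
  · linarith [show δ ≤ F (φ x) from d2 x k]
  · rw [p4 x fun l => k (Or.inr l), f5 x fun l => k (Or.inl l)]
    linarith

end Vale.Agent.P366N
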