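import Vale.Agent.P366N.Ext2

/-!
# P366N: the end of an asymptotically flat exterior is a neighbourhood of infinity
-/

open Filter Topology Set Metric Function Manifold
open scoped ContDiff
open Vale.Agent.P366.Stmt (E Field BigO)
open Vale.Agent.P366

noncomputable section

namespace Vale.Agent.P366N

variable {n : ℕ}

theorem qf_le {S : Fin n → Fin n → ℝ} {b : ℝ} (h : ∀ i j, |S i j| ≤ b) (v : E n) :
    |qf S v v| ≤ n ^ 2 * b * ‖v‖ ^ 2 := by
  have h1 : ∀ i j, |S i j * v i * v j| ≤ b * ‖v‖ ^ 2 := fun i j => by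
    rw [abs_mul, abs_mul, mul_assoc, sq]
    exact mul_le_mul (h i j) (mul_le_mul (PiLp.norm_apply_le v i) (PiLp.norm_apply_le v j)
      (abs_nonneg _) (norm_nonneg _)) (by positivity) ((abs_nonneg _).trans (h i j))
  refine (Finset.abs_sum_le_sum_abs _ _).trans ((Finset.sum_le_sum fun i _ =>
    (Finset.abs_sum_le_sum_abs _ _).trans (Finset.sum_le_sum fun j _ => h1 i j)).trans_eq ?_)
  simp only [Finset.sum_const, Finset.card_univ, Fintype.card_fin, nsmul_eq_mul]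
  ring

theorem qf_sub (S : Fin n → Fin n → ℝ) (v : E n) :
    qf (fun i j => S i j - if i = j then 1 else 0) v v = qf S v v - ‖v‖ ^ 2 := by
  rw [EuclideanSpace.real_norm_sq_eq]
  simp [qf, sub_mul, sq]

theorem shell (hn : 3 ≤ n) (a b : ℝ) : IsPreconnected {y : E n | a < ‖y‖ ∧ ‖y‖ < b} := by
  have h1 : 1 < Module.rank ℝ (E n) := by
    rw [← Module.finrank_eq_rank, finrank_euclideanSpace_fin]
    exact_mod_cast (by omega : 1 < n)
  have := P366Z.nontriv (show 0 < n by omega)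
  convert (((convex_Ioo a b).inter (convex_Ici 0)).isPreconnected.prod
    (isPreconnected_sphere h1 (0 : E n) 1)).image (fun p => p.1 • p.2) (by fun_prop)
  ext y
  refine ⟨fun h => ?_, ?_⟩
  · by_cases k : y = 0
    · obtain ⟨v, hv⟩ := exists_norm_eq (E n) zero_le_one
      exact ⟨(‖y‖, v), ⟨⟨h, norm_nonneg y⟩, by simpa using hv⟩, by simp [k]⟩
    · exact ⟨(‖y‖, ‖y‖⁻¹ • y), ⟨⟨h, norm_nonneg y⟩, by simp [norm_smul, k]⟩, by simp [k]⟩
  · rintro ⟨⟨t, v⟩, ⟨⟨h2, h3⟩, h4⟩, rfl⟩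
    have : ‖t • v‖ = t := by
      rw [norm_smul, mem_sphere_zero_iff_norm.1 h4, mul_one, Real.norm_of_nonneg h3]
    rwa [mem_ofPred_eq, this]

variable [NeZero n] {Ω : Type} [TopologicalSpace Ω] [ChartedSpace (EuclideanHalfSpace n) Ω]
  {D : Data n Ω}

theorem Data.low (hn : 3 ≤ n) (h : D.IsAF) :
    ∃ R, D.R₀ < R ∧ ∀ y, R ≤ ‖y‖ → ∀ v, ‖v‖ ^ 2 / 2 ≤ qf (D.gE y) v v := by
  obtain ⟨q, h1, h2⟩ := h
  have hq : 0 < q := by linarith [show (3 : ℝ) ≤ n by exact_mod_cast hn]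
  obtain ⟨C, R, h3⟩ := P366Z.St0.ExtA.unif (ι := Fin n × Fin n) fun k => (h2 k.1 k.2 0 0).1
  have h4 := ((tendsto_rpow_neg_atTop hq).const_mul C).const_mul ((n : ℝ) ^ 2)
  obtain ⟨r, h5⟩ := eventually_atTop.1 (h4.eventually (eventually_le_nhds (b := 1 / 2) (by simp)))
  refine ⟨max (D.R₀ + 1) (max R r), lt_max_of_lt_left (lt_add_one _), fun y hy v => ?_⟩
  rw [max_le_iff, max_le_iff] at hy
  have h6 := qf_le (fun i j => h3 C le_rfl (i, j) y hy.2.1) v
  rw [qf_sub] at h6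
  nlinarith [(abs_le.1 h6).1, h5 _ hy.2.2, sq_nonneg ‖v‖]

variable (D) in
/-- the coordinates of the end -/
abbrev Data.Y : OpenPartialHomeomorph Ω (E n) := D.Φ.toOpenPartialHomeomorph.symm

theorem Data.ic : IC D.Y := ⟨D.Φ.contMDiffOn_invFun, D.Φ.contMDiffOn_toFun⟩

theorem Data.mem {y : E n} : y ∈ D.Y.target ↔ D.R₀ < ‖y‖ := Set.ext_iff.1 D.src y

theorem Data.cpt_im {K : Set (E n)} (hK : IsCompact K) (h : ∀ y ∈ K, D.R₀ < ‖y‖) :
    IsCompact (D.Y.symm '' K) :=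
  hK.image_of_continuousOn (D.Y.continuousOn_symm.mono fun y hy => Data.mem.2 (h y hy))

variable [IsManifold (𝓡∂ n) ∞ Ω] [T2Space Ω]

omit [T2Space Ω] in
theorem Data.der {x z : Ω} (hx : z ∈ (ec n x).source) (hz : z ∈ D.Y.source) :
    ∃ L : E n →L[ℝ] E n, HasFDerivWithinAt (fun y => D.Y ((ec n x).symm y)) L (Hs n) (ec n x z) ∧
      ∀ v, qf (D.gE (D.Y z)) (L v) (L v) = qf (inChart D.g x (ec n x z)) v v := by
  have h1 := ((D.ic.fw.contMDiffAt (D.Y.open_source.mem_nhds hz)).mdifferentiableAt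
    (by simp)).hasMFDerivAt
  have h2 := ((D.ic.inv.contMDiffAt (D.Y.open_target.mem_nhds (D.Y.map_source hz))).mdifferentiableAt
    (by simp)).hasMFDerivAt
  have h3 := hasMFDerivAt_unique ((h2.comp z h1).congr_of_eventuallyEq (f₁ := id)
    (mem_of_superset (D.Y.open_source.mem_nhds hz) fun w hw => (D.Y.left_inv hw).symm))
    (hasMFDerivAt_id z)
  have h4 := (mdifferentiableWithinAt_extChartAt_symm ((ec n x).map_source hx)).hasMFDerivWithinAt
  let A : E n →L[ℝ] E n := mfderiv (𝓡∂ n) (𝓡 n) D.Y z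
  let B : E n →L[ℝ] E n := mfderivWithin (𝓡 n) (𝓡∂ n) D.Φ univ (D.Y z)
  have h5 : ∀ v, B (A v) = v := fun v => by
    simp only [B, mfderivWithin_univ]
    exact DFunLike.congr_fun h3 v
  refine ⟨A.comp (Ds x (ec n x z)), (HasMFDerivAt.comp_hasMFDerivWithinAt _ (by
    rwa [(ec n x).left_inv hx]) h4).hasFDerivWithinAt, fun v => ?_⟩
  refine (bil_eq (tv D.g (D.Φ (D.Y z))) B _ _).symm.trans ?_
  rw [ContinuousLinearMap.comp_apply, h5, show D.Φ (D.Y z) = z from D.Y.left_inv hz, tv_eq hx,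
    De_Ds hx]

theorem Data.bdd (hn : 3 ≤ n) (h : D.IsAF) (x : Ω) :
    ∃ ρ, ∀ᶠ z in 𝓝 x, z ∈ D.Y.source → ‖D.Y z‖ ≤ ρ := by
  obtain ⟨R, r1, r2⟩ := Data.low hn h
  have hx := mem_extChartAt_source (I := 𝓡∂ n) x
  obtain ⟨G, g1, g2⟩ := ext_loc (f := inChart D.g x) (extChartAt_target_mem_nhdsWithin' hx)
    (contDiffOn_pi.2 fun i => contDiffOn_pi.2 fun j => D.smg.2 x i j)
  let χ : ContDiffBump (0 : E n) := ⟨1 / 2, 1, by norm_num, by norm_num⟩
  obtain ⟨K, hK⟩ := ContDiff.lipschitzWith_of_hasCompactSupport χ.hasCompactSupport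
    (χ.contDiff (n := 1)) (by simp)
  obtain ⟨L, l0, hL⟩ : ∃ L, 1 ≤ L ∧ 2 * (n ^ 2 * (‖G (ec n x x)‖ + 1)) ≤ L :=
    ⟨_, le_max_left _ _, le_max_right _ _⟩
  have k0 : 0 < K * L + 1 := by positivity
  obtain ⟨ε, e0, e1⟩ := Metric.mem_nhdsWithin_iff.1 ((g2.and
    (extChartAt_target_mem_nhdsWithin' hx)).and (mem_nhdsWithin_of_mem_nhds (inter_mem
      (g1.continuous.norm.continuousAt.eventually (gt_mem_nhds (lt_add_one _)))
      (ball_mem_nhds _ (half_pos (inv_pos.2 k0))))))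
  have key : ∀ z₀ ∈ (ec n x).source, ec n x z₀ ∈ ball (ec n x x) ε → z₀ ∈ D.Y.source →
      R + 1 ≤ ‖D.Y z₀‖ → ∀ z ∈ (ec n x).source, ec n x z ∈ ball (ec n x x) ε → z ∈ D.Y.source →
      ‖D.Y z‖ ≤ ‖D.Y z₀‖ + 1 := by
    intro z₀ a1 a2 a3 a4 z b1 b2 b3
    have c1 : ∀ y ∈ closedBall (D.Y z₀) 1, R ≤ ‖y‖ := fun y hy => by
      linarith [norm_sub_norm_le (D.Y z₀) y, mem_closedBall_iff_norm'.1 hy]
    have c2 := (D.cpt_im (isCompact_closedBall _ _) fun y hy => r1.trans_le (c1 y hy)).isClosed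
    have c3 : ∀ y ∈ ball (ec n x x) ε ∩ Hs n, ∃ f' : E n →L[ℝ] ℝ, HasFDerivWithinAt (fun y =>
        D.Y.source.indicator (fun w => χ (D.Y w - D.Y z₀)) ((ec n x).symm y)) f'
          (ball (ec n x x) ε ∩ Hs n) y ∧ ‖f'‖ ≤ K * L := fun y hy => by
      obtain ⟨⟨d1, d2⟩, d3, -⟩ := e1 hy
      obtain ⟨w, d4, rfl⟩ : ∃ w ∈ (ec n x).source, ec n x w = y :=
        ⟨_, (ec n x).map_target d2, (ec n x).right_inv d2⟩
      by_cases k : w ∈ D.Y.symm '' closedBall (D.Y z₀) 1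
      · obtain ⟨u, k1, rfl⟩ := k
        have k2 := Data.mem.2 (r1.trans_le (c1 u k1))
        obtain ⟨A, k3, k4⟩ := Data.der d4 (D.Y.map_target k2)
        have k5 := (ev_symm d4 (P := fun w => D.Y.source.indicator
          (fun w => χ (D.Y w - D.Y z₀)) w = χ (D.Y w - D.Y z₀))).2 (mem_of_superset
            (D.Y.open_source.mem_nhds (D.Y.map_target k2)) fun w hw => indicator_of_mem hw _)
        refine ⟨_, ((((χ.contDiff (n := 1)).differentiable one_ne_zero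
          _).hasFDerivAt.comp_hasFDerivWithinAt _ (k3.sub_const _)).congr_of_eventuallyEq
            k5 (k5.self_of_nhdsWithin hy.2)).mono inter_subset_right,
          (ContinuousLinearMap.opNorm_comp_le _ _).trans (mul_le_mul
            (norm_fderiv_le_of_lipschitz ℝ hK) (A.opNorm_le_bound (by linarith) fun v => ?_)
            (norm_nonneg _) K.2)⟩
        have m1 := r2 u (c1 u k1) (A v)
        have m2 := qf_le (fun i j => ((norm_le_pi_norm (G (ec n x (D.Y.symm u)) i) j).trans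
          (norm_le_pi_norm _ i)).trans (le_of_lt d3)) v
        rw [D.Y.right_inv k2] at k4
        rw [k4, ← d1] at m1
        refine abs_le_of_sq_le_sq' ?_ (by positivity) |>.2
        nlinarith [(abs_le.1 m2).2, sq_nonneg ‖v‖, mul_nonneg (sub_nonneg.2 l0) (sq_nonneg ‖v‖),
          mul_le_mul_of_nonneg_right hL (sq_nonneg ‖v‖)]
      · have k5 := (ev_symm d4 (P := fun w => D.Y.source.indicator
          (fun w => χ (D.Y w - D.Y z₀)) w = 0)).2 (mem_of_superset (c2.isOpen_compl.mem_nhds k)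
            fun w hw => indicator_apply_eq_zero.2 fun m => χ.zero_of_le_dist (by
              rw [dist_zero_right]
              exact (not_le.1 fun l => hw ⟨_, mem_closedBall_iff_norm.2 l, D.Y.left_inv m⟩).le))
        exact ⟨0, ((hasFDerivWithinAt_const (0 : ℝ) _ _).congr_of_eventuallyEq k5
          (k5.self_of_nhdsWithin hy.2)).mono inter_subset_right, by rw [norm_zero]; positivity⟩
    choose! f' c4 c5 using c3
    have c6 := ((convex_ball _ _).inter (𝓡∂ n).convex_range).norm_image_sub_le_of_norm_hasFDerivWithin_le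
      c4 c5 ⟨a2, ec_mem x z₀⟩ ⟨b2, ec_mem x z⟩
    rw [(ec n x).left_inv a1, (ec n x).left_inv b1, indicator_of_mem a3, indicator_of_mem b3,
      sub_self, χ.one_of_mem_closedBall (mem_closedBall_self χ.rIn_pos.le)] at c6
    by_contra k
    rw [χ.zero_of_le_dist (by
      rw [dist_zero_right]
      linarith [norm_sub_norm_le (D.Y z) (D.Y z₀), show χ.rOut = 1 from rfl])] at c6
    have c7 := dist_triangle_right (ec n x z) (ec n x z₀) (ec n x x)
    have c8 := mul_lt_mul_of_pos_left (show ‖ec n x z - ec n x z₀‖ < (K * L + 1)⁻¹ by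
      linarith [dist_eq_norm (ec n x z) (ec n x z₀), mem_ball.1 (e1 ⟨a2, ec_mem x z₀⟩).2.2,
        mem_ball.1 (e1 ⟨b2, ec_mem x z⟩).2.2]) k0
    rw [mul_inv_cancel₀ k0.ne'] at c8
    rw [zero_sub, norm_neg, norm_one] at c6
    nlinarith [norm_nonneg (ec n x z - ec n x z₀)]
  have ev := (eventually_mem_set.2 (extChartAt_source_mem_nhds' hx)).and
    ((continuousAt_extChartAt' hx).eventually (ball_mem_nhds _ e0))
  by_cases k : ∃ z₀ ∈ (ec n x).source, ec n x z₀ ∈ ball (ec n x x) ε ∧ z₀ ∈ D.Y.source ∧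
      R + 1 ≤ ‖D.Y z₀‖
  · obtain ⟨z₀, a1, a2, a3, a4⟩ := k
    exact ⟨_, ev.mono fun z hz => key z₀ a1 a2 a3 a4 z hz.1 hz.2⟩
  · exact ⟨R + 1, ev.mono fun z hz l => (not_le.1 fun m => k ⟨z, hz.1, hz.2, l, m⟩).le⟩

theorem Data.cl (hn : 3 ≤ n) (h : D.IsAF) {r : ℝ} (hr : D.R₀ < r) :
    IsClosed {x | x ∈ D.Y.source ∧ r ≤ ‖D.Y x‖} := by
  refine isClosed_of_closure_subset fun x hx => ?_
  obtain ⟨ρ, h1⟩ := Data.bdd hn h x
  obtain ⟨y, h2, rfl⟩ := (D.cpt_im ((isCompact_closedBall (0 : E n) ρ).inter_right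
    (isClosed_le continuous_const continuous_norm)) fun y hy => hr.trans_le hy.2).isClosed.closure_subset
    (mem_closure_iff_frequently.2 (((mem_closure_iff_frequently.1 hx).and_eventually h1).mono
      fun z hz => ⟨_, ⟨mem_closedBall_zero_iff.2 (hz.2 hz.1.1), hz.1.2⟩, D.Y.left_inv hz.1.1⟩))
  have h3 := Data.mem.2 (hr.trans_le h2.2)
  exact ⟨D.Y.map_target h3, by rw [D.Y.right_inv h3]; exact h2.2⟩

theorem Data.cp [ConnectedSpace Ω] (hn : 3 ≤ n) (h : D.IsAF) (r : ℝ) :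
    IsCompact {x | x ∈ D.Y.source → ‖D.Y x‖ ≤ r} := by
  have := Manifold.locallyCompact_of_finiteDimensional (M := Ω) (𝓡∂ n)
  obtain ⟨N, n1, n2⟩ := exists_compact_superset D.cpt
  have n3 : ∀ z ∈ N \ interior N, z ∈ D.Y.source := fun z hz => by_contra fun k => hz.2 (n2 k)
  obtain ⟨s, s1, s2⟩ := (n1.diff isOpen_interior).exists_forall_le'
    (D.Y.continuousOn.mono n3).norm fun z hz => Data.mem.1 (D.Y.map_source (n3 z hz))
  have s3 : ∀ z ∈ D.Y.source, ‖D.Y z‖ < s → z ∈ D.Y.symm '' {y | D.R₀ < ‖y‖ ∧ ‖y‖ < s} :=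
    fun z h1 h2 => ⟨_, ⟨Data.mem.1 (D.Y.map_source h1), h2⟩, D.Y.left_inv h1⟩
  rcases ((shell hn D.R₀ s).image _ (D.Y.continuousOn_symm.mono fun y hy =>
    Data.mem.2 hy.1)).subset_or_subset isOpen_interior n1.isClosed.isOpen_compl
    (disjoint_compl_right.mono_left interior_subset) (by
      rintro _ ⟨y, hy, rfl⟩
      by_contra k
      have := s2 _ ⟨by_contra fun l => k (Or.inr l), fun l => k (Or.inl l)⟩
      rw [D.Y.right_inv (Data.mem.2 hy.1)] at this
      exact hy.2.not_ge this) with k | k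
  · refine (n1.union (D.cpt_im ((isCompact_closedBall (0 : E n) r).inter_right
      (isClosed_le continuous_const continuous_norm)) fun y hy =>
        s1.trans_le hy.2)).of_isClosed_subset ?_ fun z hz => ?_
    · convert (D.Y.isOpen_inter_preimage (isOpen_lt (continuous_const (y := r))
        continuous_norm)).isClosed_compl using 1
      ext z
      simp
    · by_cases l : z ∈ D.Y.source
      · rcases lt_or_ge ‖D.Y z‖ s with m | m
        · exact Or.inl (interior_subset (k (s3 z l m)))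
        · exact Or.inr ⟨_, ⟨mem_closedBall_zero_iff.2 (hz l), m⟩, D.Y.left_inv l⟩
      · exact Or.inl (interior_subset (n2 l))
  · have l : IsOpen D.Y.sourceᶜ := by
      convert isOpen_interior.inter (Data.cl hn h s1).isOpen_compl
      ext z
      exact ⟨fun l => ⟨n2 l, fun m => l m.1⟩, fun l m => k (s3 z m (not_le.1 fun o => l.2 ⟨m, o⟩))
        (interior_subset l.1)⟩
    have := P366Z.nontriv (show 0 < n by omega)
    obtain ⟨y, hy⟩ := NormedSpace.exists_lt_norm ℝ (E n) D.R₀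
    obtain ⟨a, ha⟩ := D.bdry
    rcases isClopen_iff.1 ⟨D.Y.open_source.isClosed_compl, l⟩ with m | m
    · exact (eq_empty_iff_forall_notMem.1 m a fun o => D.ic.nb o ha).elim
    · exact ((m ▸ mem_univ _ : D.Y.symm y ∈ D.Y.sourceᶜ) (D.Y.map_target (Data.mem.2 hy))).elim

theorem Data.exists_end [ConnectedSpace Ω] (hn : 3 ≤ n) (h : D.IsAF) :
    ∃ (Y : OpenPartialHomeomorph Ω (E n)) (R : ℝ), End Y R ∧ ∀ y, Y.symm y = D.Φ y := by
  have h1 : D.R₀ < max D.R₀ 0 + 1 := by linarith [le_max_left D.R₀ 0]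
  refine ⟨(D.Y.symm.restrOpen {y | max D.R₀ 0 + 1 < ‖y‖}
    (isOpen_lt continuous_const continuous_norm)).symm, max D.R₀ 0 + 1,
    ⟨by linarith [le_max_right D.R₀ 0], ⟨D.ic.fw.mono inter_subset_left,
      D.ic.inv.mono inter_subset_left⟩, inter_eq_right.2 fun y hy => Data.mem.2 (h1.trans hy),
      fun s hs => ?_, fun s hs => ?_⟩, fun _ => rfl⟩
  · convert Data.cl hn h (h1.trans hs) using 1
    ext x
    exact ⟨fun k => ⟨k.1.1, k.2⟩, fun k => ⟨⟨k.1, lt_of_lt_of_le hs k.2⟩, k.2⟩⟩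
  · convert Data.cp hn h s using 1
    ext x
    exact ⟨fun k l => (le_or_gt ‖D.Y x‖ _).elim (fun m => m.trans hs) fun m => k ⟨l, m⟩,
      fun k l => k l.1⟩

end Vale.Agent.P366N
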