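import Vale.Agent.P366N.Cap2
import Vale.Agent.P366Z.St0.Ext

/-!
# P366N: extension of tensors, vector fields and of the defining function
-/

open Filter Topology Set Metric Function Manifold Matrix
open scoped ContDiff
open Vale.Agent.P366.Stmt (E Field)
open Vale.Agent.P366 Vale.Agent.P366M

noncomputable section

namespace Vale.Agent.P366N

variable {n : ℕ}

/-- the bilinear form of a matrix -/
def qf (S : Fin n → Fin n → ℝ) (a b : E n) : ℝ := ∑ i, ∑ j, S i j * a i * b j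

theorem qf_single (S : Fin n → Fin n → ℝ) (i j : Fin n) :
    qf S (EuclideanSpace.single i 1) (EuclideanSpace.single j 1) = S i j := by
  simp [qf]

theorem qf_eq (S : Matrix (Fin n) (Fin n) ℝ) (a b : E n) :
    qf (fun i j => S i j) a b = a.ofLp ⬝ᵥ S *ᵥ b.ofLp := by
  simp only [qf, dotProduct, mulVec, Finset.mul_sum]
  exact Finset.sum_congr rfl fun i _ => Finset.sum_congr rfl fun j _ => by ring

theorem qf_mul (S : Fin n → Fin n → ℝ) {A : Matrix (Fin n) (Fin n) ℝ} {a b a' b' : E n}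
    (ha : a'.ofLp = A *ᵥ a.ofLp) (hb : b'.ofLp = A *ᵥ b.ofLp) :
    qf S a' b' = qf (fun i j => ∑ k, ∑ l, A k i * A l j * S k l) a b := by
  have h := qf_eq (Aᵀ * Matrix.of S * A) a b
  rw [← mulVec_mulVec, ← mulVec_mulVec, dotProduct_mulVec a.ofLp, vecMul_transpose, ← ha, ← hb,
    ← qf_eq] at h
  simp only [← sum2_eq] at h
  exact h.symm

theorem sum_single (a : E n) : a = ∑ i, a i • EuclideanSpace.single i (1 : ℝ) := by
  ext j
  simp [Pi.single_apply]

theorem bil_eq (L : E n →L[ℝ] E n →L[ℝ] ℝ) (D : E n →L[ℝ] E n) (a b : E n) : L (D a) (D b) =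
    qf (fun i j => L (D (EuclideanSpace.single i 1)) (D (EuclideanSpace.single j 1))) a b := by
  rw [qf]
  conv_lhs => rw [sum_single a, sum_single b]
  simp only [map_sum, map_smul, _root_.sum_apply, _root_.smul_apply,
    smul_eq_mul, Finset.mul_sum]
  rw [Finset.sum_comm]
  exact Finset.sum_congr rfl fun i _ => Finset.sum_congr rfl fun j _ => by ring

theorem fderiv_jac {τ : E n → E n} {y : E n} (h : DifferentiableAt ℝ τ y) (v : E n) :
    (fderiv ℝ τ y v).ofLp = jac τ y *ᵥ v.ofLp := by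
  funext k
  conv_lhs => rw [sum_single v]
  simp [mulVec, dotProduct, jac_eq h, mul_comm]

variable [NeZero n]

/-- `F` vanishes on the hyperplane near `a` -/
def Van (F : E n → ℝ) (a : E n) : Prop := ∀ᶠ y in 𝓝 a, y 0 = 0 → F y = 0

theorem Van.pd {F : E n → ℝ} {a : E n} (h : Van F a) {i : Fin n} (hi : i ≠ 0) :
    Van (Stmt.pd i F) a := (Eventually.eventually_nhds h).mono fun y hy h0 => by
  have h1 : Tendsto (fun t : ℝ => y + t • EuclideanSpace.single i (1 : ℝ)) (𝓝 0) (𝓝 y) :=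
    Continuous.tendsto' (by fun_prop) _ _ (by simp)
  refine (EventuallyEq.deriv_eq (f := fun _ => (0 : ℝ)) ?_).trans (deriv_const _ _)
  filter_upwards [h1.eventually hy] with t ht using ht (by simp [h0, hi.symm])

theorem Van.pos {F : E n → ℝ} {a : E n} (h : Van F a) (ha : a 0 = 0) (hF : DifferentiableAt ℝ F a)
    (h0 : ∀ᶠ y in 𝓝[Hs n] a, 0 ≤ F y) (h1 : fderiv ℝ F a ≠ 0) : 0 < Stmt.pd 0 F a := by
  have h2 := le_fderiv0 (c := 0) ha (h.self_of_nhds ha) hF (by simpa using h0)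
  rw [← P366Z.pd_eq hF] at h2
  refine h2.lt_of_ne' fun k => h1 (ContinuousLinearMap.ext fun v => ?_)
  rw [P366Z.fderiv_eq_sum hF]
  refine Finset.sum_eq_zero fun i _ => mul_eq_zero_of_right _ ?_
  by_cases hi : i = 0
  · rwa [hi]
  · exact (h.pd hi).self_of_nhds ha

theorem Van.neg {F : E n → ℝ} {a : E n} (h : Van F a) (ha : a 0 = 0) (hF : ContDiff ℝ ∞ F)
    (h0 : 0 < Stmt.pd 0 F a) : ∀ᶠ y in 𝓝 a, y 0 < 0 → F y < 0 := by
  rw [P366Z.pd_eq (hF.differentiable (by simp) _)] at h0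
  obtain ⟨r, hr, T, hT, h1⟩ := P366Z.St0.ExtA.mono hF h0
  have h2 : Tendsto (fun y : E n => y + (-y 0) • EuclideanSpace.single (0 : Fin n) (1 : ℝ)) (𝓝 a)
      (𝓝 a) := Continuous.tendsto' (by fun_prop) _ _ (by simp [ha])
  filter_upwards [ball_mem_nhds a hr, h2.eventually h, cont0.neg.continuousAt.eventually
    (gt_mem_nhds (show -a 0 < T by rwa [ha, neg_zero]))] with y k1 k2 k3 k4
  have := h1 y k1 ⟨le_rfl, hT.le⟩ ⟨(neg_pos.2 k4).le, le_of_lt k3⟩ (neg_pos.2 k4)
  simp only [zero_smul, add_zero] at this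
  rwa [k2 (by simp)] at this

variable {Ω : Type} [TopologicalSpace Ω] [ChartedSpace (EuclideanHalfSpace n) Ω]

/-- the derivative of the chart -/
def De (p x : Ω) : E n →L[ℝ] E n := mfderiv (𝓡∂ n) (𝓡 n) (ec n p) x

/-- the derivative of the inverse of the chart -/
def Ds (p : Ω) (y : E n) : E n →L[ℝ] E n := mfderivWithin (𝓡 n) (𝓡∂ n) (ec n p).symm (Hs n) y

/-- the value of a tensor -/
def tv (T : Tensor n Ω) (x : Ω) : E n →L[ℝ] E n →L[ℝ] ℝ := T x

/-- the value of a vector field -/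
def xv (X : (x : Ω) → TangentSpace (𝓡∂ n) x) (x : Ω) : E n := X x

variable {p x : Ω} {T : Tensor n Ω} {X : (x : Ω) → TangentSpace (𝓡∂ n) x}

theorem inChart_eq (hx : x ∈ (ec n p).source) (i j : Fin n) : inChart T p (ec n p x) i j =
    tv T x (Ds p (ec n p x) (EuclideanSpace.single i 1))
      (Ds p (ec n p x) (EuclideanSpace.single j 1)) := by
  conv_rhs => enter [1, 1, 2]; rw [← (ec n p).left_inv hx]
  rfl

theorem vecIn_eq (hx : x ∈ (ec n p).source) : vecIn X p (ec n p x) = De p x (xv X x) := by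
  conv_rhs => rw [← (ec n p).left_inv hx]
  rfl

variable {M : Type} [Mfe n M] {κ : Ω → M} {c : Ch n M} {Φ : E n → Ω}

/-- the chart `c` of `M` is adapted near `x` to the chart at `p` -/
structure Adp (κ : Ω → M) (p x : Ω) (c : Ch n M) : Prop where
  src : x ∈ (ec n p).source
  mem : c ∈ At M
  ev : ∀ᶠ z in 𝓝 x, c.symm (ec n p z) = κ z

/-- the derivative of `κ` -/
def Bk (κ : Ω → M) (x : Ω) : E n →L[ℝ] E n :=
  mfderiv (𝓡∂ n) (𝓡 n) (fun z => ch (κ x) (κ z)) x

/-- `S` is the matrix of `T` at the point `κ x` -/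
def Rl (κ : Ω → M) (T : Tensor n Ω) (x : Ω) (S : Fin n → Fin n → ℝ) : Prop :=
  ∀ v w, tv T x v w = qf S (Bk κ x v) (Bk κ x w)

theorem Mod.ex (h : Mod n κ Φ) (hx : x ∈ (ec n p).source) : ∃ c, Adp κ p x c :=
  (h.adp p x hx).imp fun _ k => ⟨hx, k.1, k.2⟩

theorem Adp.near (h : Adp κ p x c) : ∀ᶠ z in 𝓝 x, Adp κ p z c := by
  filter_upwards [extChartAt_source_mem_nhds' h.src, h.ev.eventually_nhds] with z h1 h2
    using ⟨h1, h.mem, h2⟩

theorem Adp.eq (h : Adp κ p x c) : c.symm (ec n p x) = κ x := h.ev.self_of_nhds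

theorem Adp.app (h : Adp κ p x c) : c (κ x) = ec n p x := by rw [← h.eq, right_inv h.mem]

theorem Adp.mem_src (h : Adp κ p x c) : κ x ∈ c.source := h.eq ▸ symm_mem h.mem _

theorem Mod.ev (h : Mod n κ Φ) {P : Ω → Prop} (hP : ∀ᶠ z in 𝓝 x, P z) :
    ∀ᶠ w in 𝓝 (κ x), ∀ z, κ z = w → P z := by
  rwa [h.emb.nhds_eq_comap, eventually_comap] at hP

/-- near the point, the half-space is mapped into the range -/
theorem Adp.half (h : Adp κ p x c) : ∀ᶠ w in 𝓝 (κ x), 0 ≤ c w 0 → w ∈ range κ := by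
  have h1 : ∀ᶠ y in 𝓝[Hs n] (ec n p x), c.symm y ∈ range κ :=
    (ev_ec h.src).1 (h.ev.mono fun z hz => ⟨z, hz.symm⟩)
  rw [eventually_nhdsWithin_iff, ← h.app] at h1
  filter_upwards [(c.continuousAt h.mem_src).eventually h1, c.open_source.mem_nhds h.mem_src]
    with w k1 k2 k3
  exact c.left_inv k2 ▸ k1 (mem_Hs.2 k3)

variable [IsManifold (𝓡∂ n) ∞ Ω]

theorem De_Ds (hx : x ∈ (ec n p).source) (v : E n) : De p x (Ds p (ec n p x) v) = v :=
  DFunLike.congr_fun (mfderiv_extChartAt_comp_mfderivWithin_extChartAt_symm' hx) v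

theorem Ds_De (hx : x ∈ (ec n p).source) (v : E n) : Ds p (ec n p x) (De p x v) = v :=
  DFunLike.congr_fun (mfderivWithin_extChartAt_symm_comp_mfderiv_extChartAt' hx) v

theorem tv_eq (hx : x ∈ (ec n p).source) (v w : E n) :
    tv T x v w = qf (inChart T p (ec n p x)) (De p x v) (De p x w) := by
  conv_lhs => rw [← Ds_De hx v, ← Ds_De hx w, bil_eq]
  congr 1
  funext i j
  exact (inChart_eq hx i j).symm

theorem pos_inChart (hT : SmoothSymm T) (h : ∀ x v, v ≠ 0 → 0 < T x v v)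
    (hx : x ∈ (ec n p).source) : (Stmt.mat (inChart T p) (ec n p x)).PosDef := by
  refine PosDef.of_dotProduct_mulVec_pos (Matrix.ext fun i j => hT.1 _ _ _) fun ξ hξ => ?_
  have h1 := h x (Ds p (ec n p x) (WithLp.toLp 2 ξ)) fun k => hξ (by
    have := De_Ds hx (WithLp.toLp 2 ξ)
    rw [show Ds p (ec n p x) (WithLp.toLp 2 ξ) = 0 from k, map_zero] at this
    exact (congrArg WithLp.ofLp this).symm)
  have h2 := tv_eq (T := T) hx (Ds p (ec n p x) (WithLp.toLp 2 ξ))
    (Ds p (ec n p x) (WithLp.toLp 2 ξ))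
  rw [De_Ds hx] at h2
  exact h1.trans_eq (h2.trans (qf_eq (Stmt.mat (inChart T p) (ec n p x)) _ _))

theorem Adp.has (h : Adp κ p x c) : HasMFDerivAt (𝓡∂ n) (𝓡 n) (fun z => ch (κ x) (κ z)) x
    ((fderiv ℝ (tm c (ch (κ x))) (ec n p x)).comp (De p x)) :=
  has_mfd h.src (h.ev.mono fun z hz => by rw [tm, hz])
    (tm_diff h.mem (ch_mem _) (h.eq ▸ mem_ch _))

theorem Adp.bk (h : Adp κ p x c) (v : E n) :
    (Bk κ x v).ofLp = J c (ec n p x) *ᵥ (De p x v).ofLp := by
  rw [Bk, h.has.mfderiv, J, h.eq]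
  exact fderiv_jac (tm_diff h.mem (ch_mem _) (h.eq ▸ mem_ch _)) _

theorem Adp.rl (h : Adp κ p x c) {G : Fld n M} :
    Rl κ T x (G (κ x)) ↔ rep c G (ec n p x) = inChart T p (ec n p x) := by
  have e : ∀ v w, qf (G (κ x)) (Bk κ x v) (Bk κ x w) =
      qf (rep c G (ec n p x)) (De p x v) (De p x w) := fun v w => by
    rw [qf_mul _ (h.bk v) (h.bk w), ← h.eq]
    rfl
  refine ⟨fun k => funext fun i => funext fun j => ?_, fun k v w => by rw [e, k, tv_eq h.src]⟩
  rw [inChart_eq h.src, k, e, De_Ds h.src, De_Ds h.src, qf_single]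

theorem Adp.rlv (h : Adp κ p x c) {Z : Fin n → M → ℝ} :
    (fun i => Z i (κ x)) = (Bk κ x (xv X x)).ofLp ↔
      (fun i => repV c Z i (ec n p x)) = (vecIn X p (ec n p x)).ofLp := by
  rw [h.bk, repV_eq, h.eq, vecIn_eq h.src]
  refine ⟨fun k => ?_, fun k => ?_⟩
  · rw [k, mulVec_mulVec, J_inv_mul h.mem, one_mulVec]
  · rw [← k, mulVec_mulVec, J_mul_inv h.mem, one_mulVec]

namespace Mod

variable (h : Mod n κ Φ)
include h

/-- the extension of a tensor -/
theorem ten (hT : SmoothSymm T) : ∃ G : Fld n M, SmT G ∧ (∀ z i j, G z i j = G z j i) ∧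
    ((∀ x v, v ≠ 0 → 0 < T x v v) → ∀ z, (mat G z).PosDef) ∧ ∀ x, Rl κ T x (G (κ x)) := by
  obtain ⟨G, g1, g2⟩ := glue_ten (n := n) (M := M) (t := fun z => {S | ∀ i j, S i j = S j i} ∩
      ({S | (∀ x v, v ≠ 0 → 0 < T x v v) → (Matrix.of S).PosDef} ∩
        {S | ∀ x, κ x = z → Rl κ T x S})) (fun z => Convex.inter
      (fun S hS S' hS' a b _ _ _ i j => by simp [hS i j, hS' i j]) (Convex.inter
        (fun S hS S' hS' a b ha hb hab k => convex_posDef (hS k) (hS' k) ha hb hab)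
        fun S hS S' hS' a b _ _ hab x hx v w => by
          have e : ∀ u u', qf (a • S + b • S') u u' = a * qf S u u' + b * qf S' u u' :=
            fun u u' => by
              simp only [qf, Pi.add_apply, Pi.smul_apply, smul_eq_mul, add_mul,
                Finset.sum_add_distrib, Finset.mul_sum, mul_assoc]
          rw [e, ← hS x hx, ← hS' x hx, ← add_mul, hab, one_mul])) fun z => by
    by_cases hz : z ∈ range κ
    · obtain ⟨x, rfl⟩ := hz
      obtain ⟨c, hc⟩ := h.ex (mem_extChartAt_source x)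
      obtain ⟨G, k1, k2⟩ := ext_of (f := inChart T x)
        (contDiffOn_pi.2 fun i => contDiffOn_pi.2 fun j => hT.2 x i j) hc.src
      let G' : Field n := fun y i j => (G y i j + G y j i) / 2
      have k3 : ∀ i j, Stmt.Smooth fun y => G' y i j := fun i j =>
        ((contDiff_pi.1 (contDiff_pi.1 k1 i) j).add (contDiff_pi.1 (contDiff_pi.1 k1 j) i)).div_const _
      have k4 : ∀ y i j, G' y i j = G' y j i := fun y i j => by simp only [G', add_comm]
      have k5 : ∀ᶠ z in 𝓝 x, G' (ec n x z) = inChart T x (ec n x z) := k2.mono fun z hz => by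
        funext i j
        simp only [G', hz]
        rw [show inChart T x (ec n x z) j i = inChart T x (ec n x z) i j from hT.1 _ _ _,
          add_self_div_two]
      have k6 : ∀ᶠ w in 𝓝 (κ x), (∀ x v, v ≠ 0 → 0 < T x v v) → (Stmt.mat G' (c w)).PosDef := by
        refine eventually_imp_distrib_left.2 fun k => (c.continuousAt hc.mem_src).eventually
          (P366Z.St0.ExtA.pos_ev (fun i j => (k3 i j).continuous) k4 ?_)
        rw [hc.app, Stmt.mat, k5.self_of_nhds]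
        exact pos_inChart hT k hc.src
      refine ⟨c, hc.mem, _, ((h.ev (hc.near.and k5)).and k6).and
        (c.open_source.mem_nhds hc.mem_src), fun w hw => hw.2, unrep c G',
        by rwa [rep_unrep hc.mem], fun w hw => ⟨fun i j => ?_, fun k => unrep_pos hc.mem (hw.1.2 k),
          fun z hz => ?_⟩⟩
      · unfold unrep
        rw [Finset.sum_comm]
        exact Finset.sum_congr rfl fun a _ => Finset.sum_congr rfl fun b _ => by rw [k4 _ b a]; ring
      · subst hz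
        exact (hw.1.1 z rfl).1.rl.2 (by rw [rep_unrep hc.mem, (hw.1.1 z rfl).2])
    · exact ⟨_, ch_mem z, _, inter_mem (h.emb.isClosed_range.isOpen_compl.mem_nhds hz)
        ((ch z).open_source.mem_nhds (mem_ch z)), inter_subset_right, bg, bg_met.sm _ (ch_mem z),
        fun w hw => ⟨bg_met.sy w, fun _ => bg_met.pos w, fun x hx => (hw.1 ⟨x, hx⟩).elim⟩⟩
  exact ⟨G, g1, fun z => (g2 z).1, fun k z => (g2 z).2.1 k, fun x => (g2 _).2.2 x rfl⟩

/-- the extension of a vector field -/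
theorem vec (hX : ∀ p, ContDiffOn ℝ ∞ (vecIn X p) (ec n p).target) : ∃ Z : Fin n → M → ℝ,
    CV ∞ Z ∧ ∀ x, (fun i => Z i (κ x)) = (Bk κ x (xv X x)).ofLp := by
  obtain ⟨Z, g1, g2⟩ := glue_vec (n := n) (M := M)
      (t := fun z => {v | ∀ x, κ x = z → v = (Bk κ x (xv X x)).ofLp})
      (fun z v hv v' hv' a b _ _ hab x hx => by
        rw [hv x hx, hv' x hx, ← add_smul, hab, one_smul]) fun z => by
    by_cases hz : z ∈ range κ
    · obtain ⟨x, rfl⟩ := hz
      obtain ⟨c, hc⟩ := h.ex (mem_extChartAt_source x)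
      obtain ⟨G, k1, k2⟩ := ext_of (hX x) hc.src
      refine ⟨c, hc.mem, _, (h.ev (hc.near.and k2)).and (c.open_source.mem_nhds hc.mem_src),
        fun w hw => hw.2, unrepV c fun i y => G y i, fun i => ?_, fun w hw z hz => ?_⟩
      · rw [repV_unrepV hc.mem]
        exact (P366Z.contDiff_coord i).comp k1
      · subst hz
        exact (hw.1 z rfl).1.rlv.2 (by rw [repV_unrepV hc.mem, ← (hw.1 z rfl).2])
    · refine ⟨_, ch_mem z, _, inter_mem (h.emb.isClosed_range.isOpen_compl.mem_nhds hz)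
        ((ch z).open_source.mem_nhds (mem_ch z)), inter_subset_right, unrepV (ch z) fun _ _ => 0,
        fun i => ?_, fun w hw x hx => (hw.1 ⟨x, hx⟩).elim⟩
      rw [repV_unrepV (ch_mem z)]
      exact contDiff_const
  exact ⟨Z, g1, fun x => g2 _ x rfl⟩

end Mod

theorem van_of {F : Ω → ℝ} {G : E n → ℝ} (f2 : ∀ x, 0 ≤ F x) (f3 : ∀ x ∈ bd n Ω, F x = 0)
    (hp : x ∈ (ec n p).source) (hx : x ∈ bd n Ω) (f4 : mfderiv (𝓡∂ n) 𝓘(ℝ, ℝ) F x ≠ 0)
    (hG : DifferentiableAt ℝ G (ec n p x)) (k : ∀ᶠ z in 𝓝 x, F z = G (ec n p z)) :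
    Van G (ec n p x) ∧ 0 < Stmt.pd 0 G (ec n p x) := by
  have h1 : Van G (ec n p x) := by
    have : ∀ᶠ y in 𝓝[Hs n] (ec n p x), y 0 = 0 → G y = 0 := (ev_ec hp).1 (by
      filter_upwards [k, extChartAt_source_mem_nhds' hp] with z h1 h2 h3
      rw [← h1, f3 z ((bd_iff h2).2 h3)])
    exact (eventually_nhdsWithin_iff.1 this).mono fun y hy h0 => hy (mem_Hs.2 h0.ge) h0
  exact ⟨h1, h1.pos ((bd_iff hp).1 hx) hG ((ev_ec hp).1 (k.mono fun z hz => hz ▸ f2 z))
    ((mfd_ne hp k hG).1 f4)⟩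

/-- the extension of the defining function -/
theorem Mod.fn (h : Mod n κ Φ) {F : Ω → ℝ} (f1 : ContMDiff (𝓡∂ n) 𝓘(ℝ, ℝ) ∞ F)
    (f2 : ∀ x, 0 ≤ F x) (f3 : ∀ x ∈ bd n Ω, F x = 0)
    (f4 : ∀ x ∈ bd n Ω, mfderiv (𝓡∂ n) 𝓘(ℝ, ℝ) F x ≠ 0) :
    ∃ u : M → ℝ, CD ∞ u ∧ (∀ x, u (κ x) = F x) ∧ ∀ z ∉ range κ, u z < 0 := by
  obtain ⟨u, g1, g2⟩ := glue_fun (n := n) (M := M)
      (t := fun z => {a : ℝ | (∀ x, κ x = z → a = F x) ∧ (z ∉ range κ → a < 0)})
      (fun z a ha a' ha' s t hs ht hst => ⟨fun x hx => by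
        rw [ha.1 x hx, ha'.1 x hx, ← add_smul, hst, one_smul], fun k =>
          convex_Iio (0 : ℝ) (ha.2 k) (ha'.2 k) hs ht hst⟩) fun z => by
    by_cases hz : z ∈ range κ
    · obtain ⟨x, rfl⟩ := hz
      obtain ⟨c, hc⟩ := h.ex (mem_extChartAt_source x)
      obtain ⟨G, k1, k2⟩ := exists_ext f1 hc.src
      have k3 : ∀ᶠ y in 𝓝 (ec n x x), y 0 < 0 → G y < 0 := by
        by_cases hx : x ∈ bd n Ω
        · obtain ⟨l1, l2⟩ := van_of f2 f3 hc.src hx (f4 x hx) (k1.differentiable (by simp) _) k2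
          exact l1.neg ((bd_iff hc.src).1 hx) k1 l2
        · filter_upwards [cont0.continuousAt.eventually (lt_mem_nhds (mem_ic hx).2)] with y l1 l2
          exact (l1.not_gt l2).elim
      rw [← hc.app] at k3
      refine ⟨_, ((h.ev (hc.near.and k2)).and (hc.half.and
        ((c.continuousAt hc.mem_src).eventually k3))).and (c.open_source.mem_nhds hc.mem_src),
        fun w => G (c w), fun w hw => ?_, fun w hw => ⟨fun z hz => ?_,
          fun k => hw.1.2.2 (not_le.1 fun l => k (hw.1.2.1 l))⟩⟩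
      · rw [← c.left_inv hw.2]
        refine cAt_of_loc le_rfl hc.mem ?_
        rw [show loc c (fun w => G (c w)) = G from funext fun y => by rw [loc, right_inv hc.mem]]
        exact k1.contDiffAt
      · subst hz
        exact (congrArg G (hw.1.1 z rfl).1.app).trans (hw.1.1 z rfl).2.symm
    · exact ⟨_, h.emb.isClosed_range.isOpen_compl.mem_nhds hz, fun _ => -1,
        fun _ _ => contDiffAt_const (c := -1), fun w hw => ⟨fun x hx => (hw ⟨x, hx⟩).elim,
          fun _ => neg_one_lt_zero⟩⟩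
  exact ⟨u, g1, fun x => (g2 _).1 x rfl, fun z => (g2 z).2⟩

end Vale.Agent.P366N
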