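import Vale.Agent.P366N.Ext1
import Vale.Agent.P366M.Inv2
import Vale.Agent.P366M.Ext

/-!
# P366N: the extended initial data
-/

open Filter Topology Set Metric Function Manifold Matrix
open scoped ContDiff
open Vale.Agent.P366.Stmt (E Field BigO flx)
open Vale.Agent.P366 Vale.Agent.P366M

noncomputable section

namespace Vale.Agent.P366N

variable {n : ℕ}

/-- the functions agree outside the ball of radius `r` -/
def Far (r : ℝ) (f f' : E n → ℝ) : Prop := ∀ y, r < ‖y‖ → f y = f' y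

theorem Far.pd {r : ℝ} {f f' : E n → ℝ} (h : Far r f f') (i : Fin n) :
    Far r (Stmt.pd i f) (Stmt.pd i f') := fun _ hy => P366Z.pd_congr
  (mem_of_superset ((isOpen_lt continuous_const continuous_norm).mem_nhds hy) h) i

theorem Far.bigO {r q : ℝ} {f f' : E n → ℝ} (h : Far r f f') (k : BigO q f') : BigO q f := by
  obtain ⟨C, R, k⟩ := k
  exact ⟨C, max R r, fun y hy => h y ((le_max_right R r).trans_lt hy) ▸
    k y ((le_max_left R r).trans_lt hy)⟩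

theorem far_flx {r m : ℝ} {W W' : Fin n → E n → ℝ} (h : ∀ i, Far r (W i) (W' i))
    (k : Tendsto (flx W') atTop (𝓝 m)) : Tendsto (flx W) atTop (𝓝 m) := k.congr' (by
  filter_upwards [eventually_gt_atTop r, eventually_ge_atTop 0] with s h1 h2
  exact P366Z.St0.ExtA.flx_congr h2 fun i x hx => (h i x (hx ▸ h1)).symm)

variable [NeZero n]

/-- the expansion does not depend on the defining function -/
theorem Van.theta {F : E n → ℝ} {a : E n} (h : Van F a) (ha : a 0 = 0) (h0 : 0 < Stmt.pd 0 F a)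
    {G : Field n} (hG : P366Z.Met G) (L : Field n) :
    Stmt.thetaPlus G L F a = Stmt.thetaPlus G L (fun y => y 0) a := by
  have h1 : ∀ j, Stmt.pd j F a = if j = 0 then Stmt.pd 0 F a else 0 := fun j => by
    split_ifs with k
    · rw [k]
    · exact (h.pd k).self_of_nhds ha
  have h2 : 0 < Stmt.up G 0 0 a := by
    simpa [Pi.single_apply] using hG.up_pos a (ξ := Pi.single 0 1) (by simp)
  obtain ⟨s, s0, hs⟩ : ∃ s, 0 < s ∧ Stmt.up G 0 0 a = s ^ 2 :=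
    ⟨_, Real.sqrt_pos.2 h2, (Real.sq_sqrt h2.le).symm⟩
  generalize Stmt.pd 0 F a = l at h0 h1
  have c1 : Stmt.covNorm G (fun j => Stmt.pd j F) a = s * l := by
    simp only [Stmt.covNorm, h1, mul_ite, mul_zero, ite_mul, zero_mul, Finset.sum_ite_eq',
      Finset.mem_univ, if_true, hs]
    rw [show s ^ 2 * l * l = (s * l) ^ 2 by ring, Real.sqrt_sq (by positivity)]
  have c2 : Stmt.covNorm G (fun j => Stmt.pd j fun y => y 0) a = s := by
    simp only [Stmt.covNorm, P366Z.pd_coord, mul_ite, mul_zero, mul_one,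
      Finset.sum_ite_eq', Finset.mem_univ, if_true, hs, Real.sqrt_sq s0.le]
  have n1 : ∀ i, Stmt.nrm G F i a = Stmt.up G i 0 a / s := fun i => by
    simp only [Stmt.nrm, c1, h1, mul_ite, mul_zero, Finset.sum_ite_eq', Finset.mem_univ, if_true]
    field_simp
  have n2 : ∀ i, Stmt.nrm G (fun y => y 0) i a = Stmt.up G i 0 a / s := fun i => by
    simp only [Stmt.nrm, c2, P366Z.pd_coord, mul_ite, mul_zero, mul_one, Finset.sum_ite_eq',
      Finset.mem_univ, if_true]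
  have e1 : ∀ i j, Stmt.hess G F a i j =
      Stmt.pd i (Stmt.pd j F) a + l * Stmt.hess G (fun y => y 0) a i j := fun i j => by
    rw [Stmt.hess, Stmt.hess, show (Stmt.pd j fun y : E n => y 0) = fun _ => if j = 0 then 1 else 0
      from funext (P366Z.pd_coord j 0), P366Z.pd_const]
    simp only [h1, P366Z.pd_coord, mul_ite, mul_zero, mul_one, Finset.sum_ite_eq', Finset.mem_univ,
      if_true]
    ring
  have e2 : ∀ i j, Stmt.up G i j a * Stmt.pd i (Stmt.pd j F) a =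
      Stmt.pd i (Stmt.pd j F) a * (Stmt.up G i 0 a / s) * (Stmt.up G j 0 a / s) := fun i j => by
    by_cases hi : i = 0
    · rw [hi, hs, hG.up_sy 0 j]
      field_simp
    · by_cases hj : j = 0
      · rw [hj, hs]
        field_simp
      · rw [((h.pd hj).pd hi).self_of_nhds ha]
        simp
  simp only [Stmt.thetaPlus, Stmt.trS, Stmt.tr, c1, c2, n1, n2, e1, mul_add, add_mul, e2,
    Finset.sum_add_distrib, mul_left_comm _ l, mul_assoc l, ← Finset.mul_sum]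
  field_simp
  ring

variable {Ω : Type} [TopologicalSpace Ω] [ChartedSpace (EuclideanHalfSpace n) Ω]
  [IsManifold (𝓡∂ n) ∞ Ω] {M : Type} [Mfe n M] {κ : Ω → M} {c : Ch n M} {p x : Ω}
  {T : Tensor n Ω}

omit [IsManifold (𝓡∂ n) ∞ Ω] in
theorem Adp.loc (h : Adp κ p x c) {α : Type} (u : M → α) :
    ∀ᶠ z in 𝓝 x, u (κ z) = loc c u (ec n p z) := h.ev.mono fun z hz => by rw [loc_apply, hz]

theorem Adp.mfd (h : Adp κ p x c) {u : M → ℝ} (hu : CD ∞ u) :
    mfderiv (𝓡∂ n) 𝓘(ℝ, ℝ) (fun z => u (κ z)) x ≠ 0 ↔ ∃ i, pd i u (κ x) ≠ 0 := by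
  have h1 := (hu c h.mem).differentiable (by simp) (ec n p x)
  have h2 : (fun i => Stmt.pd i (P366M.loc c u) (ec n p x)) =
      (J c (ec n p x))ᵀ *ᵥ fun k => pd k u (κ x) := by
    rw [← h.eq, ← repC_eq]
    exact funext (pd_rep h.mem (dAt_of_loc h.mem h1))
  rw [mfd_ne h.src (h.loc u) h1, ← not_forall]
  refine not_congr ⟨fun k => ?_, fun k => ContinuousLinearMap.ext fun v => ?_⟩
  · refine congrFun (eq_zero_of_mulVec_eq_zero
      (det_transpose (J c _) ▸ (J_unit h.mem (ec n p x)).ne_zero) (h2.symm.trans ?_))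
    funext i
    rw [P366Z.pd_eq h1, k]
    rfl
  · rw [show (fun k => pd k u (κ x)) = 0 from funext k, mulVec_zero] at h2
    rw [P366Z.fderiv_eq_sum h1]
    exact Finset.sum_eq_zero fun i _ => mul_eq_zero_of_right _ (congrFun h2 i)

theorem Adp.rep (h : Adp κ x x c) {G : Fld n M} (h1 : SmT G) (h2 : ∀ x, Rl κ T x (G (κ x))) :
    Rep T x (rep c G) :=
  ⟨h1 c h.mem, (ev_ec h.src).1 (h.near.mono fun z hz => hz.rl.1 (h2 z))⟩

theorem Mod.cmd {Φ : E n → Ω} (h : Mod n κ Φ) {u : M → ℝ} (hu : CD ∞ u) :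
    ContMDiff (𝓡∂ n) 𝓘(ℝ, ℝ) ∞ fun z => u (κ z) := fun x => by
  obtain ⟨c, hc⟩ := h.ex (mem_extChartAt_source x)
  exact cmd_of hc.src (hc.loc u) (hu c hc.mem).contDiffAt

variable {D : Data n Ω}

theorem Mod.fe (h : Mod n κ D.Φ) : ∃ r, ∀ {T : Tensor n Ω} {G : Fld n M},
    (∀ x, Rl κ T x (G (κ x))) → ∀ y, r < ‖y‖ → fe G y = comps T D.Φ univ y := by
  obtain ⟨r, hr⟩ := h.far
  refine ⟨max r (max (R0 M) D.R₀), fun {T G} hG y hy => funext fun i => funext fun j => ?_⟩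
  rw [max_lt_iff, max_lt_iff] at hy
  obtain ⟨c, hc⟩ := h.ex (mem_extChartAt_source (D.Φ y))
  have h1 := (D.Φ.mdifferentiableAt (by simp) (D.src ▸ hy.2.2 : y ∈ D.Φ.source)).hasMFDerivAt
  have h2 := hasMFDerivAt_unique
    ((hc.has.mdifferentiableAt.hasMFDerivAt.comp y h1).congr_of_eventuallyEq (f₁ := id) (by
      filter_upwards [(isOpen_lt continuous_const continuous_norm).mem_nhds hy.1,
        ball_mem_nhds y (show (0 : ℝ) < 5 by norm_num)] with z h3 h4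
      rw [Function.comp_apply, ← hr z (le_of_lt h3), ← hr y hy.1.le, yp,
        ← (Mfs.far _ y hy.2.1.le).2 z h4, right_inv (ch_mem _), id])) (hasMFDerivAt_id y)
  have h3 : ∀ v, Bk κ (D.Φ y) (mfderivWithin (𝓡 n) (𝓡∂ n) D.Φ univ y v) = v := fun v => by
    rw [mfderivWithin_univ]
    exact DFunLike.congr_fun h2 v
  refine .trans ?_ ((hG (D.Φ y) _ _).trans ((congrArg₂ (qf _) (h3 _) (h3 _)).trans
    (qf_single _ i j))).symm
  rw [← hr y hy.1.le]
  rfl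

/-- the data `X` extend the data `D` -/
structure Pk (D : Data n Ω) (κ : Ω → M) (X : Exterior n M) : Prop where
  mod : Mod n κ D.Φ
  rng : ∀ z, 0 ≤ X.F z ↔ z ∈ range κ
  zero : ∀ x, X.F (κ x) = 0 ↔ x ∈ bd n Ω
  g : ∀ x, Rl κ D.g x (X.g (κ x))
  K : ∀ x, Rl κ D.K x (X.K (κ x))

omit [IsManifold (𝓡∂ n) ∞ Ω] in
theorem Mod.px (h : Mod n κ D.Φ) : ∃ r, ∀ z : M, r < ‖px z‖ →
    D.R₀ < ‖px z‖ ∧ κ (D.Φ (px z)) = z := by
  obtain ⟨r, hr⟩ := h.far
  refine ⟨max r (max (R0 M) D.R₀), fun z hz => ?_⟩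
  rw [max_lt_iff, max_lt_iff] at hz
  obtain ⟨j, hj⟩ := Mfs.ye_px z (by linarith [hz.2.1])
  exact ⟨hz.2.2, by rw [← hr _ hz.1.le, yp, ← Mfe.one j, hj]⟩

omit [IsManifold (𝓡∂ n) ∞ Ω] in
theorem Data.nb (D : Data n Ω) {y : E n} (hy : D.R₀ < ‖y‖) : D.Φ y ∉ bd n Ω :=
  IC.nb (b := D.Φ.toOpenPartialHomeomorph.symm) ⟨D.Φ.contMDiffOn_invFun, D.Φ.contMDiffOn_toFun⟩
    (D.Φ.map_source (D.src ▸ hy))

theorem Mod.pk [T2Space Ω] [ConnectedSpace Ω] (h : Mod n κ D.Φ) : ∃ X, Pk D κ X := by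
  obtain ⟨F, f1, f2, f3, -, U, -, f4, f5⟩ := exists_F0 (n := n) (D.cpt.of_isClosed_subset
    ((𝓡∂ n).isClosed_boundary (n := ∞) (by simp)) fun x k l => D.nb
      (D.src ▸ D.Φ.map_target l : D.Φ.invFun x ∈ {y | D.R₀ < Stmt.len y}) (by
        rwa [show D.Φ (D.Φ.invFun x) = x from D.Φ.right_inv l]))
  obtain ⟨u, u1, u2, u3⟩ := h.fn f1 f2 (fun x => (f3 x).2) fun x hx => f5 x (f4 hx)
  obtain ⟨g, g1, g2, g3, g4⟩ := h.ten D.smg
  obtain ⟨K, k1, k2, -, k4⟩ := h.ten D.smK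
  have u4 : ∀ z, 0 ≤ u z ↔ z ∈ range κ := fun z =>
    ⟨fun k => by_contra fun l => (u3 z l).not_ge k, fun ⟨x, hx⟩ => hx ▸ (u2 x).symm ▸ f2 x⟩
  obtain ⟨r, hr⟩ := h.px
  obtain ⟨a, ha⟩ := D.bdry
  refine ⟨⟨u, g, K, ⟨u1, fun z hz => ?_, ?_, r, fun z hz => ?_⟩, ⟨κ a, (u2 a).trans ((f3 a).2 ha)⟩,
    ⟨g1, g2, g3 D.pos⟩, k1, k2⟩, h, u4, fun x => u2 x ▸ f3 x, g4, k4⟩
  · obtain ⟨x, rfl⟩ := (u4 z).1 hz.ge
    obtain ⟨c, hc⟩ := h.ex (mem_extChartAt_source x)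
    refine (hc.mfd u1).1 ?_
    rw [funext u2]
    exact f5 x (f4 ((f3 x).1 ((u2 x).symm.trans hz)))
  · rw [show {z | 0 ≤ u z} = range κ from Set.ext u4]
    exact isConnected_range h.emb.continuous
  · rw [← (hr z hz).2, u2]
    exact (f2 _).lt_of_ne' ((f3 _).not.2 (D.nb (hr z hz).1))

namespace Pk

variable {X : Exterior n M} (h : Pk D κ X)
include h

theorem dec (k : D.DEC) : X.DEC := fun z hz => by
  obtain ⟨x, rfl⟩ := (h.rng z).1 hz
  obtain ⟨c, hc⟩ := h.mod.ex (mem_extChartAt_source x)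
  have := k x _ _ (hc.rep X.met.sm h.g) (hc.rep X.smK h.K)
  rwa [covNorm_mom_rep X.met hc.mem (X.smK.dt _), mu_rep X.met hc.mem, hc.eq] at this

theorem trapped (k : D.Trapped) : X.Trapped := fun z hz => by
  obtain ⟨x, rfl⟩ := (h.rng z).1 hz.ge
  obtain ⟨c, hc⟩ := h.mod.ex (mem_extChartAt_source x)
  have hx := (h.zero x).1 hz
  obtain ⟨l1, l2⟩ := van_of (fun x => (h.rng _).2 ⟨x, rfl⟩) (fun x => (h.zero x).2) hc.src hx
    ((hc.mfd X.dom.1).2 (X.dom.2.1 _ hz)) ((X.dom.1 c hc.mem).differentiable (by simp) _)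
    (hc.loc X.F)
  have := k x hx _ _ (hc.rep X.met.sm h.g) (hc.rep X.smK h.K)
  rwa [← l1.theta ((bd_iff hc.src).1 hx) l2 (X.met.rep hc.mem), thetaPlus_rep X.met hc.mem X.K
    (cAt_of_loc two_le_oo hc.mem ((X.dom.1 c hc.mem).of_le two_le_oo).contDiffAt), hc.eq] at this

theorem far : ∃ r, (∀ y, r < ‖y‖ → fe X.g y = D.gE y) ∧ ∀ y, r < ‖y‖ → fe X.K y = D.KE y :=
  h.mod.fe.imp fun _ k => ⟨k h.g, k h.K⟩

theorem af (k : D.IsAF) : X.IsAF := by
  obtain ⟨r, h1, h2⟩ := h.far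
  obtain ⟨q, k1, k2⟩ := k
  have h3 : ∀ i j, Far r (fun y => fe X.g y i j) fun y => D.gE y i j := fun i j y hy => by
    simp only [h1 y hy]
  have h4 : ∀ i j, Far r (fun y => fe X.K y i j) fun y => D.KE y i j := fun i j y hy => by
    simp only [h2 y hy]
  refine ⟨q, k1, fun i j k l => ?_⟩
  obtain ⟨l1, l2, l3, l4, l5⟩ := k2 i j k l
  exact ⟨Far.bigO (r := r) (fun y hy => by simp only [h1 y hy]) l1, ((h3 i j).pd k).bigO l2,
    (((h3 i j).pd k).pd l).bigO l3, (h4 i j).bigO l4, ((h4 i j).pd k).bigO l5⟩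

theorem energy {m : ℝ} (k : D.IsEnergy m) : X.IsEnergy m := by
  obtain ⟨r, h1, -⟩ := h.far
  have h3 : ∀ i j, Far r (fun y => fe X.g y i j) fun y => D.gE y i j := fun i j y hy => by
    simp only [h1 y hy]
  exact far_flx (r := r) (fun i y hy => by simp only [((h3 _ _).pd _) y hy]) k

theorem momentum {P : Fin n → ℝ} (k : D.IsMomentum P) : X.IsMomentum P := fun i => by
  obtain ⟨r, h1, h2⟩ := h.far
  exact far_flx (r := r) (fun j y hy => by
    simp only [Stmt.momT, Stmt.tr, Stmt.up, Stmt.mat, h1 y hy, h2 y hy]) (k i)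

theorem cut {G : M → ℝ} (hG : IsExt G) (k : ∀ z, 0 ≤ G z → 0 ≤ X.F z) :
    D.IsCut fun x => G (κ x) := by
  obtain ⟨g1, g2, g3, R, g4⟩ := hG
  have h1 : κ '' {x | 0 ≤ G (κ x)} = {z | 0 ≤ G z} :=
    image_preimage_eq_of_subset (s := {z | 0 ≤ G z}) fun z hz => (h.rng z).1 (k z hz)
  obtain ⟨r, hr⟩ := h.mod.far
  refine ⟨h.mod.cmd g1, fun x hx => ?_, ⟨image_nonempty.1 (h1 ▸ g3.nonempty),
    h.mod.emb.isInducing.isPreconnected_image.1 (h1 ▸ g3.isPreconnected)⟩, fun x hx => ?_,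
    max r (max R (R0 M)), fun y hy => ?_⟩
  · obtain ⟨c, hc⟩ := h.mod.ex (mem_extChartAt_source x)
    exact (hc.mfd g1).2 (g2 _ hx)
  · by_contra l
    obtain ⟨c, hc⟩ := h.mod.ex (mem_extChartAt_source x)
    have l1 : IsLocalMin X.F (κ x) := by
      filter_upwards [(cont_of_loc fun e he => (g1 e he).continuous).continuousAt.eventually
        (lt_mem_nhds (not_le.1 l))] with z hz
      rw [(h.zero x).2 hx]
      exact k z hz.le
    obtain ⟨i, hi⟩ := X.dom.2.1 _ ((h.zero x).2 hx)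
    refine hi ?_
    rw [pd, P366Z.pd_eq ((X.dom.1 _ (ch_mem _)).differentiable (by simp) _),
      (isLocalMin_loc l1).fderiv_eq_zero]
    rfl
  · rw [Stmt.len, max_lt_iff, max_lt_iff] at hy
    simp only [← hr y hy.1.le]
    exact g4 _ (by rw [yp, Mfs.px_ye _ y (by linarith [hy.2.2])]; exact hy.2.1)

end Pk

end Vale.Agent.P366N
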