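import Vale.Agent.P366N.Stmt

/-!
# P366N: the final statement as a proposition
-/

open Manifold
open scoped ContDiff
open Vale.Agent.P366.Stmt

namespace Vale.Agent.P366N

/-- **the final statement** -/
def FINAL : Prop := ∀ (n : ℕ) [NeZero n] (Ω : Type) [TopologicalSpace Ω] [T2Space Ω]
  [ConnectedSpace Ω] [ChartedSpace (EuclideanHalfSpace n) Ω] [IsManifold (𝓡∂ n) ∞ Ω]
  [MeasurableSpace Ω] [BorelSpace Ω] (D : Data n Ω) (m : ℝ) (P : Fin n → ℝ), 3 ≤ n →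
  D.IsAF → D.DEC → D.Trapped → D.IsEnergy m → D.IsMomentum P →
    D.Amin ≠ ⊤ ∧ √(∑ i, P i ^ 2) < m ∧
      (D.Amin.toReal / omega n) ^ (((n : ℝ) - 2) / (n - 1)) / 2 ≤ √(m ^ 2 - ∑ i, P i ^ 2)

end Vale.Agent.P366N
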