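import Vale.Agent.P366N.Area
import Vale.Agent.P366N.End
import Vale.Agent.P366N.Final

/-!
# P366N: the final statement follows from the statement on manifolds with one end
-/

open Vale.Agent.P366.Stmt (omega)

namespace Vale.Agent.P366N

/-- **block (IV)** -/
theorem final_of (H : P366M.FULL) : FINAL := by
  intro n _ Ω _ _ _ _ _ _ _ D m P hn h1 h2 h3 h4 h5
  obtain ⟨Y, R, y1, y2⟩ := Data.exists_end hn h1
  obtain ⟨M, _, κ, hκ⟩ := y1.mod D.bdry
  rw [funext y2] at hκ
  obtain ⟨X, h⟩ := hκ.pk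
  obtain ⟨k1, k2, k3⟩ := H n M X m P hn (h.af h1) (h.dec h2) (h.trapped h3) (h.energy h4)
    (h.momentum h5)
  have h6 : (3 : ℝ) ≤ n := by exact_mod_cast hn
  have h7 : 0 ≤ omega n := mul_nonneg (by positivity) (MeasureTheory.integral_nonneg fun _ =>
    zero_le_one)
  refine ⟨ne_top_of_le_ne_top k1 h.amin, k2, le_trans ?_ k3⟩
  refine div_le_div_of_nonneg_right (Real.rpow_le_rpow (div_nonneg ENNReal.toReal_nonneg h7)
    (div_le_div_of_nonneg_right (ENNReal.toReal_mono k1 h.amin) h7)
    (div_nonneg (by linarith) (by linarith))) zero_le_two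

end Vale.Agent.P366N
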