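import Vale.Agent.P366N.Adm

/-!
# P366N: the final statement with the existence of the ADM limits
-/

open Manifold
open scoped ContDiff
open Vale.Agent.P366.Stmt

namespace Vale.Agent.P366N

/-- **the final statement** -/
def FINAL3 : Prop := ∀ (n : ℕ) [NeZero n] (Ω : Type) [TopologicalSpace Ω] [T2Space Ω]
  [ConnectedSpace Ω] [ChartedSpace (EuclideanHalfSpace n) Ω] [IsManifold (𝓡∂ n) ∞ Ω]
  [MeasurableSpace Ω] [BorelSpace Ω] (D : St.Data n Ω), 3 ≤ n → D.IsAF → D.DEC → D.Trapped →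
    (D.IsL1 → ∃ m P, D.IsEnergy m ∧ D.IsMomentum P) ∧
      ∀ (m : ℝ) (P : Fin n → ℝ), D.IsEnergy m → D.IsMomentum P →
        D.Amin ≠ ⊤ ∧ √(∑ i, P i ^ 2) < m ∧
          (D.Amin.toReal / omega n) ^ (((n : ℝ) - 2) / (n - 1)) / 2 ≤ √(m ^ 2 - ∑ i, P i ^ 2)

theorem final3_of (H : P366M.FULL) : FINAL3 := fun n _ Ω _ _ _ _ _ _ _ D hn h1 h2 h3 =>
  ⟨D.adm hn h1, fun m P => final2_of H n Ω D m P hn h1 h2 h3⟩

end Vale.Agent.P366N
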