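import Vale.Agent.P366N.Mk0
import Mathlib.Topology.Maps.Proper.CompactlyGenerated

/-!
# P366N: an atlas with finitely many end charts; the position and the embedding
-/

open Filter Topology Set Metric Function
open scoped ContDiff
open Vale.Agent.P366.Stmt (E)
open Vale.Agent.P366M (Ch)

noncomputable section

namespace Vale.Agent.P366N

section SA

variable {P : Type} [TopologicalSpace P] {V W W' : Type} [NormedAddCommGroup V] [NormedSpace ℝ V]
  [NormedAddCommGroup W] [NormedSpace ℝ W] [NormedAddCommGroup W'] [NormedSpace ℝ W']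
  {A : Atl P V}

/-- smooth functions -/
def Atl.SA (A : Atl P V) (u : P → W) : Prop := ∀ e, A.Mx e → Sm e u univ

theorem Atl.SA.cont {u : P → W} (h : A.SA u) : Continuous u :=
  continuous_iff_continuousAt.2 fun x => by
    obtain ⟨c, hc, hx⟩ := A.cov x
    refine ((h c (A.mx hc) _ (c.map_source hx) trivial).continuousAt.comp
      (c.continuousAt hx)).congr ?_
    filter_upwards [c.open_source.mem_nhds hx] with z hz
    simp only [Function.comp, c.left_inv hz]

theorem Atl.SA.prodMk {u : P → W} {v : P → W'} (h : A.SA u) (h' : A.SA v) :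
    A.SA fun x => (u x, v x) := fun e he y hy k => (h e he y hy k).prodMk (h' e he y hy k)

theorem Atl.SA.pi {κ : Type} [Fintype κ] {u : P → κ → W} (h : ∀ k, A.SA fun x => u x k) :
    A.SA u := fun e he y hy k => contDiffAt_pi.2 fun i => h i e he y hy k

theorem Atl.SA.sum {κ : Type} [Fintype κ] {u : κ → P → W} (h : ∀ k, A.SA (u k)) :
    A.SA fun x => ∑ k, u k x := fun e he y hy k => ContDiffAt.sum fun i _ => h i e he y hy k

theorem Atl.Mx.ind {c : OpenPartialHomeomorph P V} (hc : A.Mx c) {φ : V → W}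
    (hφ : ∀ y ∈ c.target, ContDiffAt ℝ ∞ φ y) {K : Set P} (hK : IsClosed K) (hKs : K ⊆ c.source)
    (h0 : ∀ x ∈ c.source, x ∉ K → φ (c x) = 0) : A.SA (c.source.indicator fun x => φ (c x)) := by
  intro e he y hy _
  by_cases hx : e.symm y ∈ c.source
  · refine ((hφ _ (c.map_source hx)).comp y (he.cp hc y hy hx)).congr_of_eventuallyEq ?_
    filter_upwards [(e.continuousAt_symm hy).eventually (c.open_source.mem_nhds hx)] with z hz
    exact indicator_of_mem hz _
  · refine (contDiffAt_const (c := 0)).congr_of_eventuallyEq ?_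
    filter_upwards [(e.continuousAt_symm hy).eventually
      (hK.isOpen_compl.mem_nhds fun k => hx (hKs k))] with z hz
    exact indicator_apply_eq_zero.2 fun k => h0 _ k hz

end SA

/-- an atlas with finitely many end charts -/
structure Pre (n : ℕ) (M ι : Type) [TopologicalSpace M] where
  A : Atl M (E n)
  Y : ι → Ch n M
  R₁ : ℝ
  R1 : 0 ≤ R₁
  mx : ∀ j, A.Mx (Y j)
  tg : ∀ j, (Y j).target = {y | R₁ < ‖y‖}
  dj : ∀ j j', j ≠ j' → Disjoint (Y j).source (Y j').source
  cl : ∀ j, ∀ R > R₁, IsClosed {x | x ∈ (Y j).source ∧ R ≤ ‖Y j x‖}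
  cpt : ∀ R > R₁, IsCompact {x | ∀ j, x ∈ (Y j).source → ‖Y j x‖ ≤ R}

namespace Pre

variable {n : ℕ} {M ι : Type} [TopologicalSpace M] [Fintype ι] (P : Pre n M ι)

/-- the profile -/
def bt (y : E n) : ℝ := Real.smoothTransition ((‖y‖ ^ 2 - (P.R₁ + 1) ^ 2) / (2 * P.R₁ + 3))

/-- the indicator of the end `j` -/
def ta (j : ι) : M → ℝ := (P.Y j).source.indicator fun x => P.bt (P.Y j x)

/-- the position -/
def px (x : M) : E n := ∑ j, (P.Y j).source.indicator (fun x => P.bt (P.Y j x) • P.Y j x) x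

omit [Fintype ι] in
theorem cd_bt : ContDiff ℝ ∞ P.bt :=
  Real.smoothTransition.contDiff.comp (((contDiff_norm_sq ℝ).sub contDiff_const).div_const _)

omit [Fintype ι] in
theorem bt_zero {y : E n} (h : ‖y‖ ≤ P.R₁ + 1) : P.bt y = 0 :=
  Real.smoothTransition.zero_of_nonpos (div_nonpos_of_nonpos_of_nonneg
    (by nlinarith [norm_nonneg y]) (by linarith [P.R1]))

omit [Fintype ι] in
theorem bt_one {y : E n} (h : P.R₁ + 2 ≤ ‖y‖) : P.bt y = 1 :=
  Real.smoothTransition.one_of_one_le ((one_le_div (by linarith [P.R1])).2 (by nlinarith [P.R1]))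

omit [Fintype ι] in
theorem sa_ta (j : ι) : P.A.SA (P.ta j) :=
  (P.mx j).ind (fun _ _ => P.cd_bt.contDiffAt) (P.cl j (P.R₁ + 1) (by linarith)) (fun _ h => h.1)
    fun _ hx h => P.bt_zero (not_le.1 fun k => h ⟨hx, k⟩).le

theorem sa_px : P.A.SA P.px := Atl.SA.sum fun j =>
  (P.mx j).ind (φ := fun y => P.bt y • y) (fun _ _ => P.cd_bt.contDiffAt.smul contDiffAt_id)
    (P.cl j (P.R₁ + 1) (by linarith)) (fun _ h => h.1)
    fun _ hx h => by rw [P.bt_zero (not_le.1 fun k => h ⟨hx, k⟩).le, zero_smul]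

variable {P} {x : M} {j : ι}

theorem px_mem (hx : x ∈ (P.Y j).source) : P.px x = P.bt (P.Y j x) • P.Y j x := by
  rw [px, Finset.sum_eq_single j (fun j' _ h => indicator_of_notMem
    (fun k => disjoint_left.1 (P.dj j' j h) k hx) _) (by simp), indicator_of_mem hx]

theorem px_far (hx : x ∈ (P.Y j).source) (h : P.R₁ + 2 ≤ ‖P.Y j x‖) : P.px x = P.Y j x := by
  rw [px_mem hx, P.bt_one h, one_smul]

theorem of_px (h : P.R₁ + 2 ≤ ‖P.px x‖) : ∃ j, x ∈ (P.Y j).source ∧ P.Y j x = P.px x := by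
  by_cases k : ∃ j, x ∈ (P.Y j).source
  · obtain ⟨j, hj⟩ := k
    refine ⟨j, hj, (px_far hj (h.trans ?_)).symm⟩
    rw [px_mem hj, norm_smul, bt, Real.norm_of_nonneg (Real.smoothTransition.nonneg _)]
    exact mul_le_of_le_one_left (norm_nonneg _) (Real.smoothTransition.le_one _)
  · push Not at k
    rw [px, Finset.sum_eq_zero fun j _ => indicator_of_notMem (k j) _, norm_zero] at h
    linarith [P.R1]

omit [Fintype ι] in
theorem mem_tg {y : E n} (h : P.R₁ < ‖y‖) : y ∈ (P.Y j).target := by rw [P.tg]; exact h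

theorem px_symm {y : E n} (h : P.R₁ + 2 ≤ ‖y‖) : P.px ((P.Y j).symm y) = y := by
  have k : y ∈ (P.Y j).target := mem_tg (by linarith)
  rw [px_far ((P.Y j).map_target k) (by rwa [(P.Y j).right_inv k]), (P.Y j).right_inv k]

omit [Fintype ι] in
theorem ta_symm {y : E n} (h : P.R₁ + 2 ≤ ‖y‖) (j' : ι) [Decidable (j' = j)] :
    P.ta j' ((P.Y j).symm y) = if j' = j then 1 else 0 := by
  have k : y ∈ (P.Y j).target := mem_tg (by linarith)
  split_ifs with e
  · rw [e, ta, indicator_of_mem ((P.Y j).map_target k), (P.Y j).right_inv k, P.bt_one h]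
  · exact indicator_of_notMem (fun l => disjoint_left.1 (P.dj j' j e) l ((P.Y j).map_target k)) _

variable (P)

theorem cpt_px (R : ℝ) : IsCompact {x | ‖P.px x‖ ≤ R} :=
  (P.cpt (max R (P.R₁ + 2)) (lt_max_of_lt_right (by linarith))).of_isClosed_subset
    (isClosed_le P.sa_px.cont.norm continuous_const) fun x hx j hj => by
      by_contra k
      rw [not_le, max_lt_iff] at k
      rw [mem_ofPred_eq, px_far hj k.2.le] at hx
      exact k.1.not_ge hx

/-- finitely many charts onto the whole space that cover a bounded set -/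
theorem exists_cover (R : ℝ) : ∃ (κ : Type) (_ : Fintype κ) (c : κ → Ch n M) (a : κ → E n),
    (∀ k, P.A.Mx (c k) ∧ (c k).target = univ ∧ ∀ x ∈ (c k).source, ‖P.px x‖ < R + 1) ∧
      ∀ x, ‖P.px x‖ ≤ R → ∃ k, x ∈ (c k).source ∧ c k x ∈ ball (a k) 1 := by
  have h : ∀ x : {x // ‖P.px x‖ ≤ R}, ∃ e : Ch n M, P.A.Mx e ∧ e.target = univ ∧ x.1 ∈ e.source ∧
      ∀ z ∈ e.source, ‖P.px z‖ < R + 1 := fun x => by
    obtain ⟨c, hc, hx⟩ := P.A.cov x
    obtain ⟨e, h1, h2, h3, h4, -⟩ := (P.A.mx hc).germ hx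
      ((isOpen_lt P.sa_px.cont.norm continuous_const (g := fun _ => R + 1)).mem_nhds
        (lt_of_le_of_lt x.2 (lt_add_one R)))
    exact ⟨e, h1, h2, h3, fun z hz => (h4 hz).1⟩
  choose e h1 h2 h3 h4 using h
  obtain ⟨t, ht⟩ := (P.cpt_px R).elim_finite_subcover
    (fun x => (e x).source ∩ e x ⁻¹' ball (e x x) 1)
    (fun x => (e x).isOpen_inter_preimage isOpen_ball)
    fun x hx => mem_iUnion.2 ⟨⟨x, hx⟩, h3 _, mem_ball_self one_pos⟩
  refine ⟨t, inferInstance, fun k => e k, fun k => e k k, fun k => ⟨h1 _, h2 _, h4 _⟩,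
    fun x hx => ?_⟩
  obtain ⟨k, hk, h⟩ := mem_iUnion₂.1 (ht hx)
  exact ⟨⟨k, hk⟩, h⟩

/-- the embedding -/
theorem exists_emb [T2Space M] : ∃ (V : Type) (_ : NormedAddCommGroup V) (_ : NormedSpace ℝ V)
    (_ : SecondCountableTopology V) (Ψ : M → V), IsEmbedding Ψ ∧ P.A.SA Ψ ∧
    (∀ x, ∃ c, P.A.Mx c ∧ x ∈ c.source ∧ ∃ π : V → E n, LipschitzWith 1 π ∧
      ∀ᶠ x' in 𝓝 x, c x' = π (Ψ x')) ∧ (∀ x y, ‖P.px x - P.px y‖ ≤ dist (Ψ x) (Ψ y)) ∧
    (∀ j y z, P.R₁ + 4 ≤ ‖y‖ → P.R₁ + 4 ≤ ‖z‖ →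
      dist (Ψ ((P.Y j).symm y)) (Ψ ((P.Y j).symm z)) = ‖y - z‖) ∧
    ∀ j j' y z, j ≠ j' → P.R₁ + 4 ≤ ‖y‖ → P.R₁ + 4 ≤ ‖z‖ →
      1 ≤ dist (Ψ ((P.Y j).symm y)) (Ψ ((P.Y j').symm z)) := by
  classical
  obtain ⟨κ, _, c, a, h1, h2⟩ := P.exists_cover (P.R₁ + 3)
  let φ : ∀ k, ContDiffBump (a k) := fun k => ⟨1, 2, one_pos, one_lt_two⟩
  let W : M → κ → E n × ℝ := fun x k => (c k).source.indicator
    (fun x => (φ k (c k x) • c k x, φ k (c k x))) x
  have hW : P.A.SA W := Atl.SA.pi fun k => (h1 k).1.ind (φ := fun y => (φ k y • y, φ k y))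
    (K := (c k).symm '' closedBall (a k) 2)
    (fun _ _ => ((φ k).contDiffAt.smul contDiffAt_id).prodMk (φ k).contDiffAt)
    ((isCompact_closedBall _ _).image_of_continuousOn
      ((c k).continuousOn_symm.mono (by rw [(h1 k).2.1]; exact subset_univ _))).isClosed
    (by rintro _ ⟨y, -, rfl⟩; exact (c k).map_target ((h1 k).2.1 ▸ mem_univ y))
    fun x hx h => by
      have : φ k (c k x) = 0 := (φ k).zero_of_le_dist
        (not_lt.1 fun l => h ⟨_, mem_closedBall.2 l.le, (c k).left_inv hx⟩)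
      simp [this]
  have hW1 : ∀ x k, x ∈ (c k).source → c k x ∈ ball (a k) 1 → W x k = (c k x, 1) :=
    fun x k hx h => by
      simp only [W, indicator_of_mem hx, (φ k).one_of_mem_closedBall (ball_subset_closedBall h),
        one_smul]
  have hW0 : ∀ x, P.R₁ + 4 ≤ ‖P.px x‖ → W x = 0 := fun x hx => funext fun k =>
    indicator_of_notMem (fun l => by linarith [(h1 k).2.2 x l]) _
  let Ψ : M → E n × (ι → ℝ) × (κ → E n × ℝ) := fun x => (P.px x, fun j => P.ta j x, W x)
  have hΨ : P.A.SA Ψ := P.sa_px.prodMk ((Atl.SA.pi P.sa_ta).prodMk hW)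
  have hinj : Injective Ψ := fun x y h => by
    have e1 : P.px x = P.px y := congrArg Prod.fst h
    by_cases hx : P.R₁ + 2 ≤ ‖P.px x‖
    · obtain ⟨j, k1, k2⟩ := of_px hx
      obtain ⟨j', l1, l2⟩ := of_px (e1 ▸ hx)
      have e2 : P.ta j x = P.ta j y := congrFun (congrArg (fun q => q.2.1) h) j
      rw [← (P.Y j).left_inv k1, ← (P.Y j').left_inv l1, k2, l2, ta_symm hx,
        ta_symm (e1 ▸ hx), if_pos rfl] at e2
      have e3 : j = j' := by
        by_contra l
        rw [if_neg l] at e2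
        exact one_ne_zero e2
      subst e3
      exact (P.Y j).injOn k1 l1 (by rw [k2, l2, e1])
    · obtain ⟨k, k1, k2⟩ := h2 x (by linarith [not_le.1 hx])
      have e2 : W y k = (c k x, 1) := by
        rw [← hW1 x k k1 k2]
        exact (congrFun (congrArg (fun q => q.2.2) h) k).symm
      have l1 : y ∈ (c k).source := by
        by_contra l
        simp only [W, indicator_of_notMem l] at e2
        exact zero_ne_one (congrArg Prod.snd e2)
      simp only [W, indicator_of_mem l1, Prod.mk.injEq] at e2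
      rw [e2.2, one_smul] at e2
      exact (c k).injOn k1 l1 e2.1.symm
  have hpr : IsProperMap Ψ := isProperMap_iff_isCompact_preimage.2 ⟨hΨ.cont, fun K hK => by
    obtain ⟨R, hR⟩ := hK.isBounded.exists_norm_le
    exact (P.cpt_px R).of_isClosed_subset (hK.isClosed.preimage hΨ.cont)
      fun x hx => (norm_fst_le (Ψ x)).trans (hR _ hx)⟩
  refine ⟨_, inferInstance, inferInstance, inferInstance, Ψ,
    (IsClosedEmbedding.of_continuous_injective_isClosedMap hΨ.cont hinj
      hpr.isClosedMap).isEmbedding, hΨ, fun x => ?_, fun x y => ?_, fun j y z hy hz => ?_,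
    fun j j' y z h hy hz => ?_⟩
  · by_cases hx : P.R₁ + 2 < ‖P.px x‖
    · obtain ⟨j, k1, k2⟩ := of_px hx.le
      refine ⟨_, P.mx j, k1, Prod.fst, LipschitzWith.prod_fst, ?_⟩
      filter_upwards [(P.Y j).open_source.mem_nhds k1,
        ((P.Y j).continuousAt k1).norm.eventually (lt_mem_nhds (k2 ▸ hx))] with z l1 l2
      exact (px_far l1 l2.le).symm
    · obtain ⟨k, k1, k2⟩ := h2 x (by linarith [not_lt.1 hx])
      refine ⟨_, (h1 k).1, k1, fun q => (q.2.2 k).1, ?_, ?_⟩
      · refine LipschitzWith.of_dist_le_mul fun q q' => ?_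
        rw [NNReal.coe_one, one_mul]
        exact (le_max_left _ _).trans ((dist_le_pi_dist q.2.2 q'.2.2 k).trans
          ((le_max_right _ _).trans (le_max_right _ _)))
      · filter_upwards [((c k).isOpen_inter_preimage isOpen_ball).mem_nhds ⟨k1, k2⟩] with z l
        exact (congrArg Prod.fst (hW1 z k l.1 l.2)).symm
  · rw [← dist_eq_norm]
    exact le_max_left _ _
  · have e : ∀ y : E n, P.R₁ + 4 ≤ ‖y‖ →
        Ψ ((P.Y j).symm y) = (y, fun j' => if j' = j then 1 else 0, 0) := fun y hy => by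
      have := px_symm (j := j) (show P.R₁ + 2 ≤ ‖y‖ by linarith)
      exact Prod.ext this (Prod.ext (funext fun j' => ta_symm (by linarith) j')
        (hW0 _ (by rwa [this])))
    rw [e y hy, e z hz, Prod.dist_eq, dist_self, dist_eq_norm, max_eq_left (norm_nonneg _)]
  · refine le_trans ?_ ((le_max_left _ _).trans (le_max_right _ _))
    refine le_trans ?_ (dist_le_pi_dist _ _ j)
    simp only [Ψ]
    rw [ta_symm (by linarith), ta_symm (by linarith), if_pos rfl, if_neg h]
    simp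

end Pre

end Vale.Agent.P366N
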