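import Vale.Agent.P366C.Ana
import Vale.Agent.P366M.Map

/-!
# P366N: normalised charts
-/

open MeasureTheory Metric Filter Topology Set
open scoped ContDiff MatrixOrder
open Vale.Agent.P366 hiding E Field
open Vale.Agent.P366.Stmt Vale.Agent.P366Z

noncomputable section

namespace Vale.Agent.P366M.An

variable {n : ℕ}

/-- uniformity on compact spaces -/
theorem unif {X A : Type} [TopologicalSpace X] [CompactSpace X] {l : Filter A} {P : A → X → Prop}
    (h : ∀ p, ∃ U ∈ 𝓝 p, ∀ᶠ a in l, ∀ x ∈ U, P a x) : ∀ᶠ a in l, ∀ x, P a x := by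
  have := isCompact_univ.induction_on (p := fun s => ∀ᶠ a in l, ∀ x ∈ s, P a x) (by simp)
    (fun s t hst k => k.mono fun a ha x hx => ha x (hst hx))
    (fun s t k k' => (k.and k').mono fun a ha x hx => hx.elim (ha.1 x) (ha.2 x))
    fun p _ => let ⟨U, h1, h2⟩ := h p; ⟨U, mem_nhdsWithin_of_mem_nhds h1, h2⟩
  simpa using this

/-- the inverse metric is close to the unit matrix at `y` -/
structure Nu (G : Field n) (y : E n) : Prop where
  lo : ∀ ξ : Fin n → ℝ, ∑ i, ξ i ^ 2 ≤ 2 * ∑ i, ∑ j, Stmt.up G i j y * ξ i * ξ j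
  tr : ∑ i, Stmt.up G i i y ≤ n + 1

theorem nu_of {G : Field n} {y : E n}
    (h : ∀ i j, |Stmt.up G i j y - if i = j then 1 else 0| ≤ 1 / (2 * (n + 1))) : Nu G y := by
  have n0 : (0 : ℝ) ≤ n := Nat.cast_nonneg n
  have k : (n : ℝ) * (1 / (2 * (n + 1))) ≤ 1 / 2 := by
    rw [mul_one_div, div_le_div_iff₀ (by positivity) two_pos]; linarith
  refine ⟨fun ξ => ?_, ?_⟩
  · have := quad_le_of_bd (M := fun i j => (if i = j then 1 else 0) - Stmt.up G i j y)
      (fun i j => by rw [abs_sub_comm]; exact h i j) ξ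
    simp only [sub_mul, Finset.sum_sub_distrib, ite_mul, one_mul, zero_mul, Finset.sum_ite_eq,
      Finset.mem_univ, if_true, ← sq] at this
    have s0 : 0 ≤ ∑ i, ξ i ^ 2 := Finset.sum_nonneg fun i _ => sq_nonneg _
    nlinarith
  · have := Finset.sum_le_sum (s := Finset.univ) fun i _ =>
      (show Stmt.up G i i y ≤ 1 + 1 / (2 * (n + 1)) by
        have := (abs_le.1 (h i i)).2; rw [if_pos rfl] at this; linarith)
    simp only [Finset.sum_const, Finset.card_univ, Fintype.card_fin, nsmul_eq_mul, mul_add] at this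
    simp only [mul_add] at k
    linarith

theorem Nu.norm_le {G : Field n} {y : E n} (h : Nu G y) (hG : P366Z.Met G) {u : E n → ℝ}
    (hu : DifferentiableAt ℝ u y) : ‖fderiv ℝ u y‖ ≤ 2 * P366Z.gn G u y := by
  have h2 := P366Z.gn_nonneg G u y
  refine (abs_le_of_sq_le_sq' ?_ (by positivity)).2
  rw [mul_pow, hG.gn_sq, P366Z.norm_fderiv_sq hu]
  have := hG.ip_nonneg u y
  exact (h.lo _).trans (by unfold P366Z.ip at this ⊢; linarith)

/-- **the normalised chart** -/
theorem exists_nch {X : Type} [Mf0 n X] {g : Fld n X} (hg : Met g) (p : X) :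
    ∃ e ∈ At X, e.symm 0 = p ∧ Stmt.mat (rep e g) 0 = 1 := by
  classical
  have hp := hg.inv_pos p
  obtain ⟨B, hB⟩ := CStarAlgebra.nonneg_iff_eq_star_mul_self.mp hp.posSemidef.nonneg
  have hd : IsUnit (star B).det := by
    have := hp.det_pos
    rw [hB, Matrix.det_mul] at this
    exact isUnit_iff_ne_zero.2 fun k => by simp [k] at this
  have := Matrix.invertibleOfIsUnitDet _ hd
  let A : E n ≃L[ℝ] E n := (Matrix.toLinearEquiv' (star B) this).toContinuousLinearEquiv.trans
    (EuclideanSpace.equiv (Fin n) ℝ).symm |> (EuclideanSpace.equiv (Fin n) ℝ).trans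
  obtain ⟨e, he, h1, -⟩ := exists_affine (ch_mem p) (pt p) A
  have h0 : e.symm 0 = p := by rw [h1, map_zero, add_zero, symm_pt]
  refine ⟨e, he, h0, ?_⟩
  have hs : (e.symm : E n → X) = fun w => (ch p).symm (pt p + A w) := funext h1
  have d : DifferentiableAt ℝ (fun w => pt p + A w) 0 := by fun_prop
  have hj : jac (fun w => pt p + A w) 0 = star B := by
    ext k i
    have : (fun z : E n => (pt p + A z) k) = fun z => pt p k + ∑ j, star B k j * z j := by
      funext z; rfl
    rw [jac, this, P366Z.pd_const_add, P366Z.pd_sum _ fun j _ => by fun_prop]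
    simp [P366Z.pd_const_mul, P366Z.pd_coord]
  have h4 : rep e g 0 = P366D.pb (fun w => pt p + A w) (rep (ch p) g) 0 := by
    rw [P366D.rep_eq_pl, hs]
    exact (P366D.smP_symm (ch_mem p) _).pl_comp d g
  have h5 : Stmt.mat (rep e g) 0 = Stmt.mat (P366D.pb (fun w => pt p + A w) (rep (ch p) g)) 0 := h4
  rw [h5, P366D.mat_pb, hj, map_zero, add_zero, mat_pt]
  have h2 : mat g p = (star B * B)⁻¹ := by
    rw [← hB, Matrix.nonsing_inv_nonsing_inv _ (isUnit_iff_ne_zero.2 (hg.pos p).det_pos.ne')]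
  have h3 : (star B).transpose = B := by ext i j; simp
  have hd' : IsUnit B.det := by rwa [← h3, Matrix.det_transpose]
  rw [h2, h3, Matrix.mul_inv_rev, ← Matrix.mul_assoc, Matrix.mul_nonsing_inv _ hd', Matrix.one_mul,
    Matrix.nonsing_inv_mul _ hd]

/-- the normalised chart on a small ball -/
theorem exists_nu {X : Type} [Mf0 n X] {g : Fld n X} (hg : Met g) (p : X) :
    ∃ e ∈ At X, e.symm 0 = p ∧ ∃ δ > (0 : ℝ), ∀ y ∈ closedBall (0 : E n) (2 * δ),
      Nu (rep e g) y := by
  obtain ⟨e, he, h0, h1⟩ := exists_nch hg p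
  have ev : ∀ᶠ y in 𝓝 (0 : E n), ∀ i j,
      |Stmt.up (rep e g) i j y - if i = j then 1 else 0| ≤ 1 / (2 * (n + 1)) := by
    simp only [eventually_all]
    intro i j
    have c := ((hg.rep he).sm_up i j).cont
    refine ((c.sub continuous_const).abs.continuousAt.eventually (gt_mem_nhds ?_)).mono
      fun y hy => hy.le
    show |Stmt.up (rep e g) i j 0 - _| < _
    simp only [Stmt.up, h1, inv_one, Matrix.one_apply, sub_self, abs_zero]
    positivity
  obtain ⟨δ, δ0, hδ⟩ := nhds_basis_closedBall.eventually_iff.1 ev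
  exact ⟨e, he, h0, δ / 2, half_pos δ0, fun y hy => nu_of (hδ (by rwa [mul_div_cancel₀ _ two_ne_zero] at hy))⟩

end Vale.Agent.P366M.An
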