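import Mathlib.Analysis.Calculus.InverseFunctionTheorem.ContDiff
import Mathlib.Analysis.SpecialFunctions.Sqrt
import Mathlib.Analysis.Normed.Operator.BoundedLinearMaps
import Mathlib.Topology.OpenPartialHomeomorph.Constructions
import Mathlib.Tactic

/-!
# P366N: compatible charts, slices, the double of a region
-/

open Filter Topology Set
open scoped ContDiff

noncomputable section

namespace Vale.Agent.P366N

section cp

variable {P : Type} [TopologicalSpace P] {V V' W : Type} [NormedAddCommGroup V] [NormedSpace ℝ V]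
  [NormedAddCommGroup V'] [NormedSpace ℝ V'] [NormedAddCommGroup W] [NormedSpace ℝ W]

/-- `u` is smooth on `U` in the chart `c` -/
def Sm (c : OpenPartialHomeomorph P V) (u : P → W) (U : Set P) : Prop :=
  ∀ y ∈ c.target, c.symm y ∈ U → ContDiffAt ℝ ∞ (fun z => u (c.symm z)) y

/-- the transition from `c` to `c'` is smooth -/
def Cp (c : OpenPartialHomeomorph P V) (c' : OpenPartialHomeomorph P V') : Prop := Sm c c' c'.source

theorem Cp.at {c : OpenPartialHomeomorph P V} {c' : OpenPartialHomeomorph P V'} (h : Cp c' c)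
    {u : P → W} {y : V'} {m : WithTop ℕ∞} (hm : m ≤ ∞) (hy : y ∈ c'.target)
    (hs : c'.symm y ∈ c.source) (hu : ContDiffAt ℝ m (fun z => u (c.symm z)) (c (c'.symm y))) :
    ContDiffAt ℝ m (fun z => u (c'.symm z)) y := by
  refine (hu.comp y ((h y hy hs).of_le hm)).congr_of_eventuallyEq ?_
  filter_upwards [(c'.continuousAt_symm hy).eventually (c.open_source.mem_nhds hs)] with z hz
  simp only [Function.comp, c.left_inv hz]

theorem Cp.refl (c : OpenPartialHomeomorph P V) : Cp c c := fun y hy _ =>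
  contDiffAt_id.congr_of_eventuallyEq
    (by filter_upwards [c.open_target.mem_nhds hy] with z hz using c.right_inv hz)

/-- a smooth atlas -/
structure Atl (P V : Type) [TopologicalSpace P] [NormedAddCommGroup V] [NormedSpace ℝ V] where
  s : Set (OpenPartialHomeomorph P V)
  cov : ∀ p, ∃ c ∈ s, p ∈ c.source
  cp : ∀ c ∈ s, ∀ c' ∈ s, Cp c c'

/-- the charts that are compatible with the atlas -/
def Atl.Mx (A : Atl P V) (c : OpenPartialHomeomorph P V) : Prop := ∀ b ∈ A.s, Cp c b ∧ Cp b c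

variable {A : Atl P V} {c c' : OpenPartialHomeomorph P V}

theorem Atl.mx (A : Atl P V) (h : c ∈ A.s) : A.Mx c := fun b hb => ⟨A.cp c h b hb, A.cp b hb c h⟩

theorem Atl.Mx.cp (h : A.Mx c) (h' : A.Mx c') : Cp c c' := fun y hy hs => by
  obtain ⟨b, hb, hp⟩ := A.cov (c.symm y)
  exact (h b hb).1.at le_rfl hy hp
    ((h' b hb).2 _ (b.map_source hp) (by rwa [b.left_inv hp]))

theorem Atl.Mx.at (h : A.Mx c) (h' : A.Mx c') {u : P → W} {p : P} {m : WithTop ℕ∞} (hm : m ≤ ∞)
    (hp : p ∈ c.source) (hp' : p ∈ c'.source)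
    (hu : ContDiffAt ℝ m (fun z => u (c.symm z)) (c p)) :
    ContDiffAt ℝ m (fun z => u (c'.symm z)) (c' p) :=
  (h'.cp h).at hm (c'.map_source hp') (by rwa [c'.left_inv hp']) (by rwa [c'.left_inv hp'])

/-- a local diffeomorphism of normed spaces -/
structure LD (θ : OpenPartialHomeomorph V V') : Prop where
  fw : ∀ y ∈ θ.source, ContDiffAt ℝ ∞ θ y
  inv : ∀ y ∈ θ.target, ContDiffAt ℝ ∞ θ.symm y

theorem LD.symm {θ : OpenPartialHomeomorph V V'} (h : LD θ) : LD θ.symm := ⟨h.inv, h.fw⟩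

theorem Atl.Mx.trans (h : A.Mx c) {θ : OpenPartialHomeomorph V V} (hθ : LD θ) :
    A.Mx (c.trans θ) := fun b hb => by
  constructor
  · intro y hy hs
    exact ((h b hb).1 _ hy.2 hs).comp y (hθ.inv y hy.1)
  · intro y hy hs
    exact ContDiffAt.comp (g := θ) (f := fun z => c (b.symm z)) y (hθ.fw _ hs.2)
      ((h b hb).2 y hy hs.1)

theorem Atl.Mx.restr (h : A.Mx c) {s : Set P} (hs : IsOpen s) : A.Mx (c.restrOpen s hs) :=
  fun b hb => ⟨fun y hy k => (h b hb).1 y hy.1 k, fun y hy k => (h b hb).2 y hy k.1⟩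

/-- the inverse function theorem -/
theorem locdiff [CompleteSpace V] {f : V → V'} {U : Set V} (hU : IsOpen U) {a : V} (ha : a ∈ U)
    (hf : ∀ y ∈ U, ContDiffAt ℝ ∞ f y) (L : V ≃L[ℝ] V') (hL : HasFDerivAt f (L : V →L[ℝ] V') a) :
    ∃ θ : OpenPartialHomeomorph V V', a ∈ θ.source ∧ θ.source ⊆ U ∧ (∀ y, θ y = f y) ∧ LD θ := by
  have h1 : ContinuousAt (fderiv ℝ f) a :=
    ((hf a ha).fderiv_right (m := 0) (by simp)).continuousAt
  have h2 : ∀ᶠ y in 𝓝 a, fderiv ℝ f y ∈ range ((↑) : (V ≃L[ℝ] V') → V →L[ℝ] V') :=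
    h1.eventually (ContinuousLinearEquiv.isOpen.mem_nhds ⟨L, hL.fderiv.symm⟩)
  obtain ⟨t, ht, tp, ta⟩ := eventually_nhds_iff.1 (h2.and (hU.mem_nhds ha))
  let θ := ((hf a ha).toOpenPartialHomeomorph f hL (by simp)).restrOpen t tp
  have hs : ∀ y ∈ θ.source, y ∈ t := fun y hy => hy.2
  refine ⟨θ, ⟨(hf a ha).mem_toOpenPartialHomeomorph_source hL (by simp), ta⟩,
    fun y hy => (ht y (hs y hy)).2, fun _ => rfl, fun y hy => hf y (ht y (hs y hy)).2,
    fun w hw => ?_⟩
  obtain ⟨⟨L', hL'⟩, k⟩ := ht _ (hs _ (θ.map_target hw))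
  refine θ.contDiffAt_symm (f₀' := L') hw ?_ (hf _ k)
  rw [hL']
  exact ((hf _ k).differentiableAt (by simp)).hasFDerivAt

end cp

section slice

variable {P : Type} [TopologicalSpace P] {V : Type} [TopologicalSpace V] {S : Set P}

open Classical in
/-- the chart of a slice -/
def slice (β : OpenPartialHomeomorph P (V × ℝ)) (h : ∀ q ∈ β.source, q ∈ S ↔ (β q).2 = 0)
    (p₀ : S) : OpenPartialHomeomorph S V where
  toFun q := (β q).1
  invFun y := if k : (y, (0 : ℝ)) ∈ β.target then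
    ⟨β.symm (y, 0), (h _ (β.map_target k)).2 (by rw [β.right_inv k])⟩ else p₀
  source := Subtype.val ⁻¹' β.source
  target := {y | (y, (0 : ℝ)) ∈ β.target}
  map_source' q hq := by
    have : ((β q).1, (0 : ℝ)) = β q := Prod.ext rfl ((h q hq).1 q.2).symm
    show ((β q).1, (0 : ℝ)) ∈ β.target
    rw [this]
    exact β.map_source hq
  map_target' y hy := by
    have hy' : (y, (0 : ℝ)) ∈ β.target := hy
    simp only [hy', dif_pos, mem_preimage]
    exact β.map_target hy'
  left_inv' q hq := by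
    have e : ((β q).1, (0 : ℝ)) = β q := Prod.ext rfl ((h q hq).1 q.2).symm
    have k : ((β q).1, (0 : ℝ)) ∈ β.target := e ▸ β.map_source hq
    simp only [k, dif_pos]
    exact Subtype.ext (by simp only [e]; exact β.left_inv hq)
  right_inv' y hy := by
    have hy' : (y, (0 : ℝ)) ∈ β.target := hy
    simp only [hy', dif_pos, β.right_inv hy']
  open_source := β.open_source.preimage continuous_subtype_val
  open_target := β.open_target.preimage (by fun_prop)
  continuousOn_toFun := continuous_fst.comp_continuousOn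
    (β.continuousOn.comp continuous_subtype_val.continuousOn fun _ hq => hq)
  continuousOn_invFun := by
    rw [Topology.IsInducing.subtypeVal.continuousOn_iff]
    refine ContinuousOn.congr (f := fun y => β.symm (y, 0))
      (β.continuousOn_symm.comp (by fun_prop) fun _ hy => hy) fun y hy => ?_
    have hy' : (y, (0 : ℝ)) ∈ β.target := hy
    simp only [Function.comp, hy', dif_pos]

theorem slice_symm (β : OpenPartialHomeomorph P (V × ℝ))
    (h : ∀ q ∈ β.source, q ∈ S ↔ (β q).2 = 0) (p₀ : S) {y : V} (hy : y ∈ (slice β h p₀).target) :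
    ((slice β h p₀).symm y : P) = β.symm (y, 0) := by
  have hy' : (y, (0 : ℝ)) ∈ β.target := hy
  show ((slice β h p₀).invFun y : P) = _
  simp only [slice, hy', dif_pos]

end slice

section double

variable {V : Type} [NormedAddCommGroup V] [NormedSpace ℝ V]

theorem exists_lin (l : V × ℝ →L[ℝ] ℝ) (hl : l ≠ 0) :
    ∃ A : (V × ℝ) ≃L[ℝ] V × ℝ, ∀ q, (A q).2 = l q := by
  have hd : ∀ q : V × ℝ, l q = l (q.1, 0) + q.2 * l (0, 1) := fun q => by
    rw [← smul_eq_mul, ← map_smul, ← map_add]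
    simp
  by_cases h : l (0, 1) = 0
  · obtain ⟨v, hv⟩ : ∃ v : V, l (v, 0) = 1 := by
      obtain ⟨q, hq⟩ : ∃ q, l q ≠ 0 := by
        by_contra k
        push Not at k
        exact hl (ContinuousLinearMap.ext k)
      refine ⟨(l q)⁻¹ • q.1, ?_⟩
      have e : ((l q)⁻¹ • q.1, (0 : ℝ)) = (l q)⁻¹ • (q.1, (0 : ℝ)) := by simp
      have e2 : l (q.1, 0) = l q := by rw [hd q, h]; ring
      rw [e, map_smul, e2, smul_eq_mul, inv_mul_cancel₀ hq]
    let l' : V × ℝ →L[ℝ] ℝ := l.comp ((ContinuousLinearMap.inl ℝ V ℝ).comp (.fst ℝ V ℝ))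
    have hl' : ∀ q, l' q = l (q.1, 0) := fun _ => rfl
    let B : V × ℝ →L[ℝ] V × ℝ := (ContinuousLinearMap.fst ℝ V ℝ - l'.smulRight v +
      (ContinuousLinearMap.snd ℝ V ℝ).smulRight v).prod l'
    have hB : ∀ q, B q = (q.1 - l (q.1, 0) • v + q.2 • v, l (q.1, 0)) := fun _ => rfl
    have hBB : ∀ q, B (B q) = q := fun q => by
      have e : l (q.1 - l (q.1, 0) • v + q.2 • v, 0) = q.2 := by
        have : (q.1 - l (q.1, 0) • v + q.2 • v, (0 : ℝ)) =
            (q.1, 0) - l (q.1, 0) • (v, (0 : ℝ)) + q.2 • (v, (0 : ℝ)) := by simp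
        rw [this, map_add, map_sub, map_smul, map_smul, hv]
        simp
      rw [hB (B q), hB q]
      simp only [e]
      exact Prod.ext (by simp) rfl
    exact ⟨ContinuousLinearEquiv.equivOfInverse B B hBB hBB, fun q => by
      show l (q.1, 0) = l q
      rw [hd q, h]; ring⟩
  · let B : V × ℝ →L[ℝ] V × ℝ := (ContinuousLinearMap.fst ℝ V ℝ).prod l
    let l' : V × ℝ →L[ℝ] ℝ := l.comp ((ContinuousLinearMap.inl ℝ V ℝ).comp (.fst ℝ V ℝ))
    let C : V × ℝ →L[ℝ] V × ℝ := (ContinuousLinearMap.fst ℝ V ℝ).prod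
      ((l (0, 1))⁻¹ • (ContinuousLinearMap.snd ℝ V ℝ - l'))
    have hB : ∀ q, B q = (q.1, l q) := fun _ => rfl
    have hC : ∀ q, C q = (q.1, (l (0, 1))⁻¹ * (q.2 - l (q.1, 0))) := fun _ => rfl
    refine ⟨ContinuousLinearEquiv.equivOfInverse B C (fun q => ?_) (fun q => ?_), fun _ => rfl⟩
    · rw [hC, hB]
      refine Prod.ext rfl ?_
      simp only
      rw [hd q]
      field_simp
      ring
    · rw [hB, hC]
      refine Prod.ext rfl ?_
      simp only
      rw [hd]
      field_simp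
      ring

variable {Z : Type} [TopologicalSpace Z]

/-- the data of a double -/
structure Dbl (Z V : Type) [TopologicalSpace Z] [NormedAddCommGroup V] [NormedSpace ℝ V] where
  B : Set (OpenPartialHomeomorph Z V)
  f : Z → ℝ
  O : Set (Z × ℝ)
  op : IsOpen O
  cp : ∀ b ∈ B, ∀ b' ∈ B, Cp b b'
  cov : ∀ z, 0 ≤ f z → ∃ b ∈ B, z ∈ b.source
  sm : ∀ b ∈ B, Sm b f univ
  reg : ∀ b ∈ B, ∀ y ∈ b.target, f (b.symm y) = 0 → fderiv ℝ (fun z => f (b.symm z)) y ≠ 0

namespace Dbl

variable (D : Dbl Z V)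

/-- the double -/
def S : Set (Z × ℝ) := {p | p.2 ^ 2 = D.f p.1 ∧ p ∈ D.O}

/-- the good charts of the double -/
structure Good (c : OpenPartialHomeomorph D.S V) : Prop where
  fst : ∀ b ∈ D.B, Sm c (fun q => b q.1.1) {q | q.1.1 ∈ b.source}
  snd : Sm c (fun q => q.1.2) univ
  ext : ∀ q ∈ c.source, ∃ b ∈ D.B, q.1.1 ∈ b.source ∧ ∃ G : V × ℝ → V,
    ContDiffAt ℝ ∞ G (b q.1.1, q.1.2) ∧ ∀ᶠ q' in 𝓝 q, c q' = G (b q'.1.1, q'.1.2)

variable {D}

theorem Good.cp {c c' : OpenPartialHomeomorph D.S V} (h : D.Good c) (h' : D.Good c') : Cp c c' := by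
  intro y hy hs
  obtain ⟨b, hb, h1, G, h2, h3⟩ := h'.ext _ hs
  refine (h2.comp y ((h.fst b hb y hy h1).prodMk (h.snd y hy trivial))).congr_of_eventuallyEq ?_
  exact (c.continuousAt_symm hy).eventually h3

theorem exists_good [CompleteSpace V] (q : D.S) : ∃ c, D.Good c ∧ q ∈ c.source := by
  obtain ⟨b, hb, hq⟩ := D.cov q.1.1 (q.2.1 ▸ sq_nonneg _)
  let β₀ := (b.prod (OpenPartialHomeomorph.refl ℝ)).restrOpen D.O D.op
  let h : V × ℝ → ℝ := fun w => w.2 ^ 2 - D.f (b.symm w.1)
  have hh : ∀ w ∈ β₀.target, ContDiffAt ℝ ∞ h w := fun w hw =>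
    (contDiffAt_snd.pow 2).sub ((D.sm b hb w.1 hw.1.1 trivial).comp w contDiffAt_fst)
  have hq0 : q.1 ∈ β₀.source := ⟨⟨hq, trivial⟩, q.2.2⟩
  have ha := β₀.map_source hq0
  have hd := ((hh _ ha).differentiableAt (by simp)).hasFDerivAt
  have hne : fderiv ℝ h (β₀ q.1) ≠ 0 := by
    have k1 := ((D.sm b hb _ (b.map_source hq) trivial).differentiableAt (by simp)).hasFDerivAt
    have k2 : HasFDerivAt h _ (β₀ q.1) := ((hasFDerivAt_snd (𝕜 := ℝ) (p := β₀ q.1)).pow 2).sub
      (k1.comp (f := Prod.fst) (β₀ q.1) hasFDerivAt_fst)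
    rw [k2.fderiv]
    intro k
    by_cases ht : q.1.2 = 0
    · refine D.reg b hb _ (b.map_source hq) (by rw [b.left_inv hq, ← q.2.1, ht]; simp) ?_
      ext v
      have := DFunLike.congr_fun k (v, 0)
      simpa using this
    · have := DFunLike.congr_fun k (0, 1)
      simp at this
      exact ht this
  obtain ⟨A, hA⟩ := exists_lin _ hne
  have hL : HasFDerivAt (fun w => ((A w).1, h w)) (A : V × ℝ →L[ℝ] V × ℝ) (β₀ q.1) := by
    refine ((hasFDerivAt_fst.comp _ A.hasFDerivAt).prodMk hd).congr_fderiv ?_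
    ext v <;> simp [hA]
  obtain ⟨θ, t1, t2, t3, t4⟩ := locdiff β₀.open_target ha
    (fun w hw => (contDiffAt_fst.comp w A.contDiff.contDiffAt).prodMk (hh w hw)) A hL
  have hs : ∀ p ∈ (β₀.trans θ).source, p ∈ D.S ↔ ((β₀.trans θ) p).2 = 0 := fun p hp => by
    have e : ((β₀.trans θ) p).2 = p.2 ^ 2 - D.f p.1 := by
      show (θ (β₀ p)).2 = _
      rw [t3]
      show p.2 ^ 2 - D.f (b.symm (b p.1)) = _
      rw [b.left_inv hp.1.1.1]
    rw [e, sub_eq_zero]
    exact ⟨fun k => k.1, fun k => ⟨k, hp.1.2⟩⟩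
  have key : ∀ y ∈ (slice _ hs q).target, ContDiffAt ℝ ∞ (fun z : V => θ.symm (z, 0)) y ∧
      (θ.symm (y, 0)).1 ∈ b.target ∧ ∀ᶠ z in 𝓝 y, ((slice _ hs q).symm z).1 =
        (b.symm (θ.symm (z, 0)).1, (θ.symm (z, 0)).2) := fun y hy => by
    refine ⟨(t4.inv _ hy.1).comp y (contDiffAt_id.prodMk contDiffAt_const), hy.2.1.1, ?_⟩
    filter_upwards [(slice _ hs q).open_target.mem_nhds hy] with z hz
    rw [slice_symm _ _ _ hz]
    rfl
  refine ⟨slice _ hs q, ⟨fun b' hb' y hy k => ?_, fun y hy _ => ?_, fun p hp => ?_⟩, hq0, t1⟩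
  · obtain ⟨k1, k2, k3⟩ := key y hy
    have k4 : b.symm (θ.symm (y, 0)).1 ∈ b'.source := by
      have := k3.self_of_nhds
      rw [mem_ofPred_eq, this] at k
      exact k
    refine ((D.cp b hb b' hb' _ k2 k4).comp y (contDiffAt_fst.comp y k1)).congr_of_eventuallyEq ?_
    filter_upwards [k3] with z hz
    rw [hz]
    rfl
  · obtain ⟨k1, -, k3⟩ := key y hy
    refine (contDiffAt_snd.comp y k1).congr_of_eventuallyEq ?_
    filter_upwards [k3] with z hz
    rw [hz]
    rfl
  · exact ⟨b, hb, hp.1.1.1, fun w => (θ w).1, contDiffAt_fst.comp _ (t4.fw _ hp.2),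
      .of_forall fun _ => rfl⟩

variable (D) in
/-- the atlas of the double -/
def atl [CompleteSpace V] : Atl D.S V where
  s := {c | D.Good c}
  cov := exists_good
  cp _ h _ h' := Good.cp h h'

open Classical in
/-- the chart of the upper sheet over the chart `b` -/
def upper (b : OpenPartialHomeomorph Z V) (hb : b ∈ D.B) (p₀ : D.S) :
    OpenPartialHomeomorph D.S V where
  toFun q := b q.1.1
  invFun y := if k : 0 < D.f (b.symm y) ∧ (b.symm y, √(D.f (b.symm y))) ∈ D.O then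
    ⟨(b.symm y, √(D.f (b.symm y))), Real.sq_sqrt k.1.le, k.2⟩ else p₀
  source := {q | q.1.1 ∈ b.source ∧ 0 < q.1.2}
  target := {y | y ∈ b.target ∧ 0 < D.f (b.symm y) ∧ (b.symm y, √(D.f (b.symm y))) ∈ D.O}
  map_source' q hq := by
    have e : √(D.f q.1.1) = q.1.2 := by rw [← q.2.1, Real.sqrt_sq hq.2.le]
    refine ⟨b.map_source hq.1, ?_, ?_⟩ <;> rw [b.left_inv hq.1]
    · rw [← q.2.1]
      exact pow_pos hq.2 2
    · rw [e]
      exact q.2.2
  map_target' y hy := by
    simp only [hy.2, and_self, dif_pos, mem_ofPred_eq]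
    exact ⟨b.map_target hy.1, Real.sqrt_pos.2 hy.2.1⟩
  left_inv' q hq := by
    have e : √(D.f q.1.1) = q.1.2 := by rw [← q.2.1, Real.sqrt_sq hq.2.le]
    have k : 0 < D.f q.1.1 := by rw [← q.2.1]; exact pow_pos hq.2 2
    simp only [b.left_inv hq.1, e, k, q.2.2, and_self, dif_pos]
  right_inv' y hy := by
    simp only [hy.2, and_self, dif_pos, b.right_inv hy.1]
  open_source := (b.open_source.preimage (f := fun q : D.S => q.1.1) (by fun_prop)).inter
    (isOpen_lt continuous_const (f := fun _ : D.S => (0 : ℝ)) (g := fun q : D.S => q.1.2)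
      (by fun_prop))
  open_target := by
    have h1 : ContinuousOn (fun y => D.f (b.symm y)) b.target := fun y hy =>
      (D.sm b hb y hy trivial).continuousAt.continuousWithinAt
    have h2 : ContinuousOn (fun y => (D.f (b.symm y), (b.symm y, √(D.f (b.symm y))))) b.target :=
      h1.prodMk (b.continuousOn_symm.prodMk h1.sqrt)
    exact h2.isOpen_inter_preimage b.open_target (isOpen_Ioi.prod D.op)
  continuousOn_toFun := b.continuousOn.comp (by fun_prop) fun _ hq => hq.1
  continuousOn_invFun := by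
    have h1 : ContinuousOn (fun y => D.f (b.symm y)) b.target := fun y hy =>
      (D.sm b hb y hy trivial).continuousAt.continuousWithinAt
    rw [Topology.IsInducing.subtypeVal.continuousOn_iff]
    refine ContinuousOn.congr (f := fun y => (b.symm y, √(D.f (b.symm y))))
      ((b.continuousOn_symm.prodMk h1.sqrt).mono fun _ hy => hy.1) fun y hy => ?_
    simp only [Function.comp, hy.2, and_self, dif_pos]

theorem upper_symm {b : OpenPartialHomeomorph Z V} (hb : b ∈ D.B) (p₀ : D.S) {y : V}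
    (hy : y ∈ (upper b hb p₀).target) :
    ((upper b hb p₀).symm y).1 = (b.symm y, √(D.f (b.symm y))) := by
  show ((upper b hb p₀).invFun y).1 = _
  have := hy.2
  simp only [upper, this, and_self, dif_pos]

theorem upper_good {b : OpenPartialHomeomorph Z V} (hb : b ∈ D.B) (p₀ : D.S) :
    D.Good (upper b hb p₀) := by
  have key : ∀ y ∈ (upper b hb p₀).target, ∀ᶠ z in 𝓝 y,
      ((upper b hb p₀).symm z).1 = (b.symm z, √(D.f (b.symm z))) := fun y hy => by
    filter_upwards [(upper b hb p₀).open_target.mem_nhds hy] with z hz using upper_symm hb p₀ hz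
  refine ⟨fun b' hb' y hy k => ?_, fun y hy _ => ?_, fun p hp =>
    ⟨b, hb, hp.1, Prod.fst, contDiffAt_fst, .of_forall fun _ => rfl⟩⟩
  · rw [mem_ofPred_eq, upper_symm hb p₀ hy] at k
    refine (D.cp b hb b' hb' y hy.1 k).congr_of_eventuallyEq ?_
    filter_upwards [key y hy] with z hz
    rw [hz]
  · refine ((D.sm b hb y hy.1 trivial).sqrt hy.2.1.ne').congr_of_eventuallyEq ?_
    filter_upwards [key y hy] with z hz
    rw [hz]

end Dbl

end double

end Vale.Agent.P366N
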